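import Vale.Agent.P283R.Be2.Tw8a

/-!
# P283R, block BE: the core of the twist
-/

attribute [-instance] HahnSeries.powerSeriesAlgebra

open MvPolynomial

noncomputable section

namespace Vale.Agent.P283R.Tw8

open Co Tx Dr13 _root_.Vale.Agent.P283R.Btw
open Bkb (Wk)

variable {F κ : Type} [Field F] [Algebra ℂ F] [Field κ] [Algebra ℂ κ] {d N K : ℕ}
  {A : Subgroup (F ≃ₐ[ℂ] F)} {S : Subalgebra ℂ F} {p : Ideal S} {z : Fin N → F}
  {x : F →ₐ[ℂ] HahnSeries ℝ κ} {c η : ℝ} {r : ℕ} {χ : Fin N → ℤ} {e : A → Fin N → ℂ}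

theorem td (pt : Pt d A S p z) (arc : Arc S p x) (zs : ∀ f, Zs (x f)) (hη : 0 < η)
    (du : Dua c η K A z x r χ) (he : ∀ (σ : A) j, σ.1 (z j) = e σ j • z j) :
    Td e (fun j => x (z j)) (fun j => max 1 (η - χ j / r)) (fun j => χ j / r)
      (min 1 (η / max 1 (η + c))) |c| K := by
  have W : (0 : ℝ) < max 1 (η + c) := lt_max_of_lt_left one_pos
  refine ⟨fun j => ?_, fun j => le_max_left _ _, lt_min one_pos (div_pos hη W), min_le_left _ _,
    fun j => ?_, abs_nonneg _, fun j => ((le_abs_self _).trans (du.bd j)).trans (le_abs_self c),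
    fun m m' h1 h2 h3 => ?_⟩
  · obtain ⟨s, hs, es⟩ := pt.mem j
    rcases max_choice 1 (η - χ j / r) with k | k <;> rw [k]
    exacts [(zs _).one (es ▸ arc.pos s hs), du.ge j]
  · have a1 : max 1 (η - χ j / r) ≤ max 1 (η + c) :=
      max_le_max_left _ (by have := (abs_le.1 (du.bd j)).1; linarith)
    have a2 := mul_le_mul (min_le_right 1 (η / max 1 (η + c))) a1
      (zero_le_one.trans (le_max_left _ _)) (div_pos hη W).le
    rw [div_mul_cancel₀ _ W.ne'] at a2
    have := le_max_right 1 (η - χ j / r)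
    linarith
  · have b : ∀ m : Fin N →₀ ℕ, wt (fun j => max 1 (η - χ j / r)) m < K → ∀ j, (m j : ℤ) < K :=
      fun m h j => by
        have := Finset.single_le_sum (f := fun j => (m j : ℝ) * max 1 (η - χ j / r))
          (fun j _ => mul_nonneg (Nat.cast_nonneg _) (zero_le_one.trans (le_max_left _ _)))
          (Finset.mem_univ j)
        have k := le_mul_of_one_le_right (Nat.cast_nonneg (α := ℝ) (m j))
          (le_max_left 1 (η - χ j / r))
        exact_mod_cast k.trans_lt (this.trans_lt h)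
    have mo : ∀ (σ : A) (m : Fin N →₀ ℕ), σ.1 (∏ j, z j ^ m j) = mv (e σ) m • ∏ j, z j ^ m j :=
      fun σ m => by
        simp only [map_prod, map_pow, he, Algebra.smul_def, mul_pow, Finset.prod_mul_distrib, mv]
    have z0 : ∀ m : Fin N →₀ ℕ, ∏ j, z j ^ m j ≠ 0 := fun m =>
      Finset.prod_ne_zero_iff.2 fun j _ => pow_ne_zero _ (pt.ne j)
    have := du.low (fun j => (m j : ℤ) - m' j) (fun j => by
      have := b m h1 j
      have := b m' h2 j
      rw [abs_le]
      omega) fun σ hσ => by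
        simp only [zpow_sub₀ (pt.ne _), zpow_natCast, Finset.prod_div_distrib]
        have m0 : mv (e ⟨σ, hσ⟩) m' ≠ 0 := fun k => z0 m' (σ.injective (by
          rw [mo ⟨σ, hσ⟩, k, zero_smul, map_zero]))
        rw [map_div₀, mo ⟨σ, hσ⟩, mo ⟨σ, hσ⟩, h3, Algebra.smul_def, Algebra.smul_def,
          mul_div_mul_left _ _ ((map_ne_zero _).2 m0)]
    have k : ∑ j, (χ j : ℝ) * m j = ∑ j, (χ j : ℝ) * m' j := by
      rw [← sub_eq_zero, ← Finset.sum_sub_distrib]
      simp only [← mul_sub]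
      exact_mod_cast this
    simp only [wt, ← mul_div_assoc, ← Finset.sum_div, mul_comm _ (χ _ : ℝ), k]

theorem exists_J {δ : Fin d → Derivation ℂ κ κ} {y : Fin N → HahnSeries ℝ κ} (hy : ∀ j, Ge 0 (y j))
    {t : Fin d → HahnSeries ℝ κ} (ht : ∀ l, Ge 0 (t l)) {a : ℝ}
    (hJ : (Jx δ t).orderTop ≤ (a : WithTop ℝ)) (U : Fin d → MvPolynomial (Fin N) ℂ)
    (hU : ∀ l, Ge (a + 1) (aeval y (U l) - t l)) :
    ∃ J : Fin d → Fin N, (Jx δ fun i => y (J i)).orderTop ≤ ((a + 1 : ℝ) : WithTop ℝ) := by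
  by_contra k
  push Not at k
  have h1 : Ge (a + 1) (Jx δ fun l => aeval y (U l)) := by
    rw [jx_sum]
    exact Ge.sum fun J _ => Ge.zero_mul
      (by simpa using Ge.prod (s := Finset.univ) fun l _ => Tx.ge_aeval hy (pderiv (J l) (U l)))
      (k J).le
  have h2 := h1.sub (jx_lip (δ := δ) ht (fun l => Tx.ge_aeval hy (U l)) hU)
  rw [sub_sub_cancel] at h2
  have := WithTop.coe_le_coe.1 (le_trans h2 hJ)
  linarith

theorem twc : TWC := by
  intro d N a c η _ hη
  refine ⟨a + 1, fun n₀ => ?_⟩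
  set η' := min 1 (η / max 1 (η + c))
  have W : (0 : ℝ) < max 1 (η + c) := lt_max_of_lt_left one_pos
  have e0 : 0 < η' := lt_min one_pos (div_pos hη W)
  have e1 : η' ≤ 1 := min_le_left _ _
  have e2 : η' ≤ η := (min_le_right _ _).trans (div_le_self hη.le (le_max_left _ _))
  set ρ := |a| + (|a| + (d * |a| + (|a| + 1))) + 1
  have a0 := abs_nonneg a
  have c0 := abs_nonneg c
  have d0 : 0 ≤ d * |a| := by positivity
  obtain ⟨ρ₁, hρ⟩ := exists_nat_ge ((1 + |c|) * ρ)
  obtain ⟨n, hn⟩ := exists_nat_ge (max n₀ (max η (ρ₁ + 1)))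
  simp only [max_le_iff] at hn
  obtain ⟨K, hK⟩ := exists_nat_ge ((2 * ρ₁ + n) / η')
  rw [div_le_iff₀ e0, mul_comm (K : ℝ)] at hK
  have ρ0 : 0 ≤ ρ := by positivity
  have r1 : (0 : ℝ) ≤ ρ₁ := Nat.cast_nonneg _
  have K0 : (0 : ℝ) ≤ K := Nat.cast_nonneg _
  have K1 : η' * K ≤ K := mul_le_of_le_one_left K0 e1
  have K2 : η' * K ≤ K * η := by rw [mul_comm]; exact mul_le_mul_of_nonneg_left e2 K0
  have r2 : ρ ≤ ρ₁ := by nlinarith
  refine ⟨n, hn.1, K, ?_⟩
  intro F κ _ _ _ _ A S p z t w Φ δ x r χ pt prj arc zs hJ hd du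
  choose e he using fun (σ : A) j => pt.eig j σ.1 σ.2
  have T := td pt arc zs hη du he
  have st := stab pt
  have sm : ∀ {j} {a b : ℂ}, a • z j = b • z j → a = b := fun {j} _ _ h =>
    smul_left_injective ℂ (pt.ne j) h
  set y : Fin N → HahnSeries ℝ κ := fun j => x (z j) with hy
  set ζ : Fin N → ℝ := fun j => χ j / r
  have y1 : ∀ j, Ge 1 (y j) := fun j => (T.ge j).mono (T.one j)
  have y0 : ∀ j, Ge 0 (y j) := fun j => (y1 j).mono zero_le_one
  let u : Fin (d + 1) → F := Fin.cons w t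
  have uS : ∀ o, u o ∈ S := Fin.cases prj.wm fun l => by
    obtain ⟨s, -, es⟩ := prj.mem l
    exact (show (s : F) = u l.succ from es) ▸ s.2
  have uL : ∀ o, u o ∈ loc pt.pri := fun o => coe_mem pt.pri ⟨_, uS o⟩
  have um : ∀ G, aeval u (mp G) = ev2 t w G := fun G => aeval_mp u G
  choose U hU using fun o => approx pt K (uL o)
  choose Q hQ using fun a : S => prj.eul a.2
  set P := mp Φ
  have P' : aeval u (pderiv 0 P) = ev2 t w Φ.derivative := by rw [pderiv_mp, um]
  have P0 : aeval u P = 0 := by rw [um]; exact (prj.ker Φ).2 dvd_rfl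
  have xz : ∀ (ψ : F →ₐ[ℂ] HahnSeries ℝ κ) G, ψ (aeval z G) = aeval (fun j => ψ (z j)) G :=
    fun ψ G => comp_aeval_apply z ψ G
  have xu : ∀ (ψ : F →ₐ[ℂ] HahnSeries ℝ κ) G, ψ (aeval u G) = aeval (fun j => ψ (u j)) G :=
    fun ψ G => comp_aeval_apply u ψ G
  have cl : ∀ o, Ge K (aeval y (U o) - x (u o)) := fun o => by
    have := (wk_ge pt arc y1 (hU o)).neg
    rwa [mul_one, map_sub, neg_sub, xz] at this
  have u0 : ∀ o, Ge 0 (x (u o)) := fun o => arc.ge _ (uS o)
  obtain ⟨J, hJ'⟩ := exists_J y0 (fun l => u0 l.succ) hJ (fun l => U l.succ) fun l =>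
    (cl _).mono (by linarith [le_abs_self a])
  let zs' : Fin N → S := fun j => ⟨z j, z_mem pt j⟩
  let QJ : Fin d → MvPolynomial (Fin (d + 1)) ℂ := fun i => mp (Q (zs' (J i)))
  have sol : ∀ (ψ : F →ₐ[ℂ] HahnSeries ℝ κ) (a : S),
      aeval (fun o => ψ (u o)) (pderiv 0 P) * ψ a = aeval (fun o => ψ (u o)) (mp (Q a)) :=
    fun ψ a => by rw [← xu, ← xu, ← map_mul, P', hQ, um]
  have sol0 : ∀ ψ : F →ₐ[ℂ] HahnSeries ℝ κ, aeval (fun o => ψ (u o)) P = 0 := fun ψ => by
    rw [← xu, P0, map_zero]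
  -- a conjugate with bounded orders
  have hX : ¬Ge ρ (aeval y (Xi P QJ U fun i => X (J i))) := fun k => by
    rw [map_xi] at k
    simp only [aeval_X] at k
    have k1 := k.sub ((xi_lip P QJ u0 (fun i => y0 (J i)) K0 cl).mono (by linarith))
    rw [sub_sub_cancel] at k1
    have k2 := xi_le P QJ u0 (sol0 x) (fun i => sol x (zs' (J i))) (a := a)
      (by rwa [← xu, P']) hJ'
    have := WithTop.coe_le_coe.1 (le_trans k1 k2)
    have := le_abs_self a
    have := mul_le_mul_of_nonneg_left this (Nat.cast_nonneg (α := ℝ) d)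
    simp only [ρ] at *
    linarith
  obtain ⟨σ, hσ⟩ := T.bound ⟨1, funext fun j => sm ((he 1 j).symm.trans (one_smul _ _).symm)⟩
    (fun i i' => ⟨i' * i, fun j => sm (by
      rw [← he, Subgroup.coe_mul, AlgEquiv.mul_apply, he, map_smul, he, smul_smul])⟩)
    (by linarith) (by linarith) hX
  set v : Fin N → HahnSeries ℝ κ := fun j => e σ j • tw ζ y j
  have v1 : ∀ j, Ge η (v j) := fun j => Btw.ge_smul ((ge_tw T.ge ζ j).mono (by
    have := le_max_right 1 (η - χ j / r)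
    simp only [ζ]
    linarith)) _
  have v0 : ∀ j, Ge 0 (v j) := fun j => (v1 j).mono hη.le
  have sc : ∀ (σ : A) G, aeval z (scl (e σ) G) = σ.1 (aeval z G) := fun σ G => by
    rw [aeval_scl, ← funext (he σ)]
    exact (comp_aeval_apply z (σ.1 : F →ₐ[ℂ] F) G).symm
  have kill : ∀ G, aeval z G ∈ Wk S p z K → Ge (η' * K) (aeval v G) := fun G hG => by
    rw [← aeval_scl]
    refine T.kill ((Wk S p z K).comap (aeval z : MvPolynomial (Fin N) ℂ →ₐ[ℂ] F).toLinearMap)
      (fun G hG i => ?_) (fun G hG => ?_) _ ?_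
    · exact show aeval z _ ∈ Wk S p z K from (sc i G).symm ▸ Bkb.wk_st pt st K _ i.2 _ hG
    · have := wk_ge pt arc y1 hG
      rwa [mul_one, AlgHom.toLinearMap_apply, xz] at this
    · exact show aeval z _ ∈ Wk S p z K from (sc σ G).symm ▸ Bkb.wk_st pt st K _ σ.2 _ hG
  set b₀ : Fin (d + 1) → HahnSeries ℝ κ := fun o => aeval v (U o)
  have b0 : ∀ o, Ge 0 (b₀ o) := fun o => Tx.ge_aeval v0 _
  have cg := fun H => wk_cong pt uL (fun o => av_lo pt (U o)) hU H
  have k0 : Ge (η' * K) (aeval b₀ P) := by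
    have := kill (aeval U P) (by
      rw [comp_aeval_apply]
      simpa [P0] using neg_mem (cg P).1)
    rwa [comp_aeval_apply] at this
  have k1 : ∀ (a : S) G, a - aeval z G ∈ Wk S p z K →
      Ge (η' * K) (aeval b₀ (pderiv 0 P) * aeval v G - aeval b₀ (mp (Q a))) := fun a G hG => by
    have := kill (aeval U (pderiv 0 P) * G - aeval U (mp (Q a))) (by
      rw [map_sub, map_mul, comp_aeval_apply, comp_aeval_apply]
      convert sub_mem (sub_mem (cg (mp (Q a))).1 (wk_mul pt (av_lo pt G) (cg (pderiv 0 P)).1))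
        (wk_mul pt (cg (pderiv 0 P)).2 hG) using 1
      rw [um, ← hQ, P']
      ring)
    rwa [map_sub, map_mul, comp_aeval_apply, comp_aeval_apply] at this
  rw [map_xi] at hσ
  simp only [aeval_X] at hσ
  have n1 : ¬Ge ρ₁ (aeval b₀ (pderiv 0 P)) := fun k =>
    hσ ((k.mul0 (ge_mt P QJ b0 fun i => v0 (J i))).mono hρ)
  have n2 : ¬Ge ρ₁ (mt P QJ b₀ fun i => v (J i)).det := fun k =>
    hσ (((Tx.ge_aeval b0 _).zero_mul k).mono hρ)
  have kz : ∀ j, (zs' j : F) - aeval z (X j : MvPolynomial (Fin N) ℂ) ∈ Wk S p z K := fun j => by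
    simp [zs']
  obtain ⟨b, b1, b2, b3, -, b5⟩ := newtonH P QJ b0 (fun i => v0 (J i)) (n := n)
    (by exact_mod_cast hη.trans_le hn.2.1) n2 (k0.mono hK) fun i => by
      simpa only [aeval_X] using (k1 (zs' (J i)) _ (kz _)).mono hK
  have n0 : (0 : ℝ) < n := hη.trans_le hn.2.1
  have lp := fun H => (lipH b0 (by linarith) b1 H).1
  have o1 : (aeval b (pderiv 0 P)).orderTop ≤ ((ρ₁ : ℝ) : WithTop ℝ) := by
    have := (not_le.1 n1).le
    rwa [le_of_sub this (lp _) (by linarith)]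
  have p0 : aeval b (pderiv 0 P) ≠ 0 := fun k => by simp [k] at o1
  have e0' : ∀ j, e σ j ≠ 0 := fun j k => pt.ne j (σ.1.injective (by rw [he, k, zero_smul, map_zero]))
  have j0 : (Jx δ fun l => b l.succ) ≠ 0 := fun k => by
    have := det_id P QJ (fun k => thl 0 (δ k)) b2 b3
    rw [show Matrix.det _ = Jx δ fun l => b l.succ from rfl, k, mul_zero] at this
    refine mul_ne_zero p0 (mul_ne_zero (pow_ne_zero _ (neg_ne_zero.2 p0)) ?_) this.symm
    refine (jx_tw (δ := δ) (fun i => e σ (J i)) (fun i => ζ (J i)) fun i => y (J i)).trans_ne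
      (mul_ne_zero (Finset.prod_ne_zero_iff.2 fun i _ => smul_ne_zero (e0' _) (by simp)) ?_)
    exact fun k => by simp [k] at hJ'
  obtain ⟨x', x1, x2⟩ := prj.exa (jx_ind j0) (w' := b 0) (by rw [← aeval_mp]; exact b2)
  have xb : (fun o => x' (u o)) = b := funext (Fin.cases x2 x1)
  have nr : ∀ (a : S) G, a - aeval z G ∈ Wk S p z K → Ge n (x' a - aeval v G) := fun a G hG => by
    have := ge_of_mul (m := ρ₁ + n) (b := x' a - aeval v G) (by
      convert ((lp (mp (Q a))).sub ((k1 a G hG).mono (by linarith))).sub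
        ((lp (pderiv 0 P)).mul0 (Tx.ge_aeval v0 G)) using 1
      rw [mul_sub, ← xb, sol, xb]
      ring) o1
    rwa [add_sub_cancel_left] at this
  have arc' : Arc S p x' := ⟨fun a ha => by
    obtain ⟨G, hG⟩ := approx pt K (coe_mem pt.pri ⟨a, ha⟩)
    have := ((nr ⟨a, ha⟩ G hG).mono n0.le).add (Tx.ge_aeval v0 G)
    rwa [sub_add_cancel] at this, fun a ha => by
    obtain ⟨G, hG⟩ := approx_p pt K ha
    have := ((nr a _ hG).mono hn.2.1).add (show Ge η (aeval v (∑ j, X j * G j)) by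
      rw [map_sum]
      exact Ge.sum fun j _ => by
        rw [map_mul, aeval_X]; exact (v1 j).mul0 (Tx.ge_aeval v0 _))
    rw [sub_add_cancel] at this
    exact lt_of_lt_of_le (WithTop.coe_lt_coe.2 hη) this⟩
  have inv : ∀ j, σ.1.symm (z j) = (e σ j)⁻¹ • z j := fun j => by
    rw [AlgEquiv.symm_apply_eq, map_smul, he, smul_smul, inv_mul_cancel₀ (e0' j), one_smul]
  refine ⟨J, x'.comp (σ.1.symm : F →ₐ[ℂ] F), hJ', ⟨arc_comp pt arc' (A.inv_mem σ.2), fun i => ?_,
    fun j => ?_⟩, fun ψ h => ?_⟩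
  · have := sol x' (zs' (J i))
    rw [xb, ← b3 i] at this
    change x' (σ.1.symm _) = _
    rw [inv, map_smul, show x' (z (J i)) = _ from mul_left_cancel₀ p0 this, inv_smul_smul₀ (e0' _)]
    rfl
  · have := Btw.ge_smul (nr (zs' j) _ (kz j)) (e σ j)⁻¹
    rw [aeval_X, smul_sub, inv_smul_smul₀ (e0' _)] at this
    change Ge _ (x' (σ.1.symm _) - _)
    rw [inv, map_smul]
    exact this
  · set x₁ := ψ.comp (σ.1 : F →ₐ[ℂ] F)
    have z1 : ∀ j, x₁ (z j) = e σ j • ψ (z j) := fun j => by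
      change ψ (σ.1 _) = _
      rw [he, map_smul]
    have z2 : ∀ j, Ge n (x₁ (z j) - v j) := fun j => by
      rw [z1, ← smul_sub]
      exact Btw.ge_smul (h.near j) _
    have z3 : ∀ j, Ge η (x₁ (z j)) := fun j => by
      have := ((z2 j).mono hn.2.1).add (v1 j)
      rwa [sub_add_cancel] at this
    have eb := b5 (fun o => x₁ (u o)) (fun o => by
      have := ((wk_ge pt (arc_comp pt h.arc σ.2) z3 (hU o)).mono (s := ρ₁ + 1) (by linarith)).add
        ((lipH v0 n0.le z2 (U o)).1.mono hn.2.2)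
      rwa [map_sub, xz, sub_add_sub_cancel] at this) (sol0 x₁) fun i => by
        rw [← sol x₁ (zs' (J i))]
        exact congrArg _ (by rw [z1, h.exa]; rfl)
    have ex : x₁ = x' := prj.ext (fun l => (congrFun eb l.succ).trans (x1 l).symm)
      ((congrFun eb 0).trans x2.symm)
    rw [← ex]
    exact AlgHom.ext fun f => congrArg ψ (σ.1.apply_symm_apply f).symm

end Vale.Agent.P283R.Tw8
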