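import Vale.Agent.P283R.Be2.All1
import Vale.Agent.P283R.Be2.Tw8

/-!
# P283R, block BE: normal varieties of bounded embedding dimension
-/

namespace Vale.Agent.P283R.Be2

theorem tw : Tx.TW := Tx.tw_core Tw8.twc

theorem twh : Tx.TWH := Tx.twh_core Tw8.twc

theorem lte : Bc.LTE := lte_twh twh

theorem abp : Bh.ABP := abp_twh twh

theorem abe : Bx.ABE := abe_twh twh

end Vale.Agent.P283R.Be2
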