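import Vale.Agent.P283R.Be2.TwS
import Vale.Agent.P283R.Co.Ap

/-!
# P283R, block BE: the place of an exact arc
-/

attribute [-instance] HahnSeries.powerSeriesAlgebra

open Vale.Agent.P287D Vale.Agent.P297Z

noncomputable section

namespace Vale.Agent.P283R.Tx

open Co (Ge thl)

variable {F κ : Type} [Field F] [Algebra ℂ F] [Field κ] [Algebra ℂ κ] {d : ℕ}

namespace Ay

omit [Algebra ℂ κ] in
/-- the series with exponents in `δ ℤ` -/
def zr (κ : Type) [Field κ] (δ : ℝ) : Subring (HahnSeries ℝ κ) where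
  carrier := {a | ∀ g, a.coeff g ≠ 0 → ∃ n : ℤ, g = n * δ}
  zero_mem' := by simp
  one_mem' := fun g h => ⟨0, by
    by_contra c
    exact h (HahnSeries.coeff_single_of_ne (by simpa using c))⟩
  add_mem' := fun {a b} ha hb g h => by
    by_cases c : a.coeff g = 0
    · exact hb g (by simpa [c] using h)
    · exact ha g c
  neg_mem' := fun {a} ha g h => ha g (by simpa using h)
  mul_mem' := fun {a b} ha hb g h => by
    obtain ⟨i, hi, j, hj, rfl⟩ := HahnSeries.support_mul_subset (x := a) (y := b) h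
    obtain ⟨m, rfl⟩ := ha i hi
    obtain ⟨n, rfl⟩ := hb j hj
    exact ⟨m + n, by push_cast; ring⟩

theorem zr_c (δ : ℝ) (c : ℂ) : algebraMap ℂ (HahnSeries ℝ κ) c ∈ zr κ δ := fun g h => ⟨0, by
  by_contra e
  rw [HahnSeries.algebraMap_apply, HahnSeries.C_apply] at h
  exact h (HahnSeries.coeff_single_of_ne (by simpa using e))⟩

theorem ge_c (c : ℂ) : 0 ≤ (algebraMap ℂ (HahnSeries ℝ κ) c).orderTop := by
  rw [HahnSeries.algebraMap_apply, HahnSeries.C_apply]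
  exact HahnSeries.orderTop_single_le

omit [Algebra ℂ κ] in
theorem zr_ord {δ : ℝ} {a : HahnSeries ℝ κ} (h : a ∈ zr κ δ) (a0 : a ≠ 0) :
    ∃ n : ℤ, a.orderTop = (n * δ : ℝ) := by
  obtain ⟨n, hn⟩ := h a.order (HahnSeries.coeff_order_eq_zero.not.2 a0)
  exact ⟨n, by rw [← HahnSeries.order_eq_orderTop_of_ne_zero a0, hn]⟩

theorem zr_ev2 {δ : ℝ} {t : Fin d → HahnSeries ℝ κ} {w : HahnSeries ℝ κ} (ht : ∀ l, t l ∈ zr κ δ)
    (hw : w ∈ zr κ δ) (G : Polynomial (MvPolynomial (Fin d) ℂ)) : ev2 t w G ∈ zr κ δ := by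
  have : ∀ g : MvPolynomial (Fin d) ℂ, MvPolynomial.aeval t g ∈ zr κ δ := fun g => by
    induction g using MvPolynomial.induction_on with
    | C c => simpa using zr_c δ c
    | add p q hp hq => rw [map_add]; exact add_mem hp hq
    | mul_X p i hp => rw [map_mul, MvPolynomial.aeval_X]; exact mul_mem hp (ht i)
  induction G using Polynomial.induction_on' with
  | add p q hp hq => rw [map_add]; exact add_mem hp hq
  | monomial n g =>
    rw [ev2, Polynomial.coe_eval₂RingHom, Polynomial.eval₂_monomial]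
    exact mul_mem (this g) (pow_mem hw n)

theorem map_ev2 {R R' : Type} [CommRing R] [Algebra ℂ R] [CommRing R'] [Algebra ℂ R']
    (x : R →ₐ[ℂ] R') (t : Fin d → R) (w : R) (G : Polynomial (MvPolynomial (Fin d) ℂ)) :
    x (ev2 t w G) = ev2 (fun l => x (t l)) (x w) G := by
  rw [ev2, ev2, Polynomial.coe_eval₂RingHom, Polynomial.coe_eval₂RingHom, ← RingHom.coe_coe x,
    Polynomial.hom_eval₂]
  congr 1
  exact congrArg AlgHom.toRingHom (MvPolynomial.comp_aeval t x)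

/-- the values of an arc with exponents in `δ ℤ` -/
theorem dis {δ : ℝ} {S : Subalgebra ℂ F} {p : Ideal S} {t : Fin d → F} {w : F}
    {Φ : Polynomial (MvPolynomial (Fin d) ℂ)} (h : Prj S p t w Φ) (x : F →ₐ[ℂ] HahnSeries ℝ κ)
    (ht : ∀ l, x (t l) ∈ zr κ δ) (hw : x w ∈ zr κ δ) (g : F) (g0 : g ≠ 0) :
    ∃ n : ℤ, (x g).orderTop = (n * δ : ℝ) := by
  obtain ⟨G, H, rfl⟩ := h.top g
  obtain ⟨a, b⟩ := div_ne_zero_iff.1 g0
  obtain ⟨m, hm⟩ := zr_ord (map_ev2 x t w G ▸ zr_ev2 ht hw G) ((map_ne_zero x).2 a)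
  obtain ⟨n, hn⟩ := zr_ord (map_ev2 x t w H ▸ zr_ev2 ht hw H) ((map_ne_zero x).2 b)
  refine ⟨m - n, ?_⟩
  have := Ap.val_inv (v := HahnSeries.addVal ℝ κ) hn
  rw [HahnSeries.addVal_apply] at this
  rw [map_div₀, div_eq_mul_inv, HahnSeries.orderTop_mul, hm, this, ← WithTop.coe_add]
  exact congrArg _ (by push_cast; ring)

end Ay

/-- the place of an arc with values in `δ ℤ`, any frame `z` -/
theorem apx {S : Subalgebra ℂ F} {p : Ideal S} (hF : FF F d)
    (res : ∀ a : S, ∃ c : ℂ, a - algebraMap ℂ S c ∈ p) {x : F →ₐ[ℂ] HahnSeries ℝ κ}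
    (hx : Arc S p x) {δ : ℝ} (hδ : 0 < δ) (dis : ∀ g, g ≠ 0 → ∃ n : ℤ, (x g).orderTop = (n * δ : ℝ))
    (hn : ∃ a ∈ p, a ≠ 0) (θ : Fin d → Derivation ℂ κ κ) (z : Fin d → F) {a : ℝ}
    (hJ : (Jx θ fun l => x (z l)).orderTop ≤ (a : WithTop ℝ)) :
    ∃ (E : Pl F) (e : ℕ), Cen S p E ∧ 0 < e ∧
      (∀ g, g ≠ 0 → (x g).orderTop = (e * δ * E.ord g : ℝ)) ∧ e * δ * (1 + kap z E) ≤ a := by
  obtain ⟨E, e, e0, h1, h2⟩ := Ap.arc_place (v := HahnSeries.addVal ℝ κ)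
    (φ := (x : F →+* HahnSeries ℝ κ)) hF z (d := fun k y => thl 0 (θ k) (x y))
    (fun k => ⟨fun a b => by rw [map_add, map_add], fun a b => by
      rw [map_mul, Derivation.leibniz, smul_eq_mul, smul_eq_mul]; rfl⟩)
    (fun k c => by simp) (fun k y => Co.ctr_thl _ _ _) (fun c => by
      rw [RingHom.coe_coe, x.commutes]; exact Ay.ge_c c) hδ dis
    (hn.elim fun b hb => ⟨b, fun c => hb.2 (Subtype.ext c), hx.pos b hb.1⟩)
    fun c => by simp [Jx, c] at hJ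
  obtain ⟨n, hn⟩ := dis E.t (Pb.t_ne E)
  have en : e = n * δ := by
    have := (h1 _ (Pb.t_ne E)).symm.trans hn
    rwa [Pb.ord_t, Int.cast_one, mul_one, WithTop.coe_inj] at this
  have n0 : 0 < n := by exact_mod_cast (mul_pos_iff_of_pos_right hδ).1 (en ▸ e0)
  lift n to ℕ using n0.le
  have h3 : ∀ g, g ≠ 0 → (x g).orderTop = (e * E.ord g : ℝ) := h1
  have mem : ∀ b ∈ S, b ∈ E.ring := fun b hb => by
    by_cases b0 : b = 0
    · exact b0 ▸ zero_mem _
    have := hx.ge b hb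
    rw [Ge, h3 b b0, WithTop.coe_le_coe, mul_nonneg_iff_of_pos_left e0] at this
    exact (Pl.ord_nonneg_iff _ b0).1 (by exact_mod_cast this)
  have pos : ∀ b ∈ p, E.rd b = 0 := fun b hb => by
    refine (Cb.rd_eq_zero (mem b b.2)).2 (Cb.mx_iff.2 (or_iff_not_imp_left.2 fun b0 => ?_))
    have := hx.pos b hb
    rw [h3 b b0, ← WithTop.coe_zero, WithTop.coe_lt_coe, mul_pos_iff_of_pos_left e0] at this
    exact_mod_cast this
  refine ⟨E, n, fun b => ⟨mem b b.2, pos b, fun hb => ?_⟩, by exact_mod_cast n0,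
    fun g g0 => by rw [h3 g g0, en]; rfl, ?_⟩
  · obtain ⟨c, hc⟩ := res b
    have := pos _ hc
    rw [Subalgebra.coe_sub, Subalgebra.coe_algebraMap, Cb.rd_sub (mem b b.2) (E.con c), hb,
      Cb.rd_const, zero_sub, neg_eq_zero, map_eq_zero] at this
    simpa [this] using hc
  · have := h2.trans hJ
    rwa [WithTop.coe_le_coe, en] at this

/-- **APY**: the place of an integral arc -/
theorem apy {S : Subalgebra ℂ F} {p : Ideal S} {t : Fin d → F} {w : F}
    {Φ : Polynomial (MvPolynomial (Fin d) ℂ)} (hd : 0 < d) (hF : FF F d)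
    (res : ∀ a : S, ∃ c : ℂ, a - algebraMap ℂ S c ∈ p) (h : Prj S p t w Φ)
    {x : F →ₐ[ℂ] HahnSeries ℝ κ} (hx : Arc S p x) (ht : ∀ l, Zs (x (t l))) (hw : Zs (x w))
    (θ : Fin d → Derivation ℂ κ κ) {a : ℝ} (hJ : (Jx θ fun l => x (t l)).orderTop ≤ (a : WithTop ℝ)) :
    ∃ (E : Pl F) (e : ℕ), Cen S p E ∧ 0 < e ∧
      (∀ g, g ≠ 0 → (x g).orderTop = (e * E.ord g : ℝ)) ∧ e * (1 + kap t E) ≤ a := by
  have k : ∀ b : HahnSeries ℝ κ, Zs b → b ∈ Ay.zr κ 1 := fun b hb g hg => by simpa using hb g hg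
  obtain ⟨s, hs, e⟩ := h.mem ⟨0, hd⟩
  simpa only [mul_one] using apx hF res hx one_pos (Ay.dis h x (fun l => k _ (ht l)) (k _ hw))
    ⟨s, hs, fun c => by
      have : Jx θ (fun l => x (t l)) = 0 := Matrix.det_eq_zero_of_column_eq_zero ⟨0, hd⟩
        fun i => by simp [← e, c]
      simp [this] at hJ⟩ θ t hJ

end Vale.Agent.P283R.Tx
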