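import Vale.Agent.P283R.Be2.Cs
import Vale.Agent.P283R.Be2.Apy

/-!
# P283R, block BE: the row APY
-/

namespace Vale.Agent.P283R.Be2

/-- **APY** -/
theorem apy : APY := fun _ _ _ _ _ _ _ _ _ _ _ _ δ _ _ hd hF h res hx ht hw hJ =>
  let ⟨E, e, a, b, c⟩ := Tx.apy hd hF res h hx ht hw δ hJ
  ⟨E, e, Nat.cast_pos.2 b, a, c⟩

end Vale.Agent.P283R.Be2
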