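import Vale.Agent.P283R.Be2.Rl
import Vale.Agent.P283R.Co.Att

/-!
# Arcs on a hypersurface: the infimum is positive and attained by an integral arc
-/

attribute [-instance] HahnSeries.powerSeriesAlgebra

open Filter MvPowerSeries Vale.Agent.P283R.Co P283R.U

noncomputable section

namespace Vale.Agent.P283R.Be2

variable {σ τ α k : Type} [Fintype σ] [DecidableEq σ] [Fintype τ] [Field k]

/-- a Hahn arc on `P = 0`: the `F b`, `b ∈ Z`, vanish, the others have the orders `o b` -/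
def HA (P : MvPowerSeries τ k) (T : σ → τ) (F : α → MvPowerSeries τ k) (a : ℝ) (Z : Set α)
    (o : α → ℝ) (μ : ℝ) : Prop :=
  ∃ (s : k →+* ℂ) (x : τ → HS) (l : σ → ℝ →+ ℂ), 0 < μ ∧ (∀ j, Ge μ (x j)) ∧
    ev x (map s P) = 0 ∧ (∀ b ∈ Z, ev x (map s (F b)) = 0) ∧
    (∀ b ∉ Z, (ev x (map s (F b))).orderTop = o b) ∧
    (Matrix.of fun i j => thl (l j) (0 : Derivation ℂ ℂ ℂ) (x (T i))).det.orderTop ≤
      (a : WithTop ℝ)

/-- an integral arc on `P = 0` -/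
def IB (P : MvPowerSeries τ k) (T : σ → τ) (F : α → MvPowerSeries τ k) (a : ℕ) (Z : Set α)
    (o : α → ℕ) (μ : ℕ) : Prop :=
  ∃ (κ : Type) (_ : Field κ) (_ : Algebra k κ) (e : MvPowerSeries τ k →+* PowerSeries κ)
    (δ : σ → Derivation k κ κ), (∀ c, e (C c) = algebraMap k _ c) ∧ 0 < μ ∧
    (∀ j, PowerSeries.X ^ μ ∣ e (X j)) ∧ e P = 0 ∧ (∀ b ∈ Z, e (F b) = 0) ∧
    (∀ b ∉ Z, (e (F b)).order = o b) ∧
    (Matrix.of fun i j => PowerSeries.mk fun n => δ j (PowerSeries.coeff n (e (X (T i))))).det.order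
      = a

omit [Fintype σ] [DecidableEq σ] in
theorem zm_exp {B : Type} [CommRing B] {G : MvPowerSeries σ B} (h : ZM G) :
    ∃ m : σ →₀ ℕ, G ≠ 0 → ∃ u, IsUnit u ∧ G = u * monomial m 1 := by
  rcases h with h | ⟨u, m, hu, h⟩
  · exact ⟨0, fun h' => absurd h h'⟩
  · exact ⟨m, fun _ => ⟨u, hu, h⟩⟩

/-- one chart for a sequence of arcs -/
theorem seq_chart [DecidableEq τ] [Fintype α] [Nonempty σ] (e : τ ≃ Option σ)
    {P : MvPowerSeries τ k} (hP : P ≠ 0) (T : σ → τ) (F : α → MvPowerSeries τ k)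
    (𝒰 : Ultrafilter ℕ) (a : ℕ → ℝ) (Z : ℕ → Set α) (o : ℕ → α → ℝ) (μ : ℕ → ℝ)
    (h : ∀ i, HA P T F (a i) (Z i) (o i) (μ i)) :
    ∃ (Z₀ : Set α) (J : Set τ) (γ : σ → ℕ) (m : α → σ → ℕ) (ν : τ → σ → ℕ), J.Nonempty ∧
      (∀ j ∈ J, ν j ≠ 0) ∧
      (∀ᶠ i in (𝒰 : Filter ℕ), Z i = Z₀ ∧ ∃ w : σ → ℝ, (∀ l, 0 < w l) ∧
        (∀ b ∉ Z₀, o i b = ∑ l, m b l * w l) ∧ (∀ j ∈ J, μ i ≤ ∑ l, ν j l * w l) ∧
        ∑ l, ((γ l : ℝ) + 1) * w l ≤ a i) ∧
      ∀ (w : σ → ℕ) (μ : ℕ), 0 < μ → (∀ j ∈ J, μ ≤ ∑ l, ν j l * w l) →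
        IB P T F (∑ l, (γ l + 1) * w l) Z₀ (fun b => ∑ l, m b l * w l) μ := by
  choose s x l h1 h2 h3 h4 h5 h6 using h
  let S : Stage ℂ 𝒰 τ := ⟨k, s, x, fun a ha => by
    obtain ⟨i, hi⟩ := ha.exists
    exact (s i).injective (hi.trans (map_zero _).symm), fun i => pos_of_ge (h1 i) (h2 i)⟩
  obtain ⟨W, c, p1, p2, p3⟩ := ruh e S P hP (Eventually.of_forall h3) (Sum.elim F X)
    fun (_ : Unit) i => X (T i)
  choose m hm using fun b => zm_exp (p2 (.inl b))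
  choose ν hν using fun j => zm_exp (p2 (.inr j))
  obtain ⟨γ, hγ⟩ := zm_exp (p3 ())
  simp only [Sum.elim_inl, Sum.elim_inr] at hm hν
  have hx : ∀ᶠ i in (𝒰 : Filter ℕ), ∀ j, x i j = ev (W.x i) (map (W.s i) (c.Φ (X j))) :=
    c.rel.mono fun i hi j => by rw [← hi.2, map_X, ev_X (S.pos i)]
  have hd : ∀ᶠ i in (𝒰 : Filter ℕ), (Matrix.of fun i' j => thl (l i j) (0 : Derivation ℂ ℂ ℂ)
      (ev (W.x i) (map (W.s i) (c.Φ (X (T i')))))).det ≠ 0 := hx.mono fun i hi h0 => by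
    have := h6 i
    simp only [hi] at this
    simp [h0] at this
  have hj : (jd fun i => c.Φ (X (T i))) ≠ 0 := fun h0 => by
    obtain ⟨i, hi⟩ := hd.exists
    rw [jd_ev _ (W.pos i), h0, map_zero, ev_zero, zero_mul] at hi
    exact hi rfl
  obtain ⟨u, hu, hγ⟩ := hγ hj
  refine ⟨{b | c.Φ (F b) = 0}, {j | c.Φ (X j) ≠ 0}, γ, fun b => m b, fun j => ν j,
    ⟨T (Classical.arbitrary σ), fun h0 => hj ?_⟩, fun j hj' h0 => ?_, ?_, fun w μ' hμ hw => ?_⟩
  · exact Matrix.det_eq_zero_of_row_eq_zero (Classical.arbitrary σ) fun l => by simp [h0]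
  · obtain ⟨v, hv, h⟩ := hν j hj'
    have h0' : ν j = 0 := by ext i; exact congrFun h0 i
    have := c.loc.x j
    rw [h, h0', monomial_zero_one, mul_one] at this
    exact (hv.map constantCoeff).ne_zero this
  · filter_upwards [c.rel, hx, hd] with i q1 q2 q3
    obtain ⟨w, a', hw, hyw, -, r1, r2⟩ := chart (W.s i) (W.pos i)
      (θ := fun j => thl (l i j) (0 : Derivation ℂ ℂ ℂ)) (fun _ => ctr_thl _ _)
      (fun _ _ => Derivation.map_algebraMap _ _) _ hu hγ q3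
    have key : ∀ b, c.Φ (F b) ≠ 0 →
        (ev (x i) (map (s i) (F b))).orderTop = (∑ l, m b l * w l : ℝ) := fun b hb => by
      obtain ⟨v, hv, h⟩ := hm b hb
      have := q1.2 (F b)
      rw [h] at this
      exact (congrArg _ this).trans (ord_um _ (W.pos i) hyw hv _)
    have hZ : Z i = {b | c.Φ (F b) = 0} := by
      ext b
      constructor
      · intro hb
        by_contra h0
        have := key b h0
        rw [h4 i b hb, HahnSeries.orderTop_zero] at this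
        exact WithTop.top_ne_coe this
      · intro hb
        by_contra h0
        have := h5 i b h0
        rw [show ev (x i) (map (s i) (F b)) = _ from q1.2 (F b), show c.Φ (F b) = 0 from hb,
          map_zero, ev_zero] at this
        simp at this
    refine ⟨hZ, w, hw, fun b hb => ?_, fun j hj' => ?_, ?_⟩
    · have := (h5 i b (hZ ▸ hb)).symm.trans (key b hb)
      exact_mod_cast this
    · obtain ⟨v, hv, h⟩ := hν j hj'
      have := h2 i j
      rw [Ge, q2, h, ord_um _ (W.pos i) hyw hv] at this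
      exact_mod_cast this
    · have := h6 i
      simp only [q2] at this
      rw [r2, WithTop.coe_le_coe] at this
      simp only [add_mul, one_mul, Finset.sum_add_distrib]
      linarith
  · obtain ⟨κ, _, _, g, δ, r1, r2, r3⟩ := real2 c.ρ w
    refine ⟨κ, inferInstance, inferInstance, g.comp c.Φ, δ, fun a => ?_, hμ, fun j => ?_, ?_,
      fun b hb => ?_, fun b hb => ?_, ?_⟩
    · rw [RingHom.comp_apply, c.loc.c, r2]
    · rw [RingHom.comp_apply]
      by_cases h0 : c.Φ (X j) = 0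
      · rw [h0, map_zero]; exact dvd_zero _
      · obtain ⟨v, hv, h⟩ := hν j h0
        rw [h]
        exact (pow_dvd_pow _ (hw j h0)).trans (P283R.Rz.dvd_of_order (r1 v _ hv))
    · rw [RingHom.comp_apply, p1, map_zero]
    · rw [RingHom.comp_apply, show c.Φ (F b) = 0 from hb, map_zero]
    · obtain ⟨v, hv, h⟩ := hm b hb
      rw [RingHom.comp_apply, h, r1 v _ hv]
    · refine (congrArg PowerSeries.order (r3 fun i => c.Φ (X (T i)))).trans ?_
      rw [PowerSeries.order_mul, PowerSeries.order_X_pow, hγ, r1 u _ hu, ← Nat.cast_add,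
        ← Finset.sum_add_distrib]
      exact congrArg _ (Finset.sum_congr rfl fun i _ => by ring)

omit [DecidableEq σ] in
theorem sum_key2 {R : Type} [CommRing R] [Fintype α] (n : R) (γ w : σ → R) (v : α → R)
    (m : α → σ → R) :
    ∑ l, (n * (γ l + 1) - ∑ b, v b * m b l) * w l =
      n * ∑ l, (γ l + 1) * w l - ∑ b, v b * ∑ l, m b l * w l := by
  simp only [sub_mul, Finset.sum_sub_distrib, Finset.mul_sum, Finset.sum_mul, mul_assoc]
  rw [Finset.sum_comm (f := fun l b => v b * (m b l * w l))]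

/-- **ATT** on a hypersurface, for the arcs on which the `F b`, `b ∈ D`, do not vanish -/
theorem att2 [DecidableEq τ] [Fintype α] [Nonempty σ] (e : τ ≃ Option σ)
    {P : MvPowerSeries τ k} (hP : P ≠ 0) (T : σ → τ) (F : α → MvPowerSeries τ k) (D : Set α)
    {V : Type} [Fintype V] (v : V → α → ℤ) (n : ℕ)
    (h0 : ∃ a Z o μ, HA P T F a Z o μ ∧ ∀ b ∈ D, b ∉ Z)
    (pv : ∀ a Z o μ, IB P T F a Z o μ → (∀ b ∈ D, b ∉ Z) →
      ∃ i, (∀ b ∈ Z, v i b = 0) ∧ ∑ b, v i b * o b < n * a) :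
    ∃ c : ℝ, 0 < c ∧
      (∀ a Z o μ, HA P T F a Z o μ → (∀ b ∈ D, b ∉ Z) →
        ∃ i, (∀ b ∈ Z, v i b = 0) ∧ ∑ b, v i b * o b + c * μ ≤ n * a) ∧
      ∃ a Z o μ, IB P T F a Z o μ ∧ (∀ b ∈ D, b ∉ Z) ∧ (∃ i, ∀ b ∈ Z, v i b = 0) ∧
        ∀ i, (∀ b ∈ Z, v i b = 0) → (n * a : ℝ) ≤ ∑ b, (v i b : ℝ) * o b + c * μ := by
  classical
  set S := {c : ℝ | ∃ a Z o μ, HA P T F a Z o μ ∧ (∀ b ∈ D, b ∉ Z) ∧
    ∀ i, (∀ b ∈ Z, v i b = 0) → (n * a : ℝ) < ∑ b, v i b * o b + c * μ} with hS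
  have hne : S.Nonempty := by
    obtain ⟨a, Z, o, μ, h, hD⟩ := h0
    have hμ : 0 < μ := by obtain ⟨_, _, _, h, -⟩ := h; exact h
    obtain ⟨M, hM⟩ := Finite.exists_le fun i => (n * a - ∑ b, v i b * o b : ℝ)
    refine ⟨(M + 1) / μ, a, Z, o, μ, h, hD, fun i _ => ?_⟩
    rw [div_mul_cancel₀ _ hμ.ne']
    linarith [hM i]
  obtain ⟨u, hu, hu'⟩ := exists_minseq S
  choose a Z o μ h1 h2 h3 using hu hne
  obtain ⟨Z₀, J, γ, m, ν, hJ, hν, hev, hI⟩ := seq_chart e hP T F (hyperfilter ℕ) a Z o μ h1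
  have hD : ∀ b ∈ D, b ∉ Z₀ := by
    obtain ⟨i, hi, -⟩ := hev.exists
    exact hi ▸ h2 i
  obtain ⟨w₀, c, c0, hw, hle, hge⟩ := Lp.att (α := {i : V // ∀ b ∈ Z₀, v i b = 0}) (J := J)
    (σ := σ) (fun i l => (n : ℤ) * (γ l + 1) - ∑ b, v i.1 b * m b l) (fun j l => ν j l)
    (fun w hw => by
      obtain ⟨i, hi, h⟩ := pv _ _ _ _ (hI w 1 one_pos fun j hj => hw ⟨j, hj⟩) hD
      refine ⟨⟨i, hi⟩, ?_⟩
      rw [sum_key2]
      push_cast at h
      linarith) fun j => hν j j.2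
  refine ⟨c, c0, fun a' Z' o' μ' hr hD' => ?_, ?_⟩
  · by_contra hlt
    push Not at hlt
    have m0 : 0 < μ' := by obtain ⟨_, _, _, h, -⟩ := hr; exact h
    obtain ⟨η, hη, hη'⟩ : ∃ η : ℝ, 0 < η ∧ ∀ i, (∀ b ∈ Z', v i b = 0) →
        η < ∑ b, v i b * o' b + c * μ' - n * a' := by
      have : ∀ᶠ η in nhdsWithin (0 : ℝ) (Set.Ioi 0), ∀ i, (∀ b ∈ Z', v i b = 0) →
          η < ∑ b, v i b * o' b + c * μ' - n * a' := eventually_all.2 fun i => by
        by_cases hi : ∀ b ∈ Z', v i b = 0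
        · exact ((eventually_lt_nhds (sub_pos.2 (hlt i hi))).filter_mono nhdsWithin_le_nhds).mono
            fun _ h _ => h
        · exact Eventually.of_forall fun _ h => absurd h hi
      obtain ⟨η, h, h'⟩ := (this.and self_mem_nhdsWithin).exists
      exact ⟨η, h', h⟩
    have hs : c - η / μ' ∈ S := ⟨a', Z', o', μ', hr, hD', fun i hi => by
      have := hη' i hi
      rw [sub_mul, div_mul_cancel₀ _ m0.ne']
      linarith⟩
    have := hu' c (hev.mono fun i hi => ?_) _ hs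
    · have := div_pos hη m0
      linarith
    obtain ⟨q1, w, q2, q3, q4, q5⟩ := hi
    have m1 : 0 < μ i := by obtain ⟨_, _, _, h, -⟩ := h1 i; exact h
    obtain ⟨j, hj⟩ := hge w (μ i) (fun l => (q2 l).le) m1.le fun j => q4 j j.2
    push_cast at hj
    rw [sum_key2] at hj
    have q6 := h3 i j.1 (q1 ▸ j.2)
    have q7 : ∑ b, (v j.1 b : ℝ) * o i b = ∑ b, (v j.1 b : ℝ) * ∑ l, (m b l : ℝ) * w l :=
      Finset.sum_congr rfl fun b _ => by
        by_cases hb : b ∈ Z₀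
        · simp [j.2 b hb]
        · rw [q3 b hb]
    refine le_of_mul_le_mul_right ?_ m1
    nlinarith [mul_le_mul_of_nonneg_left q5 (Nat.cast_nonneg (α := ℝ) n)]
  · have : Nonempty J := hJ.to_subtype
    obtain ⟨j, hj⟩ := Finite.exists_min fun j : J => ∑ l, ν j l * w₀ l
    obtain ⟨i₀, -⟩ := hge 0 0 (fun _ => le_rfl) le_rfl fun j => by simp
    refine ⟨_, Z₀, _, _, hI w₀ _ (hw j) fun j' hj' => hj ⟨j', hj'⟩, hD, ⟨i₀.1, i₀.2⟩,
      fun i hi => ?_⟩
    have := hle ⟨i, hi⟩ j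
    push_cast at this ⊢
    rw [sum_key2] at this
    linarith

end Vale.Agent.P283R.Be2
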