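import Mathlib

/-!
# Newton's method in several variables, with uniqueness
-/

open MvPolynomial

namespace Vale.Agent.P283R.Nw

variable {σ R : Type*} [Fintype σ] [CommRing R]

/-- the Taylor formula of order one -/
theorem taylor (I : Ideal R) (a h : σ → R) (hh : ∀ j, h j ∈ I) (F : MvPolynomial σ R) :
    eval (a + h) F - eval a F - ∑ j, eval a (pderiv j F) * h j ∈ I ^ 2 ∧
      eval (a + h) F - eval a F ∈ I := by
  classical
  induction F using MvPolynomial.induction_on with
  | C c => simp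
  | add f g hf hg =>
    refine ⟨?_, ?_⟩
    · convert add_mem hf.1 hg.1 using 1
      simp only [map_add, add_mul, Finset.sum_add_distrib]
      ring
    · convert add_mem hf.2 hg.2 using 1
      simp only [map_add]
      ring
  | mul_X f s hf =>
    have e : ∑ j, eval a (pderiv j (f * X s)) * h j =
        (∑ j, eval a (pderiv j f) * h j) * a s + eval a f * h s := by
      simp only [Derivation.leibniz, smul_eq_mul, map_add, map_mul, eval_X, add_mul,
        Finset.sum_add_distrib, pderiv_X, Finset.sum_mul]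
      rw [add_comm]
      congr 1
      · exact Finset.sum_congr rfl fun j _ => by ring
      · rw [Finset.sum_eq_single s (fun j _ hj => by simp [hj.symm]) (by simp)]
        simp
    refine ⟨?_, ?_⟩
    · convert add_mem ((I ^ 2).mul_mem_right (a s) hf.1)
        (show _ ∈ I ^ 2 from sq I ▸ Ideal.mul_mem_mul hf.2 (hh s)) using 1
      rw [e]
      simp only [map_mul, eval_X, Pi.add_apply]
      ring
    · convert add_mem (I.mul_mem_right (a s) hf.2) (I.mul_mem_left (eval (a + h) f) (hh s)) using 1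
      simp only [map_mul, eval_X, Pi.add_apply]
      ring

variable [DecidableEq σ]

/-- the Jacobian matrix at the point `a` -/
noncomputable def jm (F : σ → MvPolynomial σ R) (a : σ → R) : Matrix σ σ R :=
  Matrix.of fun i j => eval a (pderiv j (F i))

theorem det_sub (I : Ideal R) (F : σ → MvPolynomial σ R) {a b : σ → R} (h : ∀ j, b j - a j ∈ I) :
    (jm F b).det - (jm F a).det ∈ I := by
  rw [← Ideal.Quotient.eq, RingHom.map_det, RingHom.map_det]
  congr 1
  ext i j
  have := (taylor I a (b - a) h (pderiv j (F i))).2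
  rw [add_sub_cancel] at this
  exact Ideal.Quotient.eq.2 this

/-- one step -/
theorem step {π : R} (F : σ → MvPolynomial σ R) (a : σ → R) {ρ n : ℕ}
    (hJ : (jm F a).det ∣ π ^ ρ) (h0 : ∀ i, π ^ (2 * ρ + n) ∣ eval a (F i)) :
    ∃ b : σ → R, (∀ j, π ^ (ρ + n) ∣ b j - a j) ∧ ∀ i, π ^ (2 * ρ + 2 * n) ∣ eval b (F i) := by
  obtain ⟨c, hc⟩ := hJ
  choose g hg using h0
  let h : σ → R := fun j => π ^ (ρ + n) * (-c * (jm F a).adjugate.mulVec g j)
  refine ⟨a + h, fun j => by simp [h], fun i => ?_⟩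
  have t := (taylor (Ideal.span {π ^ (ρ + n)}) a h
    (fun j => Ideal.mem_span_singleton.2 (dvd_mul_right _ _)) (F i)).1
  have e : ∑ j, eval a (pderiv j (F i)) * h j = -eval a (F i) := by
    have : (jm F a).mulVec ((jm F a).adjugate.mulVec g) i = (jm F a).det * g i := by
      rw [Matrix.mulVec_mulVec, Matrix.mul_adjugate, Matrix.smul_mulVec, Matrix.one_mulVec]
      rfl
    have e2 : ∑ j, eval a (pderiv j (F i)) * h j =
        π ^ (ρ + n) * -c * (jm F a).mulVec ((jm F a).adjugate.mulVec g) i := by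
      rw [Matrix.mulVec, dotProduct, Finset.mul_sum]
      exact Finset.sum_congr rfl fun j _ => by simp only [h, jm, Matrix.of_apply]; ring
    rw [e2, this, hg i, two_mul, add_assoc, pow_add π ρ (ρ + n), hc]
    ring
  rw [e, sub_sub, add_neg_cancel, sub_zero, Ideal.span_singleton_pow, Ideal.mem_span_singleton,
    ← pow_mul] at t
  convert t using 2
  ring

theorem det_dvd {π : R} (hπ : π ∈ (⊥ : Ideal R).jacobson) (F : σ → MvPolynomial σ R)
    {a b : σ → R} {ρ : ℕ} (hJ : (jm F a).det ∣ π ^ ρ) (h : ∀ j, π ^ (ρ + 1) ∣ b j - a j) :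
    (jm F b).det ∣ π ^ ρ := by
  obtain ⟨c, hc⟩ := hJ
  obtain ⟨d, hd⟩ := Ideal.mem_span_singleton.1
    (det_sub (Ideal.span {π ^ (ρ + 1)}) F fun j => Ideal.mem_span_singleton.2 (h j))
  have u : IsUnit (π * (c * d) + 1) := Ideal.mem_jacobson_bot.1 hπ _
  have e : (jm F b).det = (jm F a).det * (π * (c * d) + 1) := by
    rw [eq_add_of_sub_eq hd, pow_succ, hc]; ring
  rw [e, u.mul_right_dvd]
  exact ⟨c, hc⟩

/-- **existence** -/
theorem newton {π : R} [IsAdicComplete (Ideal.span {π}) R] (F : σ → MvPolynomial σ R) (a : σ → R)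
    {ρ n : ℕ} (hn : 0 < n) (hJ : (jm F a).det ∣ π ^ ρ)
    (h0 : ∀ i, π ^ (2 * ρ + n) ∣ eval a (F i)) :
    ∃ b : σ → R, (∀ j, π ^ (ρ + n) ∣ b j - a j) ∧ ∀ i, eval b (F i) = 0 := by
  have hπ : π ∈ (⊥ : Ideal R).jacobson :=
    IsAdicComplete.le_jacobson_bot (Ideal.span {π}) (Ideal.mem_span_singleton_self π)
  let Q : ℕ → (σ → R) → Prop := fun k b =>
    (∀ j, π ^ (ρ + n) ∣ b j - a j) ∧ ∀ i, π ^ (2 * ρ + (n + k)) ∣ eval b (F i)
  have st : ∀ k b, Q k b → ∃ b', Q (k + 1) b' ∧ ∀ j, π ^ k ∣ b' j - b j := fun k b q => by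
    obtain ⟨b', h1, h2⟩ := step F b (det_dvd hπ F hJ fun j =>
      (pow_dvd_pow π (by omega)).trans (q.1 j)) q.2
    refine ⟨b', ⟨fun j => ?_, fun i => (pow_dvd_pow π (by omega)).trans (h2 i)⟩,
      fun j => (pow_dvd_pow π (by omega)).trans (h1 j)⟩
    have := dvd_add ((pow_dvd_pow π (by omega : ρ + n ≤ ρ + (n + k))).trans (h1 j)) (q.1 j)
    rwa [sub_add_sub_cancel] at this
  choose! f f1 f2 using st
  let u : ℕ → σ → R := fun k => Nat.rec a f k
  have hu : ∀ k, Q k (u k) := fun k => by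
    induction k with
    | zero => exact ⟨fun j => by simp [u], h0⟩
    | succ k ih => exact f1 k _ ih
  have mem : ∀ k (x y : R), (x ≡ y [SMOD (Ideal.span {π} ^ k • ⊤ : Submodule R R)]) ↔
      π ^ k ∣ x - y := fun k x y => by
    rw [SModEq.sub_mem, smul_eq_mul, Ideal.mul_top, Ideal.span_singleton_pow,
      Ideal.mem_span_singleton]
  have cau : ∀ j {m k : ℕ}, m ≤ k → π ^ m ∣ u k j - u m j := fun j m k h => by
    induction k, h using Nat.le_induction with
    | base => simp
    | succ k h ih =>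
      have := dvd_add ((pow_dvd_pow π h).trans (f2 k _ (hu k) j)) ih
      rwa [sub_add_sub_cancel] at this
  have ex : ∀ j, ∃ L : R, ∀ k, π ^ k ∣ u k j - L := fun j => by
    obtain ⟨L, hL⟩ := IsPrecomplete.prec (I := Ideal.span {π}) (M := R) inferInstance
      (f := fun k => u k j) fun h => (mem _ _ _).2 (dvd_sub_comm.1 (cau j h))
    exact ⟨L, fun k => (mem _ _ _).1 (hL k)⟩
  choose b hb using ex
  refine ⟨b, fun j => ?_, fun i => ?_⟩
  · have := dvd_sub ((hu (ρ + n)).1 j) (hb j (ρ + n))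
    rwa [sub_sub_sub_cancel_left] at this
  · refine IsHausdorff.haus (I := Ideal.span {π}) (M := R) inferInstance _ fun k => ?_
    rw [mem, sub_zero]
    have t := (taylor (Ideal.span {π ^ k}) b (u k - b)
      (fun j => Ideal.mem_span_singleton.2 (hb j k)) (F i)).2
    rw [add_sub_cancel, Ideal.mem_span_singleton] at t
    have := dvd_sub ((pow_dvd_pow π (by omega : k ≤ 2 * ρ + (n + k))).trans ((hu k).2 i)) t
    rwa [sub_sub_cancel] at this

/-- **uniqueness** -/
theorem unique {π : R} [IsHausdorff (Ideal.span {π}) R] (h0 : π ∈ nonZeroDivisors R)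
    (F : σ → MvPolynomial σ R) {b b' : σ → R} {ρ : ℕ} (hJ : (jm F b).det ∣ π ^ ρ)
    (h : ∀ j, π ^ (ρ + 1) ∣ b' j - b j) (e : ∀ i, eval b' (F i) = eval b (F i)) : b' = b := by
  have key : ∀ k j, π ^ (ρ + 1 + k) ∣ b' j - b j := fun k => by
    induction k with
    | zero => exact h
    | succ k ih =>
      intro j
      have t : ∀ i, π ^ (ρ + (ρ + 1 + (k + 1))) ∣ (jm F b).mulVec (b' - b) i := fun i => by
        have t := (taylor (Ideal.span {π ^ (ρ + 1 + k)}) b (b' - b)
          (fun j => Ideal.mem_span_singleton.2 (ih j)) (F i)).1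
        rw [add_sub_cancel, e, sub_self, zero_sub, neg_mem_iff, Ideal.span_singleton_pow,
          Ideal.mem_span_singleton, ← pow_mul] at t
        exact (pow_dvd_pow π (by omega)).trans t
      have s : π ^ (ρ + (ρ + 1 + (k + 1))) ∣ (jm F b).det * (b' j - b j) := by
        have : (jm F b).adjugate.mulVec ((jm F b).mulVec (b' - b)) j =
            (jm F b).det * (b' j - b j) := by
          rw [Matrix.mulVec_mulVec, Matrix.adjugate_mul, Matrix.smul_mulVec, Matrix.one_mulVec]
          rfl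
        rw [← this, Matrix.mulVec, dotProduct]
        exact Finset.dvd_sum fun i _ => (t i).mul_left _
      obtain ⟨c, hc⟩ := hJ
      have s2 : π ^ ρ * π ^ (ρ + 1 + (k + 1)) ∣ π ^ ρ * (b' j - b j) := by
        rw [← pow_add]
        convert s.mul_left c using 1
        rw [hc]; ring
      obtain ⟨d, hd⟩ := s2
      exact ⟨d, (mul_cancel_left_mem_nonZeroDivisors (pow_mem h0 ρ)).1 (by rw [hd, mul_assoc])⟩
  funext j
  refine sub_eq_zero.1 (IsHausdorff.haus (I := Ideal.span {π}) (M := R) inferInstance _ fun k => ?_)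
  rw [SModEq.sub_mem, sub_zero, smul_eq_mul, Ideal.mul_top, Ideal.span_singleton_pow,
    Ideal.mem_span_singleton]
  exact (pow_dvd_pow π (by omega)).trans (key k j)

end Vale.Agent.P283R.Nw
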