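import Vale.Agent.P283R.Co.Tda
import Vale.Agent.P283R.Be2.Nw
import Vale.Agent.P283R.Be2.At

/-! Descent of arcs on a hypersurface from an ultrapower to the single levels. -/

namespace Vale.Agent.P283R.Dn

open MvPolynomial Filter Vale.Agent.P283R.Td
open scoped PowerSeries

noncomputable section

/-- the Jacobian of the coordinates `T` of an integral arc -/
def jt {k κ : Type} [Field k] [Field κ] [Algebra k κ] {N d : ℕ} (T : Fin d → Fin N)
    (x : Fin N → κ⟦X⟧) (δ : Fin d → Derivation k κ κ) : κ⟦X⟧ :=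
  (Matrix.of fun i j => PowerSeries.mk fun n => δ j (PowerSeries.coeff n (x (T i)))).det

theorem rowsT {K κ : Type} [Field K] [Field κ] [Algebra K κ] {N L a d : ℕ} (T : Fin d → Fin N)
    (y : Fin N × Fin L → κ) (t : Fin d → Fin N × Fin L → κ)
    (ht : ∀ k (g : MvPolynomial (Fin N × Fin L) K), aeval y g = 0 →
      ∑ s, aeval y (pderiv s g) * t k s = 0)
    (hd : ¬ PowerSeries.X ^ a ∣ (Matrix.of fun k j => arc (t k) (T j)).det) :
    ∃ v : Fin d → Fin N × Fin L → MvPolynomial (Fin N × Fin L) K,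
      (∀ k g, aeval y g = 0 → aeval y (mkDerivation K (v k) g) = 0) ∧
      ¬ PowerSeries.X ^ a ∣
        (Matrix.of fun k j => arc (fun s => aeval y (v k s)) (T j)).det := by
  let G : Set (Fin d → κ⟦X⟧) := {ρ | ∃ v : Fin N × Fin L → MvPolynomial (Fin N × Fin L) K,
      (∀ g, aeval y g = 0 → aeval y (mkDerivation K v g) = 0) ∧
        ρ = fun j => arc (fun s => aeval y (v s)) (T j)}
  have h1 : ∀ t : Fin N × Fin L → κ, (∀ g : MvPolynomial (Fin N × Fin L) K, aeval y g = 0 →
      ∑ s, aeval y (pderiv s g) * t s = 0) →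
      (fun j => arc t (T j)) ∈ Submodule.span κ⟦X⟧ G := by
    intro t ht
    have h := tan_span y t ht
    clear ht
    induction h using Submodule.span_induction with
    | mem u hu =>
      obtain ⟨v, hv, rfl⟩ := hu
      exact Submodule.subset_span ⟨v, hv, rfl⟩
    | zero =>
      have : (fun j => arc (0 : Fin N × Fin L → κ) (T j)) = 0 := by funext j; simp [arc]
      rw [this]
      exact Submodule.zero_mem _
    | add u u' _ _ hu hu' =>
      have : (fun j => arc (u + u') (T j)) = (fun j => arc u (T j)) + fun j => arc u' (T j) := by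
        funext j; simp [arc, add_mul, Finset.sum_add_distrib]
      rw [this]
      exact Submodule.add_mem _ hu hu'
    | smul e u _ hu =>
      have : (fun j => arc (e • u) (T j)) =
          (PowerSeries.C e : κ⟦X⟧) • fun j => arc u (T j) := by
        funext j; simp [arc, Finset.mul_sum, mul_assoc]
      rw [this]
      exact Submodule.smul_mem _ _ hu
  obtain ⟨g, hg, hgd⟩ := det_span (Ideal.span {PowerSeries.X ^ a}) G
    (fun k j => arc (t k) (T j)) (fun k => h1 _ (ht k)) (by rwa [Ideal.mem_span_singleton])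
  rw [Ideal.mem_span_singleton] at hgd
  choose v hv hgv using hg
  refine ⟨v, hv, ?_⟩
  have : g = fun k j => arc (fun s => aeval y (v k s)) (T j) := funext hgv
  rwa [this] at hgd

theorem spec_detT {R k κ : Type} [CommRing R] [CommRing k] [CommRing κ] [Algebra k κ]
    (f : R →+* k) {N L d : ℕ} (T : Fin d → Fin N) (y : Fin N × Fin L → κ)
    (V : Fin d → Fin N × Fin L → MvPolynomial (Fin N × Fin L) R) (n : ℕ) :
    aeval y (map f (PowerSeries.coeff n (Matrix.of fun k j => arc (V k) (T j)).det)) =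
      PowerSeries.coeff n
        (Matrix.of fun k j => arc (fun s => aeval y (map f (V k s))) (T j)).det := by
  let ψ : MvPolynomial (Fin N × Fin L) R →+* κ :=
    (aeval y : MvPolynomial (Fin N × Fin L) k →ₐ[k] κ).toRingHom.comp (map f)
  have h : PowerSeries.map ψ (Matrix.of fun k j => arc (V k) (T j)).det =
      (Matrix.of fun k j => arc (fun s => aeval y (map f (V k s))) (T j)).det := by
    rw [RingHom.map_det]
    congr 1
    exact Matrix.ext fun k j => map_arc ψ (V k) (T j)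
  rw [← h, PowerSeries.coeff_map]
  rfl

theorem ex_ord {κ : Type} [CommRing κ] (f : κ⟦X⟧) (L : ℕ) :
    ∃ o, o ≤ L ∧ (∀ n, n < o → PowerSeries.coeff n f = 0) ∧
      (o < L → PowerSeries.coeff o f ≠ 0) := by
  induction L with
  | zero => exact ⟨0, le_rfl, fun _ h => absurd h (Nat.not_lt_zero _), fun h => absurd h (lt_irrefl _)⟩
  | succ L ih =>
    obtain ⟨o, h1, h2, h3⟩ := ih
    rcases h1.lt_or_eq with h | rfl
    · exact ⟨o, by omega, h2, fun _ => h3 h⟩
    · by_cases h0 : PowerSeries.coeff o f = 0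
      · refine ⟨o + 1, le_rfl, fun n hn => ?_, fun h => absurd h (lt_irrefl _)⟩
        rcases (Nat.lt_succ_iff.1 hn).lt_or_eq with h | rfl
        · exact h2 n h
        · exact h0
      · exact ⟨o, by omega, h2, fun _ => h0⟩

theorem dvd_iff_le {κ : Type} [CommRing κ] {f : κ⟦X⟧} {L o : ℕ}
    (h2 : ∀ n, n < o → PowerSeries.coeff n f = 0) (h3 : o < L → PowerSeries.coeff o f ≠ 0)
    {n : ℕ} (hn : n ≤ L) (ho : o ≤ L) : PowerSeries.X ^ n ∣ f ↔ n ≤ o := by
  rw [PowerSeries.X_pow_dvd_iff]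
  constructor
  · intro h
    by_contra hc
    exact h3 (by omega) (h o (by omega))
  · intro h m hm
    exact h2 m (by omega)

/-- **T-down** for a finite family, with truncated orders -/
theorem tdG {ι R K : Type} [CommRing R] [Field K] [IsAlgClosed K] {π : R →+* K}
    {ev : ι → R →+* ℂ} {U : Filter ι} (hπ : Function.Surjective π)
    (hU : ∀ r, π r = 0 → ∀ᶠ i in U, ev i r = 0) {κ : Type} [Field κ] [Algebra K κ] {N d : ℕ}
    (T : Fin d → Fin N) (x : Fin N → κ⟦X⟧) (δ : Fin d → Derivation K κ κ) (a L : ℕ)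
    (ha : ¬ PowerSeries.X ^ (a + 1) ∣ jt T x δ) {α : Type} [Finite α]
    (F : α → MvPolynomial (Fin N) R) :
    ∀ᶠ i in U, ∃ (k' : Type) (_ : Field k') (_ : Algebra ℂ k') (x' : Fin N → k'⟦X⟧)
      (δ' : Fin d → Derivation ℂ k' k'), (¬ PowerSeries.X ^ (a + 1) ∣ jt T x' δ') ∧
      ∀ c n, n ≤ L → (PowerSeries.X ^ n ∣ aeval x' (map (ev i) (F c)) ↔
        PowerSeries.X ^ n ∣ aeval x (map π (F c))) := by
  classical
  have := Fintype.ofFinite α
  let L' := a + 1 + L
  let y : Fin N × Fin L' → κ := fun s => PowerSeries.coeff s.2 (x s.1)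
  have hmk : ∀ {k κ : Type} [Field k] [Field κ] [Algebra k κ] (y : Fin N × Fin L' → κ)
      (δ : Derivation k κ κ) (j : Fin N),
      (PowerSeries.mk fun n => δ (PowerSeries.coeff n (arc y j))) = arc (fun s => δ (y s)) j := by
    intro k κ _ _ _ y δ j
    ext n
    rw [PowerSeries.coeff_mk, coeff_arc, coeff_arc]
    split_ifs <;> simp
  have h1 : ¬ PowerSeries.X ^ (a + 1) ∣
      (Matrix.of fun k j => arc (fun s => δ k (y s)) (T j)).det := by
    intro h
    apply ha
    have h2 := dvd_det_sub (PowerSeries.X ^ (a + 1))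
      (Matrix.of fun i j => PowerSeries.mk fun n => δ j (PowerSeries.coeff n (x (T i))))
      (Matrix.of fun k j => arc (fun s => δ k (y s)) (T j)).transpose (fun i j => by
        rw [PowerSeries.X_pow_dvd_iff]
        intro m hm
        have hm' : m < L' := by omega
        simp [coeff_arc, hm', y])
    rw [Matrix.det_transpose] at h2
    exact (dvd_iff_dvd_of_dvd_sub h2).2 h
  obtain ⟨v, hv, hd⟩ := rowsT (K := K) T y (fun k s => δ k (y s)) (fun k g hg => by
    rw [← chain, hg, map_zero]) h1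
  choose V hV using fun k s => map_surjective π hπ (v k s)
  rw [PowerSeries.X_pow_dvd_iff] at hd
  push Not at hd
  obtain ⟨m, hm, hd⟩ := hd
  choose o ho1 ho2 ho3 using fun c => ex_ord (aeval (arc y) (map π (F c))) L
  let u : α → ℕ → MvPolynomial (Fin N × Fin L') R := fun c n =>
    PowerSeries.coeff n (aeval (arc (X : Fin N × Fin L' → MvPolynomial _ R)) (F c))
  have h := desc hπ hU y (τ := α × Fin L)
    (fun s => if (s.2 : ℕ) < o s.1 then u s.1 s.2 else 0)
    (by
      rintro ⟨c, n⟩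
      split_ifs with hs
      · simp only [u]
        rw [spec]
        exact ho2 c _ hs
      · simp)
    (PowerSeries.coeff m (Matrix.of fun k j => arc (V k) (T j)).det *
      ∏ c, if o c < L then u c (o c) else 1)
    (by
      rw [map_mul, map_mul, map_prod, map_prod]
      refine mul_ne_zero (by rw [spec_detT]; simpa only [hV] using hd)
        (Finset.prod_ne_zero_iff.2 fun c _ => ?_)
      split_ifs with hs
      · simp only [u]
        rw [spec]
        exact ho3 c hs
      · simp) V (by simpa only [hV] using hv)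
  filter_upwards [h] with i ⟨k', _, _, y', D, hZ, hc, hD⟩
  rw [map_mul, map_mul, map_prod, map_prod] at hc
  refine ⟨k', inferInstance, inferInstance, arc y', D, fun hdv => ?_, fun c n hn => ?_⟩
  · apply left_ne_zero_of_mul hc
    rw [spec_detT]
    simp only [jt, hmk, hD] at hdv
    rw [← Matrix.det_transpose]
    exact PowerSeries.X_pow_dvd_iff.1 hdv m hm
  · have e1 : PowerSeries.X ^ n ∣ aeval x (map π (F c)) ↔
        PowerSeries.X ^ n ∣ aeval (arc y) (map π (F c)) :=
      dvd_iff_dvd_of_dvd_sub (dvd_aeval_sub _ x (arc y) (fun j =>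
        (pow_dvd_pow _ (by omega)).trans (dvd_sub_arc L' x j)) (map π (F c)))
    rw [e1, dvd_iff_le (ho2 c) (ho3 c) hn (ho1 c)]
    refine dvd_iff_le (L := L) (fun n hn => ?_) (fun hs => ?_) hn (ho1 c)
    · have h5 := hZ (c, ⟨n, hn.trans_le (ho1 c)⟩)
      simp only [hn, if_true, u] at h5
      rwa [spec] at h5
    · have h5 := Finset.prod_ne_zero_iff.1 (right_ne_zero_of_mul hc) c (Finset.mem_univ c)
      simp only [hs, if_true, u] at h5
      rwa [spec] at h5

/-- Hensel in the variable `j₀` -/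
theorem hen {k κ : Type} [CommRing k] [Field κ] [Algebra k κ] {N : ℕ} (j₀ : Fin N)
    (x : Fin N → κ⟦X⟧) (P : MvPolynomial (Fin N) k) {s n : ℕ} (hn : 0 < n)
    (hs : ¬ PowerSeries.X ^ (s + 1) ∣ aeval x (pderiv j₀ P))
    (hP : PowerSeries.X ^ (2 * s + n) ∣ aeval x P) :
    ∃ y, PowerSeries.X ^ (s + n) ∣ y - x j₀ ∧ aeval (Function.update x j₀ y) P = 0 := by
  classical
  let ψ : MvPolynomial (Fin N) k →ₐ[k] MvPolynomial Unit κ⟦X⟧ :=
    aeval fun j => if j = j₀ then X () else C (x j)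
  have e1 : ∀ (y : κ⟦X⟧) (G : MvPolynomial (Fin N) k),
      eval (fun _ => y) (ψ G) = aeval (Function.update x j₀ y) G := fun y G => by
    induction G using MvPolynomial.induction_on with
    | C a => simp [ψ]
    | add p q hp hq => simp only [map_add, hp, hq]
    | mul_X p j hp =>
      simp only [map_mul, hp, aeval_X, ψ]
      congr 1
      by_cases h : j = j₀
      · subst h; simp
      · simp [h]
  have e2 : ∀ G : MvPolynomial (Fin N) k, pderiv () (ψ G) = ψ (pderiv j₀ G) := fun G => by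
    induction G using MvPolynomial.induction_on with
    | C a => simp [ψ]
    | add p q hp hq => simp only [map_add, hp, hq]
    | mul_X p j hp =>
      simp only [map_mul, Derivation.leibniz, smul_eq_mul, map_add, hp]
      congr 2
      by_cases h : j = j₀
      · subst h; simp [ψ]
      · simp [ψ, h, pderiv_X]
  have hJ : (Nw.jm (fun _ : Unit => ψ P) fun _ => x j₀).det ∣ PowerSeries.X ^ s := by
    rw [Matrix.det_unique]
    show eval (fun _ => x j₀) (pderiv () (ψ P)) ∣ _
    rw [e2, e1, Function.update_eq_self]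
    set f := aeval x (pderiv j₀ P)
    have h0 : f ≠ 0 := fun h => hs (h ▸ dvd_zero _)
    have h1 : f.order.toNat ≤ s := by
      by_contra hc
      exact hs ((pow_dvd_pow _ (by omega)).trans (PowerSeries.X_pow_order_dvd (φ := f)))
    have h2 : IsUnit (PowerSeries.divXPowOrder f) := by
      rw [PowerSeries.isUnit_iff_constantCoeff]
      exact IsUnit.mk0 _ (mt PowerSeries.constantCoeff_divXPowOrder_eq_zero_iff.1 h0)
    rw [← PowerSeries.X_pow_order_mul_divXPowOrder (f := f), h2.mul_right_dvd]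
    exact pow_dvd_pow _ h1
  obtain ⟨b, h1, h2⟩ := Nw.newton (π := (PowerSeries.X : κ⟦X⟧)) (fun _ : Unit => ψ P)
    (fun _ => x j₀) hn hJ (fun _ => by rw [e1, Function.update_eq_self]; exact hP)
  exact ⟨b (), h1 (), by rw [← e1]; exact h2 ()⟩

theorem dvd_trunc {k κ : Type} [CommRing k] [CommRing κ] [Algebra k κ] {N : ℕ}
    (x : Fin N → κ⟦X⟧) (hx : ∀ j, PowerSeries.X ∣ x j) (L : ℕ) (p : MvPolynomial (Fin N) k) :
    PowerSeries.X ^ L ∣
      aeval x p - aeval x (MvPowerSeries.truncTotal L (p : MvPowerSeries (Fin N) k)) := by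
  rw [← map_sub]
  set q := p - MvPowerSeries.truncTotal L (p : MvPowerSeries (Fin N) k) with hq
  rw [q.as_sum, map_sum]
  refine Finset.dvd_sum fun m hm => ?_
  have h1 : L ≤ m.degree := by
    by_contra hc
    apply mem_support_iff.1 hm
    rw [hq, coeff_sub, MvPowerSeries.coeff_truncTotal _ (not_le.1 hc), coeff_coe, sub_self]
  rw [aeval_monomial]
  refine Dvd.dvd.mul_left ((pow_dvd_pow _ h1).trans ?_) _
  rw [Finsupp.degree_apply, Finsupp.prod, ← Finset.prod_pow_eq_pow_sum]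
  exact Finset.prod_dvd_prod_of_dvd _ _ fun j _ => pow_dvd_pow_of_dvd (hx j) _

open Co (UK ulim)

theorem ulim_pderiv {N : ℕ} (𝒰 : Ultrafilter ℕ) (j : Fin N) (f : ℕ → MvPowerSeries (Fin N) ℂ) :
    ulim 𝒰 (fun i => MvPowerSeries.pderiv ℂ j (f i)) =
      MvPowerSeries.pderiv (UK 𝒰) j (ulim 𝒰 f) := by
  ext m
  rw [MvPowerSeries.coeff_pderiv]
  show ((fun i => MvPowerSeries.coeff m (MvPowerSeries.pderiv ℂ j (f i)) : ℕ → ℂ) : UK 𝒰) = _
  simp only [MvPowerSeries.coeff_pderiv]
  rfl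

theorem jt_congr {k κ : Type} [Field k] [Field κ] [Algebra k κ] {N d : ℕ} {T : Fin d → Fin N}
    {x x' : Fin N → κ⟦X⟧} (h : ∀ i, x' (T i) = x (T i)) (δ : Fin d → Derivation k κ κ) :
    jt T x' δ = jt T x δ := by
  simp only [jt, h]

/-- **T-down on a hypersurface**: the arcs of the levels are exact -/
theorem dnH {N d : ℕ} (j₀ : Fin N) (T : Fin d → Fin N) (hT : ∀ i, T i ≠ j₀) (𝒰 : Ultrafilter ℕ)
    (P : ℕ → MvPolynomial (Fin N) ℂ) {α : Type} [Finite α] (F : α → ℕ → MvPolynomial (Fin N) ℂ)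
    {κ : Type} [Field κ] [Algebra (UK 𝒰) κ] (e : MvPowerSeries (Fin N) (UK 𝒰) →+* κ⟦X⟧)
    (δ : Fin d → Derivation (UK 𝒰) κ κ)
    (hc : ∀ c, e (MvPowerSeries.C c) = algebraMap (UK 𝒰) _ c)
    (hm : ∀ j, PowerSeries.X ∣ e (MvPowerSeries.X j)) (hP : e (ulim 𝒰 fun i => P i) = 0)
    (hD : e (MvPowerSeries.pderiv (UK 𝒰) j₀ (ulim 𝒰 fun i => P i)) ≠ 0) (a L : ℕ)
    (ha : ¬ PowerSeries.X ^ (a + 1) ∣ jt T (fun j => e (MvPowerSeries.X j)) δ) :
    ∀ᶠ i in (𝒰 : Filter ℕ), ∃ (k' : Type) (_ : Field k') (_ : Algebra ℂ k') (x' : Fin N → k'⟦X⟧)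
      (δ' : Fin d → Derivation ℂ k' k'), aeval x' (P i) = 0 ∧
      (¬ PowerSeries.X ^ (a + 1) ∣ jt T x' δ') ∧ (∀ j, PowerSeries.X ∣ x' j) ∧
      (∀ j n, n ≤ L → (PowerSeries.X ^ n ∣ x' j ↔ PowerSeries.X ^ n ∣ e (MvPowerSeries.X j))) ∧
      (∀ n, n ≤ L → (PowerSeries.X ^ n ∣ aeval x' (pderiv j₀ (P i)) ↔
        PowerSeries.X ^ n ∣ e (MvPowerSeries.pderiv (UK 𝒰) j₀ (ulim 𝒰 fun i => P i)))) ∧
      ∀ c n, n ≤ L → (PowerSeries.X ^ n ∣ aeval x' (F c i) ↔
        PowerSeries.X ^ n ∣ e (ulim 𝒰 fun i => F c i)) := by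
  classical
  have := Co.uk_closed 𝒰
  obtain ⟨s, hs⟩ : ∃ s : ℕ, ¬ PowerSeries.X ^ (s + 1) ∣
      e (MvPowerSeries.pderiv (UK 𝒰) j₀ (ulim 𝒰 fun i => P i)) := by
    by_contra hc
    push Not at hc
    apply hD
    ext n
    exact PowerSeries.X_pow_dvd_iff.1 (hc n) n (Nat.lt_succ_self n)
  let L' := 2 * s + (L + 1)
  let H : Option (Option α) → ℕ → MvPolynomial (Fin N) ℂ := fun o =>
    o.elim P fun o' => o'.elim (fun i => pderiv j₀ (P i)) F
  have h1 := tdG (ev := fun i => Uf.ev i) (U := (𝒰 : Filter ℕ)) (Co.ukPi_onto 𝒰)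
    (fun r hr => (Co.ukPi_ker 𝒰 r).1 hr) T (fun j => e (MvPowerSeries.X j)) δ a L' ha
    (α := Fin N ⊕ Option (Option α)) (Sum.elim X fun o => MvPowerSeries.truncTotal L'
      (Uf.big fun i => (H o i : MvPowerSeries (Fin N) ℂ)))
  filter_upwards [h1] with i ⟨k', _, _, x', δ', h2, h3⟩
  have g1 : ∀ j n, n ≤ L' →
      (PowerSeries.X ^ n ∣ x' j ↔ PowerSeries.X ^ n ∣ e (MvPowerSeries.X j)) := fun j n hn => by
    simpa using h3 (.inl j) n hn
  have g2 : ∀ j, PowerSeries.X ∣ x' j := fun j => by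
    simpa using (g1 j 1 (by omega)).2 (by simpa using hm j)
  have g3 : ∀ o n, n ≤ L' → (PowerSeries.X ^ n ∣ aeval x' (H o i) ↔
      PowerSeries.X ^ n ∣ e (ulim 𝒰 fun i => H o i)) := fun o n hn => by
    have h4 := h3 (.inr o) n hn
    rw [Sum.elim_inr, Uf.map_trunc_big, Uf.map_trunc, Co.map_ukPi_big] at h4
    rw [dvd_iff_dvd_of_dvd_sub ((pow_dvd_pow _ hn).trans (dvd_trunc x' g2 L' (H o i))), h4,
      dvd_iff_dvd_of_dvd_sub ((pow_dvd_pow _ hn).trans (Be2.hom_trunc hc hm L' _))]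
  have g4 : ∀ n, n ≤ L' → (PowerSeries.X ^ n ∣ aeval x' (pderiv j₀ (P i)) ↔
      PowerSeries.X ^ n ∣ e (MvPowerSeries.pderiv (UK 𝒰) j₀ (ulim 𝒰 fun i => P i))) :=
    fun n hn => by
      have h4 := g3 (some none) n hn
      simp only [H, Option.elim_some, Option.elim_none, ← MvPowerSeries.pderiv_coe] at h4
      rwa [ulim_pderiv] at h4
  obtain ⟨y, y1, y2⟩ := hen j₀ x' (P i) (s := s) (n := L + 1) (Nat.succ_pos L)
    (fun h => hs ((g4 _ (by omega)).1 h))
    ((g3 none _ le_rfl).2 (by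
      show _ ∣ e (ulim 𝒰 fun i => P i)
      rw [hP]
      exact dvd_zero _))
  have y3 : ∀ j, PowerSeries.X ^ (L + 1) ∣ Function.update x' j₀ y j - x' j := fun j => by
    by_cases h : j = j₀
    · subst h
      rw [Function.update_self]
      exact (pow_dvd_pow _ (by omega)).trans y1
    · rw [Function.update_of_ne h, sub_self]
      exact dvd_zero _
  have y4 : ∀ (G : MvPolynomial (Fin N) ℂ) n, n ≤ L →
      (PowerSeries.X ^ n ∣ aeval (Function.update x' j₀ y) G ↔ PowerSeries.X ^ n ∣ aeval x' G) :=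
    fun G n hn => dvd_iff_dvd_of_dvd_sub
      ((pow_dvd_pow _ (by omega)).trans (dvd_aeval_sub _ _ _ y3 G))
  refine ⟨k', inferInstance, inferInstance, Function.update x' j₀ y, δ', y2, ?_, fun j => ?_,
    fun j n hn => ?_, fun n hn => ?_, fun c n hn => ?_⟩
  · rwa [jt_congr fun l => Function.update_of_ne (hT l) _ _]
  · exact (dvd_iff_dvd_of_dvd_sub ((dvd_pow_self _ (Nat.succ_ne_zero L)).trans (y3 j))).2 (g2 j)
  · rw [← g1 j n (by omega)]
    exact dvd_iff_dvd_of_dvd_sub ((pow_dvd_pow _ (by omega)).trans (y3 j))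
  · rw [y4 _ n hn, g4 n (by omega)]
  · rw [y4 _ n hn]
    exact g3 (some (some c)) n (by omega)

end

end Vale.Agent.P283R.Dn
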