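import Vale.Agent.P283R.Be2.Cs
import Vale.Agent.P283R.Be2.Dn
import Vale.Agent.P283R.Co.Ap2

/-!
# P283R, block BE, row DNY: from an integral arc on the limit to exact arcs at the levels
-/

attribute [-instance] HahnSeries.powerSeriesAlgebra

open Filter

noncomputable section

namespace Vale.Agent.P283R.Be2

open Co (Ge thl ulim UK)
open Tx Ap

namespace Dny

variable {k : Type} [Field k] [Algebra ℂ k]

theorem zs_em (a : PowerSeries k) : Zs (em a) := fun g hg => by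
  by_contra c
  exact hg (em_not a fun n e => c ⟨n, by rw [e]; simp⟩)

theorem ge_em {a : PowerSeries k} {n : ℕ} (h : PowerSeries.X ^ n ∣ a) : Ge n (em a) :=
  Co.ge_iff.2 fun g hg => by
    by_cases e : ∃ m : ℕ, g = m
    · obtain ⟨m, rfl⟩ := e
      rw [em_nat, PowerSeries.X_pow_dvd_iff.1 h m (by exact_mod_cast hg)]
    · exact em_not a fun n k => e ⟨n, k⟩

theorem le_em {a : PowerSeries k} {n : ℕ} (h : ¬ PowerSeries.X ^ (n + 1) ∣ a) :
    (em a).orderTop ≤ ((n : ℝ) : WithTop ℝ) := by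
  rw [PowerSeries.X_pow_dvd_iff] at h
  push Not at h
  obtain ⟨m, h1, h2⟩ := h
  refine (HahnSeries.orderTop_le_of_coeff_ne_zero (g := (m : ℝ)) (by rwa [em_nat])).trans ?_
  exact_mod_cast Nat.lt_succ_iff.1 h1

omit [Algebra ℂ k] in
theorem dvd_iff {a : PowerSeries k} {o : ℕ} (h : a.order = o) (n : ℕ) :
    PowerSeries.X ^ n ∣ a ↔ n ≤ o := by
  obtain ⟨h1, h2⟩ := PowerSeries.order_eq_nat.1 h
  rw [PowerSeries.X_pow_dvd_iff]
  exact ⟨fun c => not_lt.1 fun l => h1 (c o l), fun l m hm => h2 m (hm.trans_le l)⟩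

theorem jx_em {N d : ℕ} (T : Fin d → Fin N) (x : Fin N → PowerSeries k)
    (δ : Fin d → Derivation ℂ k k) : (Jx δ fun l => em (x (T l))) = em (Dn.jt T x δ) := by
  rw [Dn.jt, AlgHom.map_det, ← Matrix.det_transpose, Jx]
  congr 1
  ext1 i j
  exact thl_em _ _

theorem aeval_em {σ : Type} (x : σ → PowerSeries k) (p : MvPolynomial σ ℂ) :
    MvPolynomial.aeval (fun j => em (x j)) p = em (MvPolynomial.aeval x p) := by
  rw [← MvPolynomial.comp_aeval, AlgHom.comp_apply]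

end Dny

open Dny in
/-- **DNY** -/
theorem dny : DNY := by
  intro d α _ 𝒰 P G b₀ a Z o μ K hb ⟨κ, _, _, e, δ, hc, μ0, hm, hP, hZ, ho, hj⟩ h0
  have hD : e (MvPowerSeries.pderiv (UK 𝒰) 0 (ulim 𝒰 fun i => P i)) ≠ 0 := by
    have := ho b₀ h0
    simp only [hb, ← MvPowerSeries.pderiv_coe] at this
    rw [← Dn.ulim_pderiv]
    intro c
    rw [c] at this
    simp at this
  refine (Dn.dnH 0 Fin.succ Fin.succ_ne_zero 𝒰 P G e δ hc
    (fun j => (dvd_pow_self _ μ0.ne').trans (hm j)) hP hD a (max μ K)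
    (fun c => by simpa using (dvd_iff hj _).1 c)).mono ?_
  rintro i ⟨k', _, _, x, δ', h1, h2, -, h4, -, h6⟩
  refine ⟨k', _, _, fun j => em (x j), δ', fun j => ⟨zs_em _, ge_em ((h4 j μ (le_max_left _ _)).2
    (hm j))⟩, by rw [aeval_em, h1, map_zero], ?_, fun b hb => ?_, fun b hb l => ?_⟩
  · rw [jx_em]
    exact le_em h2
  · rw [aeval_em]
    exact ge_em ((h6 b K (le_max_right _ _)).2 (by rw [hZ b hb]; exact dvd_zero _))
  · rw [aeval_em]
    refine le_antisymm (le_em fun c => ?_) (ge_em ((h6 b _ (l.le.trans (le_max_right _ _))).2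
      ((dvd_iff (ho b hb) _).2 le_rfl)))
    simpa using (dvd_iff (ho b hb) _).1 ((h6 b _ ((Nat.succ_le_of_lt l).trans
      (le_max_right _ _))).1 c)

end Vale.Agent.P283R.Be2
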