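import Vale.Agent.P283R.Be2.RDn
import Vale.Agent.P283R.Be2.Dny
import Vale.Agent.P283R.Be2.Exa

/-!
# P283R, block BE: the row DN
-/

namespace Vale.Agent.P283R.Bc

theorem dn : DN := dn_of Be2.dny Be2.exa

end Vale.Agent.P283R.Bc
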