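import Vale.Agent.P283R.Be2.TwS
import Vale.Agent.P283R.Tp.Der
import Vale.Agent.P283R.Tp.Hrt
import Vale.Agent.P283R.To.Gs

/-!
# P283R, block BE: the character of the generator of `q (K + B)` is bounded
-/

open Set
open Vale.Agent.P285N.Brep (jac Fr)
open Vale.Agent.P287D

noncomputable section

namespace Vale.Agent.P283R.Bkb

open Tx Dr13

variable {F : Type} [Field F] [Algebra ℂ F] {d N : ℕ} {A : Subgroup (F ≃ₐ[ℂ] F)}
  {S : Subalgebra ℂ F} {p : Ideal S} {z : Fin N → F}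

/-- an eigenvector modulo `W` has the character of one of the spanning eigenvectors -/
theorem pick (W : Submodule ℂ F) (hW : ∀ σ ∈ A, ∀ a ∈ W, σ a ∈ W) {f : F} (hf : Eig A f)
    (h0 : f ∉ W) (T : Finset F) (hT : ∀ v ∈ T, Eig A v)
    (h : f ∈ W ⊔ Submodule.span ℂ (T : Set F)) :
    ∃ v ∈ T, ∀ σ ∈ A, ∃ c : ℂ, σ f = c • f ∧ σ v = c • v := by
  classical
  induction T using Finset.induction_on with
  | empty => exact (h0 (by simpa using h)).elim
  | insert v T _ ih =>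
    by_cases k : ∀ σ ∈ A, ∃ c : ℂ, σ f = c • f ∧ σ v = c • v
    · exact ⟨v, Finset.mem_insert_self _ _, k⟩
    push Not at k
    obtain ⟨σ, hσ, k⟩ := k
    obtain ⟨c, hc⟩ := hf σ hσ
    obtain ⟨e, he⟩ := hT v (Finset.mem_insert_self _ _) σ hσ
    have ne : c - e ≠ 0 := sub_ne_zero.2 fun a => k c hc (a ▸ he)
    have hT' : ∀ v ∈ T, Eig A v := fun v hv => hT v (Finset.mem_insert_of_mem hv)
    have st : ∀ u ∈ Submodule.span ℂ (T : Set F), σ u ∈ Submodule.span ℂ (T : Set F) := by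
      intro u hu
      induction hu using Submodule.span_induction with
      | mem u hu =>
        obtain ⟨a, ha⟩ := hT' u hu σ hσ
        exact ha ▸ Submodule.smul_mem _ _ (Submodule.subset_span hu)
      | zero => simp
      | add x y _ _ a b => rw [map_add]; exact add_mem a b
      | smul a x _ b => rw [map_smul]; exact Submodule.smul_mem _ _ b
    obtain ⟨w, hw, x, hx, e1⟩ := Submodule.mem_sup.1 h
    rw [Finset.coe_insert] at hx
    obtain ⟨a, u, hu, rfl⟩ := Submodule.mem_span_insert.1 hx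
    have e2 : f = (c - e)⁻¹ • ((σ w - e • w) + (σ u - e • u)) := by
      have : σ f = σ w + (a • e • v + σ u) := by rw [← e1, map_add, map_add, map_smul, he]
      rw [eq_inv_smul_iff₀ ne, sub_smul, ← hc, this, ← e1]
      module
    obtain ⟨v', hv', r⟩ := ih hT' (e2 ▸ Submodule.smul_mem _ _ (Submodule.add_mem_sup
      (W.sub_mem (hW σ hσ w hw) (W.smul_mem _ hw))
      (Submodule.sub_mem _ (st u hu) (Submodule.smul_mem _ _ hu))))
    exact ⟨v', Finset.mem_insert_of_mem hv', r⟩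

variable (S p z) in
/-- the `k`-th power of the maximal ideal of the local ring -/
def Wk (k : ℕ) : Submodule ℂ F :=
  Submodule.span ℂ {a | ∃ c ∈ Lo S p, ∃ b : Fin N → ℕ, ∑ j, b j = k ∧ a = c * ∏ j, z j ^ b j}

theorem exp1 (h : Pt d A S p z) {c : F} (hc : c ∈ Lo S p) :
    ∃ (c₀ : ℂ) (e : Fin N → F), (∀ j, e j ∈ Lo S p) ∧ c = algebraMap ℂ F c₀ + ∑ j, e j * z j := by
  obtain ⟨s, t, ht, rfl⟩ := hc
  obtain ⟨s₀, hs⟩ := h.res s
  obtain ⟨t₀, ht'⟩ := h.res t
  have t0 : t₀ ≠ 0 := fun e => ht (by simpa [e] using ht')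
  obtain ⟨e, he, k⟩ := h.gen _ (p.sub_mem hs (p.mul_mem_left (algebraMap ℂ S (s₀ / t₀)) ht'))
  refine ⟨s₀ / t₀, fun j => (t : F)⁻¹ * e j, fun j =>
    (loc h.pri).mul_mem (inv_mem h.pri ht) (he j), ?_⟩
  have := ne_of h.pri ht
  have t1 : algebraMap ℂ F t₀ ≠ 0 := (map_ne_zero _).2 t0
  simp only [mul_assoc, ← Finset.mul_sum, ← k, AddSubgroupClass.coe_sub, MulMemClass.coe_mul,
    Subalgebra.coe_algebraMap]
  rw [map_div₀]
  field_simp
  ring

/-- Taylor expansion -/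
theorem expk (h : Pt d A S p z) {a : F} (ha : a ∈ Lo S p) (k : ℕ) :
    a ∈ Wk S p z k ⊔
      Submodule.span ℂ {v | ∃ b : Fin N → ℕ, ∑ j, b j < k ∧ v = ∏ j, z j ^ b j} := by
  classical
  induction k with
  | zero => exact Submodule.mem_sup_left (Submodule.subset_span ⟨a, ha, 0, by simp, by simp⟩)
  | succ k ih =>
    refine (sup_le (Submodule.span_le.2 ?_) ((Submodule.span_mono ?_).trans le_sup_right) :
      _ ≤ Wk S p z (k + 1) ⊔ Submodule.span ℂ
        {v | ∃ b : Fin N → ℕ, ∑ j, b j < k + 1 ∧ v = ∏ j, z j ^ b j}) ih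
    · rintro _ ⟨c, hc, b, hb, rfl⟩
      obtain ⟨c₀, e, he, rfl⟩ := exp1 h hc
      rw [add_mul, ← Algebra.smul_def, Finset.sum_mul]
      refine add_mem (Submodule.mem_sup_right (Submodule.smul_mem _ _
        (Submodule.subset_span ⟨b, by omega, rfl⟩))) (Submodule.mem_sup_left
        (Submodule.sum_mem _ fun j _ => Submodule.subset_span
          ⟨e j, he j, b + Pi.single j 1, by simp [Finset.sum_add_distrib, hb], ?_⟩))
      simp only [Pi.add_apply, pow_add, Finset.prod_mul_distrib, Pi.single_apply, pow_ite, pow_one,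
        pow_zero, Finset.prod_ite_eq', Finset.mem_univ, if_true]
      ring
    · rintro _ ⟨b, hb, rfl⟩
      exact ⟨b, by omega, rfl⟩

theorem lo_st (h : Pt d A S p z) (st : Stab A S) {σ : F ≃ₐ[ℂ] F} (hσ : σ ∈ A) {c : F}
    (hc : c ∈ Lo S p) : σ c ∈ Lo S p := by
  obtain ⟨s, t, ht, rfl⟩ := hc
  obtain ⟨b, hb, e⟩ := h.inr σ hσ t
  refine ⟨⟨_, st σ hσ s s.2⟩, ⟨_, st σ hσ t t.2⟩, fun k => ht ?_, map_div₀ _ _ _⟩
  have := p.sub_mem k hb
  rwa [show (⟨_, st σ hσ t t.2⟩ : S) - b = t from Subtype.ext (by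
    push_cast
    rw [← e]
    ring)] at this

theorem eig_mon (h : ∀ j, Eig A (z j)) (b : Fin N → ℕ) : Eig A (∏ j, z j ^ b j) := fun σ hσ => by
  choose c hc using fun j => h j σ hσ
  refine ⟨∏ j, c j ^ b j, ?_⟩
  simp only [map_prod, map_pow, hc, Algebra.smul_def, mul_pow, Finset.prod_mul_distrib]

theorem wk_st (h : Pt d A S p z) (st : Stab A S) (k : ℕ) :
    ∀ σ ∈ A, ∀ a ∈ Wk S p z k, σ a ∈ Wk S p z k := fun σ hσ a ha => by
  induction ha using Submodule.span_induction with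
  | mem u hu =>
    obtain ⟨c, hc, b, hb, rfl⟩ := hu
    obtain ⟨e, he⟩ := eig_mon h.eig b σ hσ
    rw [map_mul, he, mul_smul_comm]
    exact Submodule.smul_mem _ _ (Submodule.subset_span ⟨_, lo_st h st hσ hc, b, hb, rfl⟩)
  | zero => simp
  | add x y _ _ a b => rw [map_add]; exact add_mem a b
  | smul a x _ b => rw [map_smul]; exact Submodule.smul_mem _ _ b

/-- **classes**: a semi-invariant function has the character of a monomial of small degree -/
theorem cls (h : Pt d A S p z) (st : Stab A S) {f : F} (hf : f ∈ Lo S p) (ef : Eig A f) {k : ℕ}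
    (h0 : f ∉ Wk S p z k) : ∃ b : Fin N → ℕ, ∑ j, b j < k ∧ Fix A (f / ∏ j, z j ^ b j) := by
  obtain ⟨w, hw, x, hx, e⟩ := Submodule.mem_sup.1 (expk h hf k)
  obtain ⟨T, hT, hx'⟩ := Submodule.mem_span_finite_of_mem_span hx
  obtain ⟨v, hv, r⟩ := pick _ (wk_st h st k) ef h0 T (fun v hv => by
    obtain ⟨b, -, rfl⟩ := hT hv
    exact eig_mon h.eig b) (e ▸ Submodule.add_mem_sup hw hx')
  obtain ⟨b, hb, rfl⟩ := hT hv
  refine ⟨b, hb, fun σ hσ => ?_⟩
  obtain ⟨c, h1, h2⟩ := r σ hσ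
  have v0 : ∏ j, z j ^ b j ≠ 0 := Finset.prod_ne_zero_iff.2 fun j _ => pow_ne_zero _ (h.ne j)
  have c0 : c ≠ 0 := fun a => v0 (σ.injective (by rw [h2, a, zero_smul, map_zero]))
  rw [map_div₀, h1, h2, Algebra.smul_def, Algebra.smul_def,
    mul_div_mul_left _ _ ((map_ne_zero _).2 c0)]

theorem mul_sub {R : Pl F} {c x : F} {r : ℝ} (hc : c ∈ R.ring) (hx : x ∈ R.sub r) :
    c * x ∈ R.sub r := by
  by_cases c0 : c = 0
  · simp [c0]
  rcases eq_or_ne x 0 with x0 | x0
  · simp [x0]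
  refine .inr ?_
  have := hx.resolve_left x0
  have h1 : (0 : ℝ) ≤ R.ord c := by exact_mod_cast P297Z.Pl.ord_nonneg_of_mem R.toPlace hc
  rw [P297Z.Pl.ord_mul _ c0 x0]
  push_cast
  linarith

theorem wk_sub (hz : ∀ j, z j ≠ 0) {R : Pl F} (c : Cen S p R) {μ : ℝ}
    (hμ : ∀ j, μ ≤ R.ord (z j)) (k : ℕ) : Wk S p z k ≤ R.sub (-(k * μ)) := by
  refine Submodule.span_le.2 ?_
  rintro _ ⟨a, ha, b, rfl, rfl⟩
  refine mul_sub (Hr.cen_lo c ha) (.inr ?_)
  have k := To.ord_mon R hz fun j => (b j : ℤ)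
  simp only [To.mon, zpow_natCast] at k
  rw [k]
  push_cast
  rw [Finset.sum_mul, ← sub_eq_add_neg, sub_nonneg]
  exact Finset.sum_le_sum fun j _ => mul_le_mul_of_nonneg_left (hμ j) (Nat.cast_nonneg _)

theorem par (h : Pt d A S p z) {a : F} (ha : a ∈ Lo S p) : ∃ c : Fin N → F,
    (∀ j, c j ∈ Lo S p) ∧ ∀ δ : Derivation ℂ F F, δ a = ∑ j, c j * δ (z j) := by
  have hp := h.pri
  obtain ⟨T, hT⟩ := h.aff.fg
  have hS : S ≤ loc hp := fun s hs => coe_mem hp ⟨s, hs⟩
  choose s hs es using h.mem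
  let M : Submodule (loc hp) (Derivation ℂ F F → F) := Submodule.span _ (gr '' (T : Set F))
  let N : Submodule (loc hp) (Derivation ℂ F F → F) := Submodule.span _ (range fun j => gr (z j))
  let I : Ideal (loc hp) := Ideal.span (range fun j => (⟨s j, coe_mem hp _⟩ : loc hp))
  have hM : ∀ s : S, gr (s : F) ∈ M := fun s =>
    gr_adj (M := M) (T := T) (fun a ha => hS (hT.le (Algebra.subset_adjoin ha)))
      (fun a ha => Submodule.subset_span (mem_image_of_mem gr ha)) (hT.ge s.2)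
  have nx : ∀ j, gr (z j) ∈ N := fun j => Submodule.subset_span ⟨j, rfl⟩
  have le : M ≤ N ⊔ I • M := by
    refine Submodule.span_le.2 ?_
    rintro _ ⟨a, ha, rfl⟩
    obtain ⟨c₀, c, hc, e⟩ := exp1 h (coe_mem hp ⟨a, hT.le (Algebra.subset_adjoin ha)⟩)
    change a = _ at e
    rw [e, gr_add, gr_c, zero_add, gr_sum]
    refine Submodule.sum_mem _ fun j _ => ?_
    rw [gr_mul]
    refine Submodule.add_mem_sup (sm (hc j) (nx j)) ?_
    rw [← es j]
    exact Submodule.smul_mem_smul (I := I) (r := ⟨s j, coe_mem hp _⟩)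
      (Ideal.subset_span ⟨j, rfl⟩) (gr_lo hp hM (hc j))
  obtain ⟨u, hu, hN⟩ := Submodule.exists_sub_one_mem_and_smul_le_of_fg_of_le_sup
    (Submodule.fg_span ((Finset.finite_toSet T).image _)) le_rfl le
  have hI : ∀ v ∈ I, ∃ b ∈ p, ∃ w : S, w ∉ p ∧ (v : F) = b / w := fun v hv => by
    induction hv using Submodule.span_induction with
    | mem v hv =>
      obtain ⟨j, rfl⟩ := hv
      exact ⟨s j, hs j, 1, one_not hp, by simp⟩
    | zero => exact ⟨0, p.zero_mem, 1, one_not hp, by simp⟩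
    | add v v' _ _ h1 h2 =>
      obtain ⟨b, hb, w, hw, e⟩ := h1
      obtain ⟨b', hb', w', hw', e'⟩ := h2
      refine ⟨b * w' + w * b', p.add_mem (p.mul_mem_right _ hb) (p.mul_mem_left _ hb'), w * w',
        mul_not hp hw hw', ?_⟩
      push_cast
      rw [e, e', div_add_div _ _ (ne_of hp hw) (ne_of hp hw')]
    | smul c v _ h1 =>
      obtain ⟨b, hb, w, hw, e⟩ := h1
      obtain ⟨_, b', w', hw', rfl⟩ := c
      refine ⟨b' * b, p.mul_mem_left _ hb, w' * w, mul_not hp hw' hw, ?_⟩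
      rw [smul_eq_mul]
      push_cast
      rw [e, div_mul_div_comm]
  obtain ⟨b, hb, w, hw, e⟩ := hI _ hu
  have hbw : b + w ∉ p := fun k => hw (by simpa using p.sub_mem k hb)
  have eu : (w : F) / (b + w : S) * u = 1 := by
    have : (u : F) = b / w + 1 := by rw [← e]; simp
    have h1 := ne_of hp hw
    have h2 := ne_of hp hbw
    rw [this]
    push_cast at h2 ⊢
    field_simp
  have h5 : gr a ∈ N := by
    have h6 : (u : F) • gr a ∈ N := hN (Submodule.smul_mem_pointwise_smul _ u _ (gr_lo hp hM ha))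
    have h7 := sm (⟨w, b + w, hbw, rfl⟩ : _ ∈ loc hp) h6
    rwa [smul_smul, eu, one_smul] at h7
  obtain ⟨c, hc⟩ := (Submodule.mem_span_range_iff_exists_fun _).1 h5
  refine ⟨fun j => c j, fun j => (c j).2, fun δ => ?_⟩
  have := congrFun hc δ
  rw [Finset.sum_apply] at this
  exact this.symm

/-- **the differentials of the `z j` generate** -/
theorem omega (h : Pt d A S p z) (D : Fin d → Derivation ℂ F F) {t : Fin d → F}
    (ht : ∀ l, t l ∈ Lo S p) : ∃ c : (Fin d → Fin N) → F, (∀ J, c J ∈ Lo S p) ∧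
      jac D t = ∑ J, c J * jac D fun l => z (J l) := by
  choose c hc e using fun l => par h (ht l)
  refine ⟨fun J => ∏ l, c l (J l), fun J => (loc h.pri).prod_mem fun l _ => hc l _, ?_⟩
  simp only [jac, Matrix.det_apply', Matrix.of_apply, e, Finset.prod_univ_sum, Finset.mul_sum,
    Fintype.piFinset_univ, Finset.prod_mul_distrib]
  rw [Finset.sum_comm]
  exact Finset.sum_congr rfl fun _ _ => Finset.sum_congr rfl fun _ _ => by ring

theorem exists_J (h : Pt d A S p z) (D : Fin d → Derivation ℂ F F) {t : Fin d → F}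
    (ht : ∀ l, t l ∈ Lo S p) (h0 : jac D t ≠ 0) {R : Pl F} (c : Cen S p R) :
    ∃ J : Fin d → Fin N, (jac D fun l => z (J l)) ≠ 0 ∧
      R.ord (jac D fun l => z (J l)) ≤ R.ord (jac D t) := by
  by_contra k
  push Not at k
  obtain ⟨e, he, s⟩ := omega h D ht
  have : jac D t ∈ R.sub (-(R.ord (jac D t) + 1 : ℤ)) := by
    nth_rewrite 2 [s]
    refine Submodule.sum_mem _ fun J _ => mul_sub (Hr.cen_lo c (he J)) ?_
    refine or_iff_not_imp_left.2 fun a => ?_
    have := k J a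
    rw [← sub_eq_add_neg, sub_nonneg]
    exact_mod_cast this
  have := this.resolve_left h0
  push_cast at this
  linarith

theorem jac_row {D : Fin d → Derivation ℂ F F} (w : Fin d → F) (a : Fin d → ℂ) :
    jac D (fun l => a l • w l) = (∏ l, a l) • jac D w := by
  rw [jac, jac, Algebra.smul_def, map_prod, ← Matrix.det_mul_row]
  exact congrArg _ (Matrix.ext fun i j => by
    rw [Matrix.of_apply, Matrix.of_apply, Matrix.of_apply, Derivation.map_smul, Algebra.smul_def])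

theorem fix_jac {y : Fin d → F} {D : Fin d → Derivation ℂ F F} (fr : Fr y D)
    (fy : ∀ i, Fix A (y i)) {w : Fin d → F} {σ : F ≃ₐ[ℂ] F} (hσ : σ ∈ A) {a : Fin d → ℂ}
    (hw : ∀ l, σ (w l) = a l • w l) : σ (jac D w) = (∏ l, a l) • jac D w := by
  have e := P285N.Brep.chain ℂ F d y D fr σ w
  rw [show (fun j => σ (y j)) = y from funext fun j => fy j σ hσ, Cb.jac_self fr, mul_one] at e
  rw [← e, ← jac_row]
  simp only [hw]

/-- the functions `jac D w ^ q * h` are regular -/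
theorem reg (pt : Pt d A S p z) {y : Fin d → F} {D : Fin d → Derivation ℂ F F} (fr : Fr y D)
    {q : ℕ} (hq : 0 < q) {h : F} (h0 : h ≠ 0) (bd : ∀ R, PDat S p R → ld y q h R ≤ 1)
    {w : Fin d → F} (hw : ∀ l, w l ∈ Lo S p) (j0 : jac D w ≠ 0) : jac D w ^ q * h ∈ Lo S p := by
  refine Hr.lo_of pt.aff pt.nor pt.pri fun R hR => ?_
  have b := bd R hR
  obtain ⟨q₀, le, c, -⟩ := hR
  have k := Cb.kap_nonneg (P := R) pt.aff.ff fun l => Hr.cen_lo c (lo_le le (hw l))
  rw [Cb.kap_chg fr j0, Pi.add_apply, dv_apply] at k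
  rw [← P297Z.Pl.ord_nonneg_iff _ (mul_ne_zero (pow_ne_zero _ j0) h0),
    P297Z.Pl.ord_mul _ (pow_ne_zero _ j0) h0, P297Z.Pl.ord_pow]
  have q0 : (0 : ℝ) < q := by exact_mod_cast hq
  rw [ld, add_sub_assoc, add_le_iff_nonpos_right, sub_nonpos, le_div_iff₀ q0] at b
  have : (0 : ℝ) ≤ q * R.ord (jac D w) + R.ord h := by nlinarith
  exact_mod_cast this

/-- **KB** -/
theorem kb (pt : Pt d A S p z) (st : Stab A S) {y : Fin d → F} {D : Fin d → Derivation ℂ F F}
    (fr : Fr y D) (fy : ∀ i, Fix A (y i)) {q : ℕ} (hq : 0 < q) {h : F} (h0 : h ≠ 0) (eh : Eig A h)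
    (bd : ∀ R, PDat S p R → ld y q h R ≤ 1) {t : Fin d → F} (ht : ∀ l, t l ∈ Lo S p)
    (j0 : jac D t ≠ 0) {R : Pl F} (c : Cen S p R) {μ : ℝ} (μ0 : 0 < μ)
    (hμ : ∀ j, μ ≤ R.ord (z j)) {k : ℕ} (hk : (R.ord (jac D t ^ q * h) : ℝ) ≤ k * μ) :
    ∃ κ : Fin N → ℤ, (∀ j, |κ j| ≤ (d * q + k : ℕ)) ∧ Fix A (h * ∏ j, z j ^ κ j) := by
  classical
  obtain ⟨J, j1, le⟩ := exists_J pt D ht j0 c
  have zl : ∀ j, z j ∈ Lo S p := fun j => by
    obtain ⟨s, -, e⟩ := pt.mem j
    exact e ▸ coe_mem pt.pri s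
  have f0 := mul_ne_zero (pow_ne_zero q j1) h0
  obtain ⟨b, hb, fx⟩ := cls pt st (reg pt fr hq h0 bd (fun l => zl (J l)) j1) (fun σ hσ => by
    choose a ha using fun j => pt.eig j σ hσ
    obtain ⟨e, he⟩ := eh σ hσ
    exact ⟨(∏ l, a (J l)) ^ q * e, by
      rw [map_mul, map_pow, fix_jac fr fy hσ fun l => ha (J l), he, smul_pow,
        smul_mul_smul_comm]⟩) (k := k + 1) fun m => by
    have := (wk_sub pt.ne c hμ _ m).resolve_left f0
    rw [P297Z.Pl.ord_mul _ (pow_ne_zero _ j1) h0, P297Z.Pl.ord_pow] at this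
    rw [P297Z.Pl.ord_mul _ (pow_ne_zero _ j0) h0, P297Z.Pl.ord_pow] at hk
    have le' := mul_le_mul_of_nonneg_left (Int.cast_le (R := ℝ).2 le) (Nat.cast_nonneg q)
    push_cast at this hk
    linarith
  refine ⟨fun j => (∑ l, if J l = j then q else 0 : ℕ) - b j, fun j => ?_, fun σ hσ => ?_⟩
  · have h1 : (∑ l, if J l = j then q else 0) ≤ d * q :=
      (Finset.sum_le_card_nsmul _ _ q fun l _ => by split_ifs <;> omega).trans (by simp)
    have h2 : b j ≤ ∑ j, b j := Finset.single_le_sum (fun _ _ => Nat.zero_le _) (Finset.mem_univ j)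
    beta_reduce
    rw [abs_le]
    constructor <;> omega
  · have e : ∏ j, z j ^ (((∑ l, if J l = j then q else 0 : ℕ) : ℤ) - b j) =
        (∏ l, z (J l)) ^ q / ∏ j, z j ^ b j := by
      simp only [zpow_sub₀ (pt.ne _), zpow_natCast, Finset.prod_div_distrib,
        ← Finset.prod_pow_eq_pow_sum, pow_ite, pow_zero]
      rw [Finset.prod_comm, ← Finset.prod_pow]
      simp
    choose a ha using fun j => pt.eig j σ hσ
    have e1 := fx σ hσ
    have e2 : σ (∏ l, z (J l)) = (∏ l, a (J l)) • ∏ l, z (J l) := by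
      simp only [map_prod, ha, Algebra.smul_def, Finset.prod_mul_distrib]
    rw [mul_div_assoc, map_mul, map_pow, fix_jac fr fy hσ fun l => ha (J l), smul_pow,
      smul_mul_assoc, ← mul_smul_comm] at e1
    rw [e, ← mul_div_assoc, mul_comm h, mul_div_assoc, map_mul, map_pow, e2, smul_pow,
      smul_mul_assoc, ← mul_smul_comm, mul_left_cancel₀ (pow_ne_zero q j1) e1]

end Vale.Agent.P283R.Bkb
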