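import Vale.Agent.P283R.Be2.Cc
import Vale.Agent.P283R.Be2.Kb
import Vale.Agent.P287D.Cb.Kap

/-!
# P283R, block BE: the row KAB
-/

open Vale.Agent.P285N.Brep (jac Fr)
open Vale.Agent.P287D Vale.Agent.P297Z

namespace Vale.Agent.P283R.Bc

theorem kab : KAB := fun d N q k₀ hq => ⟨d * q + q * k₀, by
  intro F _ _ A S p z y h t w Φ H lc K
  obtain ⟨D, hD⟩ := H.fr
  obtain ⟨R, hR, hk⟩ := K.pl
  have j0 : jac D t ≠ 0 := (Cb.jac_ne_iff hD t).2 K.ind
  have st : Stab A S := fun σ hσ a ha => by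
    obtain ⟨b, _, e⟩ := H.pt.inr σ hσ ⟨a, ha⟩
    rw [eq_add_of_sub_eq e]
    exact add_mem b.2 ha
  have hz : ∀ j, ∃ l, R.ord (t l) ≤ R.ord (z j) := fun j => by
    obtain ⟨s, hs, e⟩ := H.pt.mem j
    exact e ▸ K.red R hR s hs (e ▸ H.pt.ne j)
  have ht : ∀ l, t l ∈ Lo S p ∧ 0 < R.ord (t l) := fun l => by
    obtain ⟨s, hs, e⟩ := K.prj.mem l
    exact ⟨e ▸ Dr13.coe_mem H.pt.pri s,
      e ▸ ((Hr.cen_iff hR s).1 hs).resolve_left (e ▸ K.ind.ne_zero l)⟩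
  have d0 : Nonempty (Fin d) := by
    have a := R.dvl
    rw [Bm.trdeg_eq H.pt.aff.ff] at a
    refine Fin.pos_iff_nonempty.1 (Nat.pos_of_ne_zero fun e => ?_)
    rw [e] at a
    simp at a
  obtain ⟨l, -, hl⟩ := Finset.exists_min_image Finset.univ (fun l => R.ord (t l))
    Finset.univ_nonempty
  refine Bkb.kb H.pt st hD H.fy hq H.h0 H.eh H.bd (fun l => (ht l).1) j0 hR
    (μ := R.ord (t l)) (by exact_mod_cast (ht l).2) (fun j => ?_) (k := q * k₀) ?_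
  · obtain ⟨l', a⟩ := hz j
    exact_mod_cast (hl l' (Finset.mem_univ _)).trans a
  · have a := lc R hR
    have b := (hk l).2
    have q0 : (0 : ℝ) < q := by exact_mod_cast hq
    rw [Cb.kap_chg hD j0, Pi.add_apply, dv] at b
    rw [ld, sub_nonneg, div_le_iff₀ q0] at a
    rw [Pl.ord_mul _ (pow_ne_zero _ j0) H.h0, Pl.ord_pow]
    push_cast
    nlinarith [mul_le_mul_of_nonneg_left b q0.le]⟩

end Vale.Agent.P283R.Bc
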