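import Vale.Agent.P283R.Be2.Lo

/-!
# P283R, block BE: the row `LCI` of the second route
-/

open Set
open Vale.Agent.P297Z

noncomputable section

namespace Vale.Agent.P283R.Bc

open Vale.Agent.P287D Vale.Agent.P287D.Cb Be2

theorem lci : LCI := by
  classical
  intro d N q k₀ m k K κv X C c₀ hd _ hm hc ⟨c₁, hc₁⟩ pk kl ha hb v hv
  obtain ⟨n, rfl⟩ := Nat.exists_eq_succ_of_ne_zero hd.ne'
  have pt := pk.lev.pt
  obtain ⟨E, μ, hE, μ0, mu, g1, f1, b1, att⟩ := hb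
  have m0 : (0 : ℝ) < m := by exact_mod_cast hm
  have h1 : (1 : X.S) ∉ X.p := (Ideal.ne_top_iff_one _).1 pt.pri.ne_top
  have t0 : ∀ l, X.t l ≠ 0 := fun l e => by
    have := μ0.trans_le (mu l)
    simp [e] at this
  set τ := Finset.univ.image X.t
  set U := C.image fun c => ∏ j, X.z j ^ c j
  have tm : ∀ l, X.t l ∈ τ := fun l => Finset.mem_image_of_mem _ (Finset.mem_univ l)
  have t1 : Nz τ := ⟨X.t 0, tm 0, t0 0⟩
  have t2 : ∀ x ∈ τ, ∃ s ∈ X.p, (s : X.F) = x := fun x hx => by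
    obtain ⟨j, -, rfl⟩ := Finset.mem_image.1 hx
    exact pk.lev.prj.mem j
  have z0 : ∀ c : Fin N → ℕ, ∏ j, X.z j ^ c j ≠ 0 := fun c =>
    Finset.prod_ne_zero_iff.2 fun j _ => pow_ne_zero _ (pt.ne j)
  have u1 : Nz U := ⟨_, Finset.mem_image_of_mem _ hc₁, z0 c₁⟩
  have u2 : ∀ P, ∀ c ∈ C, -mx U P ≤ om X.z P c := fun P c hc =>
    (Lc.mx_le (Finset.mem_image_of_mem _ hc) (z0 c) P).trans_eq (ord_mon pt.ne P c)
  have u3 : ∀ P : Pl X.F, ∃ c ∈ C, -mx U P = om X.z P c := fun P => by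
    obtain ⟨x, hx, -, e⟩ := Lc.exists_mx u1 P
    obtain ⟨i, hi, rfl⟩ := Finset.mem_image.1 hx
    exact ⟨i, hi, e.trans (ord_mon pt.ne P i)⟩
  have uS : ∀ u ∈ U, u ∈ X.S := fun u hu => by
    obtain ⟨c, -, rfl⟩ := Finset.mem_image.1 hu
    refine prod_mem fun j _ => pow_mem ?_ _
    obtain ⟨s, -, e⟩ := pt.mem j
    exact e ▸ s.2
  have mE : μ ≤ -mx τ E := by
    obtain ⟨x, hx, -, e⟩ := Lc.exists_mx t1 E
    obtain ⟨j, -, rfl⟩ := Finset.mem_image.1 hx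
    exact e ▸ mu j
  have kE : (k : ℝ) * μ ≤ k * -mx τ E := mul_le_mul_of_nonneg_left mE (Nat.cast_nonneg k)
  have KE : (K : ℝ) * μ ≤ K * -mx τ E := mul_le_mul_of_nonneg_left mE (Nat.cast_nonneg K)
  have uE : -mx U E < K * μ := by
    have := ha E hE μ (min (-mx U E) (K * μ)) μ0 mu g1.le f1.le (min_le_right _ _)
      fun c hc' => (min_le_left _ _).trans (u2 E c hc')
    have := mul_pos hc μ0
    exact (min_lt_iff.1 (by linarith : min (-mx U E) (K * μ) < K * μ)).resolve_right (lt_irrefl _)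
  have ap : ∀ P, ((m : ℝ)⁻¹ • (-mx U + c₀ • -mx τ)) P = (-mx U P + c₀ * -mx τ P) / m := fun P => by
    rw [div_eq_inv_mul]; rfl
  have a1 : ∀ (r : ℝ) (β : BD X.F) P, (r • -mx τ - β) P = r * -mx τ P - β P := fun _ _ _ => rfl
  have cτ : ∀ r : ℝ, ∀ β ∈ Car X.F, r • -mx τ - β ∈ Car X.F := fun r β hβ =>
    sub_mem (Submodule.smul_mem _ _ (neg_mem (mx_mem_Car _))) hβ
  have key := lc_kl pt.aff pt.nor pt.res ⟨_, pk.lev.fr⟩ kl pk.lev.bd
    (M := (m : ℝ)⁻¹ • (-mx U + c₀ • -mx τ))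
    (by
      have := ((nef_mx U).add ((nef_mx τ).smul hc.le)).smul (inv_pos.2 m0).le
      rwa [← smul_neg, neg_add, neg_neg, smul_neg, neg_neg])
    (fun R r => by
      rw [ap]
      exact div_nonneg (add_nonneg (Lc.mx_nn u1 fun u hu =>
          Lc.pd_lo r ⟨⟨u, uS u hu⟩, 1, h1, by simp⟩)
        (mul_nonneg hc.le (Lc.mx_nn t1 fun u hu => Lc.pd_lo r <| by
          obtain ⟨s, -, rfl⟩ := t2 u hu
          exact ⟨s, 1, h1, by simp⟩))) m0.le)
    (T := {(k : ℝ) • -mx τ - dv X.dd, (k : ℝ) • -mx τ - dv (X.del q), (K : ℝ) • -mx τ - -mx U})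
    (toFinite _)
    (insert_subset (cτ _ _ (dv_mem_Car _)) (insert_subset (cτ _ _ (dv_mem_Car _))
      (singleton_subset_iff.2 (cτ _ _ (neg_mem (mx_mem_Car _))))))
    hE (by
      rintro β (rfl | rfl | rfl) <;> rw [a1]
      · rw [dv_apply]; linarith
      · rw [dv_apply]; linarith
      · rw [Pi.neg_apply]; linarith)
    (by
      obtain ⟨c, hc', e⟩ := u3 E
      have := att c hc'
      have := mul_le_mul_of_nonneg_left mE hc.le
      rw [ap, e, le_div_iff₀ m0, om]; linarith)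
    (fun R r a => by
      have k1 := a _ (.inl rfl)
      have k2 := a _ (.inr (.inl rfl))
      have k3 := a _ (.inr (.inr rfl))
      rw [a1] at k1 k2 k3
      rw [dv_apply] at k1 k2
      rw [Pi.neg_apply] at k3
      rw [ap, div_le_iff₀ m0, mul_comm _ (m : ℝ)]
      exact ha R r _ _ (Lc.mx_pos t1 t2 r) (fun l => Lc.mx_le (tm l) (t0 l) R) (by linarith)
        (by linarith) (by linarith) (u2 R)) hv
  obtain ⟨c, hc', e⟩ := u3 v
  have := mul_pos hc (Lc.mx_pos t1 t2 hv)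
  rw [ap, e, div_le_iff₀ m0, om] at key
  exact ⟨c, hc', by linarith⟩

end Vale.Agent.P283R.Bc
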