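import Vale.Agent.P283R.Be2.Cc
import Vale.Agent.P283R.Tp.Hrt
import Vale.Agent.P287D.Cb.Kap
import Vale.Agent.P287D.Cb.Row
import Mathlib.RingTheory.Smooth.IntegralClosure

/-!
# P283R, block BE: the numerators and the log discrepancy in the frame of the projection
-/

open Polynomial
open Vale.Agent.P285N.Brep (jac Fr)
open Vale.Agent.P287D

noncomputable section

namespace Vale.Agent.P283R.Bc

open Tx

namespace Nm

variable {F : Type} [Field F] [Algebra ℂ F] {d N : ℕ} {S : Subalgebra ℂ F} {p : Ideal S}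
  {t : Fin d → F} {w : F} {Φ : Polynomial (MvPolynomial (Fin d) ℂ)}

theorem deg_ne (h : Prj S p t w Φ) : Φ.natDegree ≠ 0 := fun e => by
  have h1 : Φ = 1 := h.mon.natDegree_eq_zero.1 e
  have h2 := (h.ker 1).2 (h1 ▸ dvd_rfl)
  rw [map_one] at h2
  exact one_ne_zero h2

theorem eq_zero (h : Prj S p t w Φ) {G : Polynomial (MvPolynomial (Fin d) ℂ)}
    (hG : G.natDegree < Φ.natDegree) (e : ev2 t w G = 0) : G = 0 :=
  eq_zero_of_dvd_of_natDegree_lt ((h.ker G).1 e) hG

theorem dd_ne (h : Prj S p t w Φ) : ev2 t w Φ.derivative ≠ 0 := fun e =>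
  deg_ne h (derivative_eq_zero.1 (eq_zero h (natDegree_derivative_lt (deg_ne h)) e))

theorem ev2_C {R : Type} [CommRing R] [Algebra ℂ R] (t : Fin d → R) (w : R)
    (g : MvPolynomial (Fin d) ℂ) : ev2 t w (C g) = MvPolynomial.aeval t g := by
  simp [ev2]

theorem ev2_X {R : Type} [CommRing R] [Algebra ℂ R] (t : Fin d → R) (w : R) : ev2 t w X = w := by
  simp [ev2]

theorem ind (h : Prj S p t w Φ) : AlgebraicIndependent ℂ t := by
  refine (injective_iff_map_eq_zero _).2 fun g e => C_eq_zero.1 (eq_zero h ?_ ?_)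
  · rw [natDegree_C]; exact Nat.pos_of_ne_zero (deg_ne h)
  · rw [ev2_C]; exact e

/-- the lemma of Euler -/
theorem eul (h : Prj S p t w Φ) {a : F} (ha : a ∈ S) :
    ∃ G, ev2 t w Φ.derivative * a = ev2 t w G := by
  let B := MvPolynomial (Fin d) ℂ
  let K := FractionRing B
  let _ : Algebra B F := (MvPolynomial.aeval t : B →ₐ[ℂ] F).toRingHom.toAlgebra
  have inj : Function.Injective (algebraMap B F) := ind h
  let _ : Algebra K F := (IsFractionRing.lift inj : K →+* F).toAlgebra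
  have : IsScalarTower B K F :=
    .of_algebraMap_eq fun x => (IsFractionRing.lift_algebraMap inj x).symm
  have ev : ∀ (x : F) (G : B[X]), ev2 t x G = aeval x G := fun _ _ => rfl
  have em : ∀ G : B[X], aeval w (G.map (algebraMap B K)) = ev2 t w G := fun G => by
    rw [aeval_map_algebraMap, ev]
  have wi : IsIntegral K w := ⟨Φ.map (algebraMap B K), h.mon.map _, by
    rw [← aeval_def, em]; exact (h.ker Φ).2 dvd_rfl⟩
  obtain ⟨g, e, hg⟩ := exists_derivative_mul_eq_and_isIntegral_coeff (R := B) (S := K)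
    (φ := (aeval w : K[X] →ₐ[K] F).restrictScalars B) (f := Φ.map (algebraMap B K)) (y := a)
    (fun x => by
      obtain ⟨G, H, rfl⟩ := h.top x
      have m : ∀ G, ev2 t w G ∈ Algebra.adjoin K {w} := fun G => by
        rw [← em, Algebra.adjoin_singleton_eq_range_aeval]; exact ⟨_, rfl⟩
      have i : (ev2 t w H)⁻¹ ∈ Algebra.adjoin K {w} :=
        Subalgebra.inv_mem_of_algebraic _ (x := ⟨_, m H⟩)
          (adjoin_le_integralClosure wi (m H) : IsIntegral K _).isAlgebraic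
      have := mul_mem (m G) i
      rwa [Algebra.adjoin_singleton_eq_range_aeval, ← div_eq_mul_inv] at this)
    (h.mon.map _) (fun i => by rw [coeff_map]; exact isIntegral_algebraMap)
    (by
      ext g
      rw [RingHom.mem_ker, Ideal.mem_span_singleton]
      refine ⟨fun e => ?_, ?_⟩
      · obtain ⟨b, hb, k⟩ := IsLocalization.integerNormalization_spec (nonZeroDivisors B) g
        have h1 := Polynomial.map_dvd (algebraMap B K) ((h.ker _).1
          ((ev _ _).trans
            (IsLocalization.integerNormalization_aeval_eq_zero (nonZeroDivisors B) g e)))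
        rw [k, ← IsScalarTower.algebraMap_smul K, smul_eq_C_mul] at h1
        exact (isUnit_C.2
          (IsLocalization.map_units K (⟨b, hb⟩ : nonZeroDivisors B))).dvd_mul_left.1 h1
      · rintro ⟨c, rfl⟩
        change aeval w _ = 0
        rw [map_mul, em, (h.ker Φ).2 dvd_rfl, zero_mul])
    (by
      obtain ⟨G, m, e⟩ := h.int a ha
      exact ⟨G, m, e⟩)
  obtain ⟨G, rfl⟩ : g ∈ lifts (algebraMap B K) :=
    (lifts_iff_coeff_lifts _).2 fun i => IsIntegrallyClosed.algebraMap_eq_of_integral (hg i)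
  refine ⟨G, ?_⟩
  rw [← em, ← em, ← derivative_map]
  exact e

theorem aeval_symm {R : Type} [CommRing R] [Algebra ℂ R] (t : Fin d → R) (w : R)
    (G : Polynomial (MvPolynomial (Fin d) ℂ)) :
    MvPolynomial.aeval (Fin.cons w t : Fin (d + 1) → R) ((MvPolynomial.finSuccEquiv ℂ d).symm G) =
      ev2 t w G := by
  obtain ⟨H, rfl⟩ := (MvPolynomial.finSuccEquiv ℂ d).surjective G
  rw [AlgEquiv.symm_apply_apply]
  induction H using MvPolynomial.induction_on with
  | C c =>
    rw [MvPolynomial.aeval_C, MvPolynomial.finSuccEquiv_apply, MvPolynomial.eval₂Hom_C,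
      RingHom.comp_apply, ev2_C, MvPolynomial.aeval_C]
  | add a b ha hb => rw [map_add, map_add, map_add, ha, hb]
  | mul_X a i ha =>
    rw [map_mul, map_mul, map_mul, ha, MvPolynomial.aeval_X]
    congr 1
    refine Fin.cases ?_ (fun l => ?_) i
    · rw [MvPolynomial.finSuccEquiv_X_zero, ev2_X, Fin.cons_zero]
    · rw [MvPolynomial.finSuccEquiv_X_succ, ev2_C, MvPolynomial.aeval_X, Fin.cons_succ]

variable {q : ℕ} {κv : Fin N → ℤ} {A : Subgroup (F ≃ₐ[ℂ] F)} {z : Fin N → F} {y : Fin d → F}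
  {D : Fin d → Derivation ℂ F F} {h : F}

theorem jac_ne (L : Lev q κv A S p z y D h t w Φ) : jac D t ≠ 0 :=
  (Cb.jac_ne_iff L.fr t).2 (ind L.prj)

theorem del_ne (L : Lev q κv A S p z y D h t w Φ) : jac D t ^ q * h ≠ 0 :=
  mul_ne_zero (pow_ne_zero _ (jac_ne L)) L.h0

theorem ld_eq (hq : 0 < q) (L : Lev q κv A S p z y D h t w Φ) (R : Pl F) :
    ld y q h R = 1 + kap t R - (R.ord (jac D t ^ q * h) : ℝ) / q := by
  have : (q : ℝ) ≠ 0 := by exact_mod_cast hq.ne'
  rw [ld, Cb.kap_chg L.fr (jac_ne L), Pi.add_apply, dv_apply,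
    P297Z.Pl.ord_mul _ (pow_ne_zero _ (jac_ne L)) L.h0, P297Z.Pl.ord_pow]
  push_cast
  field_simp
  ring

theorem del_lo (hq : 0 < q) (L : Lev q κv A S p z y D h t w Φ) : jac D t ^ q * h ∈ Lo S p :=
  Hr.lo_of L.pt.aff L.pt.nor L.pt.pri fun R hR => by
    have h1 := L.bd R hR
    obtain ⟨q₀, -, c, -⟩ := hR
    have h2 : 0 ≤ kap t R := Cb.kap_nonneg L.pt.aff.ff fun l => by
      obtain ⟨s, -, e⟩ := L.prj.mem l
      exact e ▸ (c s).1
    rw [ld_eq hq L] at h1
    have h3 : (0 : ℝ) ≤ (R.ord (jac D t ^ q * h) : ℝ) / q := by linarith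
    have h4 : (0 : ℝ) < q := by exact_mod_cast hq
    rw [le_div_iff₀ h4, zero_mul] at h3
    exact (P297Z.Pl.ord_nonneg_iff _ (del_ne L)).1 (by exact_mod_cast h3)

end Nm

theorem ldt : LDT := fun _ _ _ _ _ _ hq k =>
  ⟨Nm.dd_ne k.lev.prj, Nm.del_ne k.lev, Nm.ld_eq hq k.lev⟩

theorem num : NUM := by
  intro d N q k₀ κv F _ _ A S p z y D h t w Φ hq L sk lc
  obtain ⟨a, s, hs, e⟩ := Nm.del_lo hq L
  obtain ⟨G₁, e₁⟩ := Nm.eul L.prj a.2
  choose u _ eu using L.pt.mem
  choose G₂ e₂ using fun j => Nm.eul L.prj (u j).2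
  refine ⟨s, fun b => b.elim (MvPolynomial.pderiv 0 ((MvPolynomial.finSuccEquiv ℂ d).symm Φ))
    fun b => (MvPolynomial.finSuccEquiv ℂ d).symm (b.elim G₁ G₂), L, sk, lc, ⟨s, hs, rfl⟩, rfl,
    (Nm.aeval_symm t w G₁).trans (e₁.symm.trans ?_), fun j =>
    (Nm.aeval_symm t w (G₂ j)).trans ((e₂ j).symm.trans (by rw [eu]; rfl))⟩
  change _ = ev2 t w Φ.derivative * (s * (jac D t ^ q * h))
  rw [e, mul_div_cancel₀ _ (Hr.ne_of_notMem hs)]

end Vale.Agent.P283R.Bc
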