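import Vale.Agent.P283R.Co.Pb
import Vale.Agent.P283R.Be2.At

/-!
# From a place of a function field to an exact Hahn arc
-/

attribute [-instance] HahnSeries.powerSeriesAlgebra

open Set MvPowerSeries
open Vale.Agent.P287D Vale.Agent.P287D.Cb
open Vale.Agent.P285N.Brep (jac Fr)
open Vale.Agent.P297Z
open Vale.Agent.P283R.Co Vale.Agent.P283R.Pa

namespace Vale.Agent.P283R.Be2

variable {F : Type} [Field F] [Algebra ℂ F]

/-- the valuation ring of a place embeds into the Hahn series -/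
theorem pax {d : ℕ} (hF : FF F d) (R : Pl F) {η : ℝ} (hη : 0 < η) :
    ∃ (s : ℂ →+* ℂ) (ψ : R.ring →+* HS) (l : Fin d → ℝ →+ ℂ),
      (∀ c, ψ ⟨algebraMap ℂ F c, R.con c⟩ = algebraMap ℂ HS (s c)) ∧
      (∀ f : R.ring, (f : F) ≠ 0 → (ψ f).orderTop = ((R.ord (f : F) : ℝ) : WithTop ℝ)) ∧
      ∀ z : Fin d → R.ring, AlgebraicIndependent ℂ (fun i => (z i : F)) →
        (Jd l fun i => ψ (z i)).orderTop ≤
          ((1 + kap (fun i => (z i : F)) R + η : ℝ) : WithTop ℝ) := by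
  rcases d with _ | n
  · exact (no_pl hF R).elim
  obtain ⟨Φ, D, hD, hk, hj, hc, ho, hd⟩ := exists_expM hF R
  obtain ⟨j⟩ := exists_emb hF R
  obtain ⟨w, l, w0, wp, ws, hl⟩ := exists_wts n hη
  let y : Fin (n + 1) → HS := fun i => HahnSeries.single (w i) 1
  have yo : ∀ i, (y i).orderTop = w i := fun i => HahnSeries.orderTop_single one_ne_zero
  have hy : Pos y := fun i => by rw [yo]; exact_mod_cast wp i
  let ψ : R.ring →+* HS := ((evH hy).toRingHom.comp (map j)).comp Φ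
  have po : ∀ f : R.ring, (f : F) ≠ 0 → (ψ f).orderTop = ((R.ord (f : F) : ℝ) : WithTop ℝ) :=
    fun f f0 => by
    obtain ⟨v, v0, e⟩ := ho f f0
    change (ev y (map j (Φ f))).orderTop = _
    rw [e, map_mul, map_monomial, map_one, orderTop_ev_mon hy (by simpa using v0) _ yo,
      Finsupp.sum_single_index (by simp), w0, mul_one]
    have := Pl.ord_nonneg_of_mem _ f.2
    rw [← Int.cast_natCast, Int.toNat_of_nonneg this]
  refine ⟨j.comp (algebraMap ℂ R.κ), ψ, l, fun c => ?_, po, fun z hz => ?_⟩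
  · change ev y (map j (Φ _)) = _
    rw [hc, map_C, ev_C hy]; rfl
  have jm : jac D (fun i => (z i : F)) ∈ R.ring := det_mem _ fun a b => hD _ _ (z b).2
  have e1 := det_der_ev hy j (θ := fun r => thl (l r) (0 : Derivation ℂ ℂ ℂ))
    (fun r => ctr_thl _ _) (fun r c => by
      rw [HahnSeries.algebraMap_apply, HahnSeries.C_apply, thl_single]; simp) fun i => Φ (z i)
  have e2 : (Matrix.of fun a b => pderiv R.κ b (Φ (z a))).det = Φ ⟨_, jm⟩ := by
    let A : Matrix (Fin (n + 1)) (Fin (n + 1)) R.ring :=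
      Matrix.of fun a b => ⟨D a (z b), hD _ _ (z b).2⟩
    have : (⟨_, jm⟩ : R.ring) = A.det := Subtype.ext (R.ring.subtype.map_det A).symm
    rw [this, Φ.map_det, ← Matrix.det_transpose]
    exact congrArg Matrix.det (Matrix.ext fun a b => hd a _)
  have e3 : (Matrix.of fun a r => thl (l r) (0 : Derivation ℂ ℂ ℂ) (y a)) = Matrix.diagonal y := by
    ext1 a r
    rw [Matrix.of_apply, thl_single, hl, Matrix.diagonal_apply]
    split_ifs <;> simp [y]
  change (Matrix.of fun i r =>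
    thl (l r) (0 : Derivation ℂ ℂ ℂ) (ev y (map j (Φ _)))).det.orderTop ≤ _
  rw [e1, e2, e3, Matrix.det_diagonal, HahnSeries.orderTop_mul, orderTop_prod]
  change (ψ _).orderTop + _ ≤ _
  rw [po _ (hj _ hz), Finset.sum_congr rfl fun i _ => yo i, ← WithTop.coe_sum, ← WithTop.coe_add,
    WithTop.coe_le_coe, hk]
  linarith

variable {τ : Type} [Fintype τ]

/-- polynomials are evaluated through the embedding -/
theorem ev_psi {R : Pl F} {s : ℂ →+* ℂ} {ψ : R.ring →+* HS}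
    (hc : ∀ c, ψ ⟨algebraMap ℂ F c, R.con c⟩ = algebraMap ℂ HS (s c)) {u : τ → F}
    (um : ∀ j, u j ∈ R.ring) (hx : Pos fun j => ψ ⟨u j, um j⟩) (p : MvPolynomial τ ℂ) :
    ∃ h : MvPolynomial.aeval u p ∈ R.ring,
      ev (fun j => ψ ⟨u j, um j⟩) (map s (p : MvPowerSeries τ ℂ)) = ψ ⟨_, h⟩ := by
  induction p using MvPolynomial.induction_on with
  | C c =>
    refine ⟨by rw [MvPolynomial.aeval_C]; exact R.con c, ?_⟩
    rw [MvPolynomial.coe_C, map_C, ev_C hx]
    simp only [MvPolynomial.aeval_C]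
    exact (hc c).symm
  | add p q hp hq =>
    obtain ⟨h1, e1⟩ := hp
    obtain ⟨h2, e2⟩ := hq
    refine ⟨by rw [map_add]; exact add_mem h1 h2, ?_⟩
    rw [MvPolynomial.coe_add, map_add, ev_add, e1, e2, ← map_add]
    exact congrArg ψ (Subtype.ext (map_add _ p q).symm)
  | mul_X p i hp =>
    obtain ⟨h1, e1⟩ := hp
    refine ⟨by rw [map_mul, MvPolynomial.aeval_X]; exact mul_mem h1 (um i), ?_⟩
    rw [MvPolynomial.coe_mul, map_mul, ev_mul hx, e1, MvPolynomial.coe_X, map_X, ev_X hx,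
      ← map_mul]
    exact congrArg ψ (Subtype.ext (by simp))

/-- **from a place to an exact arc** -/
theorem pay {d : ℕ} (hF : FF F d) (u : τ → F) (T : Fin d → τ)
    (hz : AlgebraicIndependent ℂ fun i => u (T i)) (R : Pl F) {μ η : ℝ} (hμ : 0 < μ)
    (hu : ∀ j, u j = 0 ∨ μ ≤ R.ord (u j)) (hη : 0 < η) :
    ∃ (s : ℂ →+* ℂ) (x : τ → HS) (l : Fin d → ℝ →+ ℂ), (∀ j, Ge μ (x j)) ∧
      (∀ p : MvPolynomial τ ℂ, MvPolynomial.aeval u p = 0 →
        ev x (map s (p : MvPowerSeries τ ℂ)) = 0) ∧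
      (∀ p : MvPolynomial τ ℂ, MvPolynomial.aeval u p ≠ 0 →
        (ev x (map s (p : MvPowerSeries τ ℂ))).orderTop =
          ((R.ord (MvPolynomial.aeval u p) : ℝ) : WithTop ℝ)) ∧
      (Jd l fun i => x (T i)).orderTop ≤
        ((1 + kap (fun i => u (T i)) R + η : ℝ) : WithTop ℝ) := by
  obtain ⟨s, ψ, l, hc, po, hj⟩ := pax hF R hη
  have um : ∀ j, u j ∈ R.ring := fun j => (hu j).elim (fun h => h ▸ zero_mem _) fun h =>
    mem_ord (by exact_mod_cast (hμ.trans_le h).le)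
  have hg : ∀ j, Ge μ (ψ ⟨u j, um j⟩) := fun j => by
    by_cases h0 : u j = 0
    · rw [show (⟨u j, um j⟩ : R.ring) = 0 from Subtype.ext h0, map_zero]; exact ge_zero _
    · unfold Ge
      rw [po _ h0]; exact_mod_cast (hu j).resolve_left h0
  have hx := pos_of_ge hμ hg
  refine ⟨s, _, l, hg, fun p h0 => ?_, fun p h0 => ?_, hj (fun i => ⟨u (T i), um _⟩) hz⟩
  · obtain ⟨h, e⟩ := ev_psi hc um hx p
    rw [e, show (⟨_, h⟩ : R.ring) = 0 from Subtype.ext h0, map_zero]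
  · obtain ⟨h, e⟩ := ev_psi hc um hx p
    rw [e, po _ h0]

/-- **PA on a hypersurface** -/
theorem paH {d : ℕ} {α : Type} (hF : FF F d) (u : τ → F) (T : Fin d → τ)
    (hz : AlgebraicIndependent ℂ fun i => u (T i)) (R : Pl F) {μ η : ℝ} (hμ : 0 < μ)
    (hu : ∀ j, u j = 0 ∨ μ ≤ R.ord (u j)) (hη : 0 < η) (P : MvPolynomial τ ℂ)
    (hP : MvPolynomial.aeval u P = 0) (G : α → MvPolynomial τ ℂ) :
    HA (P : MvPowerSeries τ ℂ) T (fun b => (G b : MvPowerSeries τ ℂ))
      (1 + kap (fun i => u (T i)) R + η) {b | MvPolynomial.aeval u (G b) = 0}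
      (fun b => R.ord (MvPolynomial.aeval u (G b))) μ := by
  obtain ⟨s, x, l, h1, h2, h3, h4⟩ := pay hF u T hz R hμ hu hη
  exact ⟨s, x, l, hμ, h1, h2 P hP, fun b hb => h2 _ hb, fun b hb => h3 _ hb, h4⟩

end Vale.Agent.P283R.Be2
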