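import Vale.Agent.P283R.Be2.Up
import Vale.Agent.P283R.Be2.At

/-!
# From the lower bound for the limit to the lower bound at the levels
-/

attribute [-instance] HahnSeries.powerSeriesAlgebra

open Filter MvPowerSeries Vale.Agent.P283R.Co

noncomputable section

namespace Vale.Agent.P283R.Be2

open Classical in
/-- **TU on a hypersurface** -/
theorem tu2 {N d : ℕ} (e : Fin N ≃ Option (Fin d)) (j₀ : Fin N) (T : Fin d → Fin N)
    (hT : ∀ i, T i ≠ j₀) (𝒰 : Ultrafilter ℕ) {α : Type} [Fintype α]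
    (P : ℕ → MvPowerSeries (Fin N) ℂ) (F : α → ℕ → MvPowerSeries (Fin N) ℂ) (D : Set α) {b₀ : α}
    (hb : b₀ ∈ D) (hF : ∀ i, F b₀ i = pderiv ℂ j₀ (P i)) {V : Type} (v : V → α → ℤ)
    (hv : ∀ j, ∀ b ∉ D, 0 ≤ v j b) (n c : ℝ) {k K : ℕ} (hK : k < K)
    (h : ∀ a Z o μ, HA (ulim 𝒰 P) T (fun b => ulim 𝒰 (F b)) a Z o μ → (∀ b ∈ D, b ∉ Z) →
      ∃ j, (∀ b ∈ Z, v j b = 0) ∧ ∑ b, v j b * o b + c * μ ≤ n * a) :
    ∀ᶠ i in (𝒰 : Filter ℕ), ∀ a Z o μ, HA (P i) T (fun b => F b i) a Z o μ →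
      (∀ b ∈ D, b ∉ Z ∧ o b ≤ k * μ) →
      ∃ j, ∑ b, v j b * (if b ∈ Z then K * μ else min (o b) (K * μ)) + c * μ ≤ n * a := by
  by_contra hc
  have hc' := Ultrafilter.eventually_not.2 hc
  simp only [not_forall, HA] at hc'
  obtain ⟨W, hW, hd⟩ := hc'.exists_mem
  simp only [← exists_prop] at hd
  choose! a Z o μ h1 h2 h3 using hd
  choose! s x l p1 p2 p3 p4 p5 p6 using h1
  obtain ⟨ρ, hρ⟩ := upH e j₀ T hT 𝒰 P F s x μ k K (mem_of_superset hW fun i hi =>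
    ⟨p1 i hi, p2 i hi, p3 i hi, by
      rw [← hF, p5 i hi b₀ (h2 i hi b₀ hb).1, WithTop.coe_le_coe]
      exact (h2 i hi b₀ hb).2⟩)
  obtain ⟨i, ⟨x', q1, q2, -, q4, q5⟩, hi⟩ := (hρ.and hW).exists
  have kK : (k : ℝ) * μ i < K * μ i := mul_lt_mul_of_pos_right (Nat.cast_lt.2 hK) (p1 i hi)
  set u := fun b => ev x' (map ρ (ulim 𝒰 (F b)))
  have ho : ∀ b, u b ≠ 0 → (u b).orderTop = ((u b).orderTop.untopD 0 : ℝ) := fun b hb => by
    obtain ⟨r, hr⟩ := exists_ord hb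
    rw [hr]
    rfl
  have key : ∀ b, min (u b).orderTop (K * μ i : ℝ) =
      (if b ∈ Z i then K * μ i else min (o i b) (K * μ i) : ℝ) := fun b => by
    rw [q4]
    split_ifs with z
    · rw [p4 i hi b z, HahnSeries.orderTop_zero, top_inf_eq]
    · rw [p5 i hi b z, WithTop.coe_min]
  have hD : ∀ b ∈ D, (u b).orderTop = (if b ∈ Z i then K * μ i else min (o i b) (K * μ i) : ℝ) :=
    fun b hb => by
      have := key b
      rw [if_neg (h2 i hi b hb).1, min_eq_left ((h2 i hi b hb).2.trans kK.le)] at this ⊢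
      refine (min_eq_iff.1 this).elim And.left fun z => ?_
      exact absurd (WithTop.coe_inj.1 z.1) ((h2 i hi b hb).2.trans_lt kK).ne'
  obtain ⟨j, r1, r2⟩ := h (a i) {b | u b = 0} (fun b => (u b).orderTop.untopD 0) (μ i)
    ⟨ρ, x', l i, p1 i hi, q1, q2, fun _ z => z, ho, (q5 (l i)).trans_le (p6 i hi)⟩
    fun b hb z => by
      have := hD b hb
      rw [show u b = 0 from z, HahnSeries.orderTop_zero] at this
      exact WithTop.top_ne_coe this
  refine h3 i hi ⟨j, le_trans (add_le_add_left (Finset.sum_le_sum fun b _ => ?_) _) r2⟩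
  by_cases z : u b = 0
  · rw [r1 b z]
    simp
  by_cases m : b ∈ D
  · rw [hD b m]
    rfl
  · refine mul_le_mul_of_nonneg_left ?_ (Int.cast_nonneg (hv j b m))
    rw [← WithTop.coe_le_coe, ← key, ← ho b z]
    exact min_le_left _ _

end Vale.Agent.P283R.Be2
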