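import Vale.Agent.P283R.Be2.Cc
import Vale.Agent.P283R.Be2.Uq
import Vale.Agent.P283R.Be2.Pa
import Vale.Agent.P283R.Tp.Hrt

/-!
# P283R, block BE: the limit hypersurface has an arc
-/

attribute [-instance] HahnSeries.powerSeriesAlgebra

open Filter
open Vale.Agent.P287D

noncomputable section

namespace Vale.Agent.P283R.Bc

open Co (ulim UK)
open Tx Be2

namespace Nzl

variable {F : Type} [Field F] [Algebra ℂ F] {d : ℕ}

theorem ev_fin (t : Fin d → F) (w : F) (G : MvPolynomial (Fin (d + 1)) ℂ) :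
    ev2 t w (MvPolynomial.finSuccEquiv ℂ d G) =
      MvPolynomial.aeval (Fin.cons w t : Fin (d + 1) → F) G := by
  induction G using MvPolynomial.induction_on with
  | C a => simp [ev2, MvPolynomial.finSuccEquiv_apply]
  | add p q hp hq => rw [map_add, map_add, map_add, hp, hq]
  | mul_X p j hp =>
    rw [map_mul, map_mul, map_mul, hp]
    refine congrArg _ ?_
    refine Fin.cases ?_ (fun j => ?_) j
    · simp [ev2, MvPolynomial.finSuccEquiv_X_zero]
    · simp [ev2, MvPolynomial.finSuccEquiv_X_succ]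

theorem der_fin (G : MvPolynomial (Fin (d + 1)) ℂ) :
    MvPolynomial.finSuccEquiv ℂ d (MvPolynomial.pderiv 0 G) =
      (MvPolynomial.finSuccEquiv ℂ d G).derivative := by
  induction G using MvPolynomial.induction_on with
  | C a => simp [MvPolynomial.finSuccEquiv_apply]
  | add p q hp hq => rw [map_add, map_add, map_add, map_add, hp, hq]
  | mul_X p j hp =>
    rw [Derivation.leibniz, smul_eq_mul, smul_eq_mul, map_add, map_mul, map_mul, map_mul, hp,
      Polynomial.derivative_mul]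
    refine Fin.cases ?_ (fun j => ?_) j
    · simp [MvPolynomial.finSuccEquiv_X_zero, mul_comm, add_comm]
    · simp [MvPolynomial.finSuccEquiv_X_succ, MvPolynomial.pderiv_X_of_ne (Fin.succ_ne_zero j),
        mul_comm]

theorem ulim_congr {N : ℕ} (𝒰 : Ultrafilter ℕ) {f g : ℕ → MvPowerSeries (Fin N) ℂ}
    (h : ∀ᶠ i in (𝒰 : Filter ℕ), f i = g i) : ulim 𝒰 f = ulim 𝒰 g :=
  MvPowerSeries.ext fun m => (Co.ucl_eq 𝒰).2 (h.mono fun i hi => by rw [hi])

theorem ulim_der {N : ℕ} (𝒰 : Ultrafilter ℕ) (j : Fin N) {f : ℕ → MvPowerSeries (Fin N) ℂ}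
    (h : ulim 𝒰 f = 0) : ulim 𝒰 (fun i => MvPowerSeries.pderiv ℂ j (f i)) = 0 :=
  MvPowerSeries.ext fun m => by
    have := congrArg (MvPowerSeries.coeff (m + Finsupp.single j 1)) h
    rw [map_zero, Co.coeff_ulim_eq_zero] at this ⊢
    exact this.mono fun i hi => by rw [MvPowerSeries.coeff_pderiv, hi, zero_mul]

variable {N : ℕ}

theorem ev_pol (X : Dt d N) :
    MvPolynomial.aeval (Fin.cons X.w X.t : Fin (d + 1) → X.F) X.pol = ev2 X.t X.w X.Φ := by
  rw [← ev_fin, Dt.pol, AlgEquiv.apply_symm_apply]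

theorem ev_der (X : Dt d N) :
    MvPolynomial.aeval (Fin.cons X.w X.t : Fin (d + 1) → X.F) (MvPolynomial.pderiv 0 X.pol) =
      X.dd := by
  rw [← ev_fin, der_fin, Dt.pol, AlgEquiv.apply_symm_apply, Dt.dd]

/-- the arc of the good place -/
theorem level (ldt : LDT) {q k₀ : ℕ} {κv : Fin N → ℤ} (X : Dt d N) (hd : 0 < d) (hq : 0 < q)
    (h : X.Pk q k₀ κv) : ∃ a Z o μ, HA X.P Fin.succ X.Fs a Z o μ ∧
      ∀ b ∈ ({none, some none} : Set (Ix N)), b ∉ Z ∧ o b ≤ (k₀ + q * k₀ : ℕ) * μ := by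
  obtain ⟨d0, e0, hl⟩ := ldt d N q k₀ κv X hq h
  obtain ⟨R, hR, hk⟩ := h.sk.pl
  have : Nonempty (Fin d) := ⟨⟨0, hd⟩⟩
  obtain ⟨l₀, -, hl₀⟩ := Finset.exists_min_image Finset.univ (fun l => R.ord (X.t l))
    Finset.univ_nonempty
  have hμ : (0 : ℝ) < R.ord (X.t l₀) := by
    obtain ⟨s, hs, es⟩ := h.sk.prj.mem l₀
    have := ((Hr.cen_iff hR s).1 hs).resolve_left (es ▸ h.sk.ind.ne_zero l₀)
    rw [es] at this
    exact_mod_cast this
  obtain ⟨s, hs, es⟩ := h.s0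
  have s0 : X.s ≠ 0 := es ▸ Hr.ne_of_notMem hs
  have os : R.ord X.s = 0 := es ▸ Hr.cen_ord hR hs
  have hA := paH h.lev.pt.aff.ff (Fin.cons X.w X.t : Fin (d + 1) → X.F) Fin.succ
    (by simpa using h.sk.ind) R hμ (fun j => by
      refine Fin.cases ?_ (fun j => .inr ?_) j
      · by_cases w0 : X.w = 0
        · exact .inl w0
        · obtain ⟨a, ha, ea⟩ := h.sk.wp
          obtain ⟨l, hl⟩ := h.sk.red R hR a ha (ea ▸ w0)
          rw [ea] at hl
          exact .inr (by exact_mod_cast (hl₀ l (Finset.mem_univ l)).trans hl)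
      · exact_mod_cast hl₀ j (Finset.mem_univ j)) one_pos X.pol
    ((ev_pol X).trans ((h.sk.prj.ker _).2 dvd_rfl)) X.G
  have k1 : (R.ord X.dd : ℝ) ≤ k₀ * R.ord (X.t l₀) := by exact_mod_cast (hk l₀).1
  have k2 : (R.ord (X.del q) : ℝ) ≤ q * (k₀ * R.ord (X.t l₀)) := by
    have a1 := h.lc R hR
    have a2 := (hk l₀).2
    have q0 : (0 : ℝ) < q := by exact_mod_cast hq
    rw [hl, sub_nonneg, div_le_iff₀ q0] at a1
    nlinarith
  have k3 : (0 : ℝ) ≤ q * (k₀ * R.ord (X.t l₀)) := by positivity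
  refine ⟨_, _, _, _, hA, ?_⟩
  rintro b (rfl | rfl)
  · simp only [Set.mem_ofPred_eq, h.g0, ev_der]
    exact ⟨d0, by push_cast; nlinarith⟩
  · simp only [Set.mem_ofPred_eq, h.g1]
    refine ⟨mul_ne_zero d0 (mul_ne_zero s0 e0), ?_⟩
    rw [R.ord_mul d0 (mul_ne_zero s0 e0), R.ord_mul s0 e0, os]
    push_cast
    nlinarith

end Nzl

open Nzl in
theorem nz_of (ldt : LDT) : NZ := by
  intro d N q k₀ κv 𝒰 X hd hq h
  let G : Ix N → ℕ → MvPowerSeries (Fin (d + 1)) ℂ := fun b i =>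
    b.elim (MvPowerSeries.pderiv ℂ 0 (X i).P) fun b => (X i).Fs (some b)
  have hG : ∀ᶠ i in (𝒰 : Filter ℕ), (fun b => G b i) = (X i).Fs := h.mono fun i hi => by
    funext b
    cases b with
    | none => rw [Dt.Fs, hi.g0, ← MvPowerSeries.pderiv_coe]; rfl
    | some b => rfl
  have eG : (fun b => ulim 𝒰 (G b)) = LF 𝒰 X :=
    funext fun b => ulim_congr 𝒰 (hG.mono fun i hi => congrFun hi b)
  have ex : ∃ a Z o μ, HA (LP 𝒰 X) Fin.succ (LF 𝒰 X) a Z o μ ∧ none ∉ Z ∧ some none ∉ Z := by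
    by_contra hc
    have := tu2 (finSuccEquiv d) 0 Fin.succ Fin.succ_ne_zero 𝒰 (fun i => (X i).P) G
      {none, some none} (b₀ := none) (.inl rfl) (fun _ => rfl) (V := Empty) (fun j => j.elim)
      (fun j => j.elim) 0 0 (Nat.lt_succ_self (k₀ + q * k₀)) fun a Z o μ h1 h2 =>
        (hc ⟨a, Z, o, μ, eG ▸ h1, h2 _ (.inl rfl), h2 _ (.inr rfl)⟩).elim
    obtain ⟨i, ⟨a1, a2⟩, a3⟩ := ((this.and h).and hG).exists
    obtain ⟨a, Z, o, μ, b1, b2⟩ := level ldt (X i) hd hq a2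
    obtain ⟨j, -⟩ := a1 a Z o μ (a3 ▸ b1) b2
    exact j.elim
  refine ⟨fun h0 => ?_, ex⟩
  obtain ⟨a, Z, o, μ, ⟨s, x, l, -, -, -, -, h5, -⟩, n1, -⟩ := ex
  have := h5 none n1
  rw [← congrFun eG none, show ulim 𝒰 (G none) = 0 from ulim_der 𝒰 0 h0, map_zero, Co.ev_zero,
    HahnSeries.orderTop_zero] at this
  exact WithTop.top_ne_coe this

end Vale.Agent.P283R.Bc
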