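import Vale.Agent.P283R.Be2.TwS
import Vale.Agent.P283R.Co.St
import Mathlib.RingTheory.HahnSeries.Valuation
import Mathlib.RingTheory.Valuation.Integral

/-!
# P283R, block BE: an exact arc through the origin is centred at the point
-/

set_option linter.all false

attribute [-instance] HahnSeries.powerSeriesAlgebra

noncomputable section

namespace Vale.Agent.P283R.Barc

open Co (Ge)
open Tx

variable {F κ : Type} [Field F] [Algebra ℂ F] [Field κ] [Algebra ℂ κ] {d : ℕ}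

/-- the valuation of an arc -/
def vx (x : F →ₐ[ℂ] HahnSeries ℝ κ) : Valuation F (Multiplicative (WithTop ℝ)ᵒᵈ) :=
  (HahnSeries.addVal ℝ κ).toValuation.comap x.toRingHom

theorem vx_le (x : F →ₐ[ℂ] HahnSeries ℝ κ) (a : F) (r : ℝ) :
    vx x a ≤ Multiplicative.ofAdd (OrderDual.toDual (r : WithTop ℝ)) ↔ Ge r (x a) := Iff.rfl

theorem vx_one (x : F →ₐ[ℂ] HahnSeries ℝ κ) (a : F) : vx x a ≤ 1 ↔ Ge 0 (x a) := Iff.rfl

theorem vx_lt (x : F →ₐ[ℂ] HahnSeries ℝ κ) (a : F) : vx x a < 1 ↔ 0 < (x a).orderTop := Iff.rfl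

theorem ge_c (c : ℂ) : Ge 0 (algebraMap ℂ (HahnSeries ℝ κ) c) := Co.ge_single 0 _

/-- the elements of non-negative order -/
def o0 (x : F →ₐ[ℂ] HahnSeries ℝ κ) : Subalgebra ℂ F where
  carrier := {a | Ge 0 (x a)}
  mul_mem' := fun ha hb => by
    rw [Set.mem_setOf_eq, map_mul]
    exact Co.Ge.mul0 ha hb
  add_mem' := fun ha hb => by
    rw [Set.mem_setOf_eq, map_add]
    exact Co.Ge.add ha hb
  algebraMap_mem' := fun c => by
    rw [Set.mem_setOf_eq, AlgHom.commutes]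
    exact ge_c c

theorem aeval_ge (x : F →ₐ[ℂ] HahnSeries ℝ κ) {t : Fin d → F} (ht : ∀ l, Ge 0 (x (t l)))
    (G : MvPolynomial (Fin d) ℂ) : Ge 0 (x (MvPolynomial.aeval t G)) := by
  have : MvPolynomial.aeval t G ∈ Algebra.adjoin ℂ (Set.range t) := by
    rw [Algebra.adjoin_range_eq_range_aeval]
    exact ⟨G, rfl⟩
  exact (Algebra.adjoin_le (S := o0 x) (by rintro _ ⟨l, rfl⟩; exact ht l)) this

theorem int_ge (x : F →ₐ[ℂ] HahnSeries ℝ κ) {t : Fin d → F} (ht : ∀ l, Ge 0 (x (t l))) {a : F}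
    {G : Polynomial (MvPolynomial (Fin d) ℂ)} (hG : G.Monic) (h : ev2 t a G = 0) :
    Ge 0 (x a) := by
  let O := (vx x).integer
  let f : MvPolynomial (Fin d) ℂ →+* O :=
    (MvPolynomial.aeval t : MvPolynomial (Fin d) ℂ →ₐ[ℂ] F).toRingHom.codRestrict O
      fun G => aeval_ge x ht G
  have hi : IsIntegral O a := by
    refine ⟨G.map f, hG.map f, ?_⟩
    rw [Polynomial.eval₂_map]
    exact h
  exact (Valuation.integer.integers (vx x)).mem_of_integral hi

/-- the centre of an arc -/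
def cen (S : Subalgebra ℂ F) (x : F →ₐ[ℂ] HahnSeries ℝ κ) (h : ∀ a ∈ S, Ge 0 (x a)) : Ideal S where
  carrier := {a | vx x (a : F) < 1}
  zero_mem' := by simp
  add_mem' := fun {a b} ha hb => by
    rw [Set.mem_setOf_eq, Subalgebra.coe_add]
    exact (vx x).map_add_lt ha hb
  smul_mem' := fun c a ha => by
    rw [Set.mem_setOf_eq, smul_eq_mul, Subalgebra.coe_mul, map_mul]
    exact mul_lt_one_of_nonneg_of_lt_one_right ((vx_one x _).2 (h _ c.2)) zero_le ha

theorem cen_prime (S : Subalgebra ℂ F) (x : F →ₐ[ℂ] HahnSeries ℝ κ) (h : ∀ a ∈ S, Ge 0 (x a)) :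
    (cen S x h).IsPrime := by
  refine ⟨fun e => ?_, fun {a b} hab => ?_⟩
  · have : (1 : S) ∈ cen S x h := e ▸ Submodule.mem_top
    have h1 : vx x ((1 : S) : F) < 1 := this
    simp at h1
  · by_contra e
    push Not at e
    have ha : 1 ≤ vx x (a : F) := not_lt.1 e.1
    have hb : 1 ≤ vx x (b : F) := not_lt.1 e.2
    have h1 : vx x ((a * b : S) : F) < 1 := hab
    rw [Subalgebra.coe_mul, map_mul] at h1
    exact not_lt.2 (one_le_mul ha hb) h1

/-- an exact arc through the origin of the hypersurface is centred at `p` -/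
theorem arc_of {S : Subalgebra ℂ F} {p : Ideal S} {t : Fin d → F} {w : F}
    {Φ : Polynomial (MvPolynomial (Fin d) ℂ)} (h : Prj S p t w Φ)
    (only : ∀ q : Ideal S, q.IsPrime → (∀ l, ∃ s ∈ q, (s : F) = t l) → (∃ s ∈ q, (s : F) = w) →
      q = p)
    (x : F →ₐ[ℂ] HahnSeries ℝ κ) (ht : ∀ l, 0 < (x (t l)).orderTop) (hw : 0 < (x w).orderTop) :
    Arc S p x := by
  have g : ∀ a ∈ S, Ge 0 (x a) := fun a ha => by
    obtain ⟨G, h1, h2⟩ := h.int a ha
    exact int_ge x (fun l => (ht l).le) h1 h2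
  have e : cen S x g = p := only _ (cen_prime S x g) (fun l => by
    obtain ⟨s, -, hs⟩ := h.mem l
    exact ⟨s, (vx_lt x _).2 (by rw [hs]; exact ht l), hs⟩) ⟨⟨w, h.wm⟩, hw, rfl⟩
  refine ⟨g, fun a ha => ?_⟩
  rw [← e] at ha
  exact ha

variable {S : Subalgebra ℂ F} {p : Ideal S} {x : F →ₐ[ℂ] HahnSeries ℝ κ}

/-- functions which do not vanish at `p` have order zero -/
theorem ord_zero (h : Arc S p x) (res : ∀ a : S, ∃ c : ℂ, a - algebraMap ℂ S c ∈ p) {a : S}
    (ha : a ∉ p) : (x a).orderTop = 0 := by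
  obtain ⟨c, hc⟩ := res a
  have c0 : c ≠ 0 := fun e => ha (by simpa [e] using hc)
  have h1 := h.pos _ hc
  have h2 : (x (algebraMap ℂ F c)).orderTop = 0 := by
    rw [AlgHom.commutes]
    exact HahnSeries.orderTop_single (by simpa using c0)
  have e : x a = x (algebraMap ℂ F c) + x ((a - algebraMap ℂ S c : S) : F) := by
    rw [← map_add]
    simp
  rw [e, HahnSeries.orderTop_add_eq_left (h2 ▸ h1), h2]

theorem ord_div {a b : F} (hb : (x b).orderTop = 0) : (x (a / b)).orderTop = (x a).orderTop := by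
  have b0 : b ≠ 0 := fun e => by simp [e] at hb
  have : x a = x (a / b) * x b := by rw [← map_mul, div_mul_cancel₀ _ b0]
  rw [this, HahnSeries.orderTop_mul, hb, add_zero]

/-- the local ring has non-negative orders -/
theorem ge_lo (h : Arc S p x) (res : ∀ a : S, ∃ c : ℂ, a - algebraMap ℂ S c ∈ p) {a : F}
    (ha : a ∈ Lo S p) : Ge 0 (x a) := by
  obtain ⟨s, u, hu, rfl⟩ := ha
  unfold Ge
  rw [ord_div (ord_zero h res hu)]
  exact h.ge _ s.2

/-- the parameters are a reduction of the maximal ideal -/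
theorem ge_red (h : Arc S p x) {t : Fin d → F}
    (red : ∀ (Γ : Type) [LinearOrderedCommGroupWithZero Γ] (v : Valuation F Γ),
      (∀ c, v (algebraMap ℂ F c) ≤ 1) → (∀ a ∈ p, v (a : F) < 1) →
      ∀ g, (∀ l, v (t l) ≤ g) → ∀ a ∈ p, v (a : F) ≤ g)
    {μ : ℝ} (ht : ∀ l, Ge μ (x (t l))) {a : S} (ha : a ∈ p) : Ge μ (x a) :=
  (vx_le x _ μ).1 (red _ (vx x) (fun c => (o0 x).algebraMap_mem c) (fun a ha => h.pos a ha) _
    (fun l => (vx_le x _ μ).2 (ht l)) a ha)

end Vale.Agent.P283R.Barc
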