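import Vale.Agent.P283R.Be2.Cs
import Vale.Agent.P283R.Be2.Arc
import Vale.Agent.P283R.Tp.Kap
import Vale.Agent.P283R.Tp.Hrt
import Vale.Agent.P287D.Cb.Row

/-!
# P283R, block BE: the rows ARC and FLO
-/

set_option linter.all false

attribute [-instance] HahnSeries.powerSeriesAlgebra

open Vale.Agent.P285N.Brep (jac Fr)
open Vale.Agent.P287D Vale.Agent.P297Z

noncomputable section

namespace Vale.Agent.P283R.Be2

open Co (Ge)
open Tx

namespace Flo

variable {F : Type} [Field F] [Algebra ℂ F] {d : ℕ} {S : Subalgebra ℂ F} {p : Ideal S}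
  {t : Fin d → F} {w : F} {Φ : Polynomial (MvPolynomial (Fin d) ℂ)}

theorem deg_pos (h : Prj S p t w Φ) : 0 < Φ.natDegree := Nat.pos_of_ne_zero fun e => by
  have := (h.ker 1).2 (by rw [h.mon.natDegree_eq_zero.1 e])
  rw [map_one] at this
  exact one_ne_zero this

theorem small (h : Prj S p t w Φ) {G : Polynomial (MvPolynomial (Fin d) ℂ)}
    (hG : G.natDegree < Φ.natDegree) (h0 : ev2 t w G = 0) : G = 0 :=
  Polynomial.eq_zero_of_dvd_of_natDegree_lt ((h.ker G).1 h0) hG

theorem ev2_C (G : MvPolynomial (Fin d) ℂ) : ev2 t w (Polynomial.C G) = MvPolynomial.aeval t G :=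
  Polynomial.eval₂_C _ _

theorem ind (h : Prj S p t w Φ) : AlgebraicIndependent ℂ t := by
  rw [algebraicIndependent_iff]
  intro G hG
  exact Polynomial.C_eq_zero.1 (small h (by rw [Polynomial.natDegree_C]; exact deg_pos h)
    (by rw [ev2_C, hG]))

theorem der_ne (h : Prj S p t w Φ) : ev2 t w Φ.derivative ≠ 0 := fun e =>
  (deg_pos h).ne' (Polynomial.natDegree_eq_zero_of_derivative_eq_zero
    (small h (Polynomial.natDegree_derivative_lt (deg_pos h).ne') e))

/-- the maximal ideal of a closed point -/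
theorem eq_of_le {q : Ideal S} (hq : q.IsPrime)
    (res : ∀ s : S, ∃ c : ℂ, s - algebraMap ℂ S c ∈ p) (hp : p ≤ q) : q = p := by
  refine le_antisymm (fun a ha => ?_) hp
  obtain ⟨c, hc⟩ := res a
  by_cases c0 : c = 0
  · simpa [c0] using hc
  have : algebraMap ℂ S c ∈ q := by simpa using q.sub_mem ha (hp hc)
  exact (hq.ne_top (q.eq_top_of_isUnit_mem this ((Ne.isUnit c0).map _))).elim

end Flo

open Flo

/-- **ARC** -/
theorem arc3 : ARC := fun d F κ _ _ _ _ S p t w Φ x μ h hs res _ h0 ht hw => by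
  have k : ∀ {a : HahnSeries ℝ κ}, Ge μ a → 0 < a.orderTop := fun ha =>
    lt_of_lt_of_le (by exact_mod_cast h0) ha
  have a : Arc S p x := Barc.arc_of h (fun q hq h1 h2 => eq_of_le hq res (hs.sep q hq
    fun s e => by
      rcases e with e | ⟨l, e⟩
      · obtain ⟨s', a, b⟩ := h2
        exact (Subtype.ext (b.trans e.symm) : s' = s) ▸ a
      · obtain ⟨s', a, b⟩ := h1 l
        exact (Subtype.ext (b.trans e.symm) : s' = s) ▸ a)) x (fun l => k (ht l)) (k hw)
  exact ⟨a, fun s hs => Barc.ord_zero a res hs⟩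

/-- **FLO** -/
theorem flo : FLO := fun d N q F _ _ κv A S p z y D h t w Φ hq L => by
  have i := ind L.prj
  obtain ⟨D', hD'⟩ := Cb.fr_of L.pt.aff.ff i
  obtain ⟨j0, hk, -⟩ := kap' d F y t D D' L.fr hD'
  have f0 : jac D t ^ q * h ≠ 0 := mul_ne_zero (pow_ne_zero _ j0) L.h0
  have q0 : (0 : ℝ) < q := by exact_mod_cast hq
  have e : ∀ R : Pl F, ld y q h R = 1 + kap t R - (R.ord (jac D t ^ q * h) : ℝ) / q := fun R => by
    rw [ld, hk R, Pl.ord_mul _ (pow_ne_zero _ j0) L.h0, Pl.ord_pow]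
    push_cast
    field_simp
    ring
  refine ⟨i, der_ne L.prj, f0, Hr.lo_of L.pt.aff L.pt.nor L.pt.pri fun R hR => ?_, e⟩
  have b := L.bd R hR
  obtain ⟨q', -, c, -⟩ := hR
  have k : 0 ≤ kap t R := Cb.kap_nonneg L.pt.aff.ff fun l => by
    obtain ⟨s, -, hs⟩ := L.prj.mem l
    exact hs ▸ (c s).1
  rw [e R] at b
  have : (0 : ℝ) ≤ (R.ord (jac D t ^ q * h) : ℝ) / q := by linarith
  have := (div_nonneg_iff.1 this).elim (fun a => a.1) fun a => absurd a.2 (not_le.2 q0)
  exact (Pl.ord_nonneg_iff R.toPlace f0).1 (by exact_mod_cast this)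

end Vale.Agent.P283R.Be2
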