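import Vale.Agent.P283R.Be2.Cc
import Vale.Agent.P283R.Be2.Uq
import Vale.Agent.P283R.Be2.Pa
import Vale.Agent.P283R.Be2.Flo

/-!
# P283R, block BE: the row UP
-/

set_option linter.all false

attribute [-instance] HahnSeries.powerSeriesAlgebra

open Filter
open Vale.Agent.P287D Vale.Agent.P297Z

noncomputable section

namespace Vale.Agent.P283R.Bc

open Co (ulim UK)
open Tx Be2

namespace Up

theorem ulim_congr {N : ℕ} {𝒰 : Ultrafilter ℕ} {f g : ℕ → MvPowerSeries (Fin N) ℂ}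
    (h : ∀ᶠ i in (𝒰 : Filter ℕ), f i = g i) : ulim 𝒰 f = ulim 𝒰 g :=
  funext fun _ => Germ.coe_eq.2 (h.mono fun i hi => by simp only [hi])

theorem aeval_cons {R : Type} [CommRing R] [Algebra ℂ R] {d : ℕ} (t : Fin d → R) (w : R)
    (G : MvPolynomial (Fin (d + 1)) ℂ) :
    MvPolynomial.aeval (Fin.cons w t : Fin (d + 1) → R) G =
      ev2 t w (MvPolynomial.finSuccEquiv ℂ d G) := by
  induction G using MvPolynomial.induction_on with
  | C a =>
    rw [MvPolynomial.aeval_C, ← MvPolynomial.algebraMap_eq, AlgEquiv.commutes]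
    simp [ev2]
  | add p q hp hq => simp only [map_add, hp, hq]
  | mul_X p j hp =>
    simp only [map_mul, hp, MvPolynomial.aeval_X]
    congr 1
    refine Fin.cases ?_ (fun l => ?_) j
    · simp [ev2, MvPolynomial.finSuccEquiv_X_zero]
    · simp [ev2, MvPolynomial.finSuccEquiv_X_succ]

theorem fse_pderiv {d : ℕ} (G : MvPolynomial (Fin (d + 1)) ℂ) :
    MvPolynomial.finSuccEquiv ℂ d (MvPolynomial.pderiv 0 G) =
      (MvPolynomial.finSuccEquiv ℂ d G).derivative := by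
  induction G using MvPolynomial.induction_on with
  | C a =>
    rw [MvPolynomial.pderiv_C, map_zero, ← MvPolynomial.algebraMap_eq, AlgEquiv.commutes]
    simp
  | add p q hp hq => simp only [map_add, hp, hq]
  | mul_X p j hp =>
    simp only [Derivation.leibniz, smul_eq_mul, map_add, map_mul, hp, Polynomial.derivative_mul]
    refine Fin.cases ?_ (fun l => ?_) j
    · simp [MvPolynomial.finSuccEquiv_X_zero]
      ring
    · simp [MvPolynomial.finSuccEquiv_X_succ, MvPolynomial.pderiv_X, mul_comm]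

theorem le_sum {N : ℕ} (c : Fin N → ℕ) (v : Fin N → ℝ) (hv : ∀ j, 0 ≤ v j) {B M : ℝ}
    (h1 : B ≤ ∑ j, (c j : ℝ) * v j) (h2 : B ≤ M) (h0 : 0 ≤ M) :
    B ≤ ∑ j, (c j : ℝ) * min (v j) M := by
  by_cases h : ∃ j, c j ≠ 0 ∧ M ≤ v j
  · obtain ⟨j, a, b⟩ := h
    refine le_trans ?_ (Finset.single_le_sum (f := fun j => (c j : ℝ) * min (v j) M)
      (fun j _ => mul_nonneg (Nat.cast_nonneg _) (le_min (hv j) h0)) (Finset.mem_univ j))
    have : (1 : ℝ) ≤ c j := by exact_mod_cast Nat.pos_of_ne_zero a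
    rw [min_eq_right b]
    nlinarith
  · push Not at h
    refine h1.trans (Finset.sum_le_sum fun j _ => le_of_eq ?_)
    by_cases a : c j = 0
    · simp [a]
    · rw [min_eq_left (h j a).le]

end Up

open Up

/-- **UP** -/
theorem up : UP := fun d N q k₀ κv 𝒰 X _ hq hX n k K C c₀ hn _ H => by
  classical
  let F' : Ix N → ℕ → MvPowerSeries (Fin (d + 1)) ℂ := fun b i =>
    b.elim (MvPowerSeries.pderiv ℂ 0 (X i).P) fun b' => (X i).Fs (some b')
  have e0 : ∀ᶠ i in (𝒰 : Filter ℕ), (fun b => F' b i) = (X i).Fs := hX.mono fun i hi => by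
    funext b
    rcases b with _ | b
    · show MvPowerSeries.pderiv ℂ 0 ((X i).pol : MvPowerSeries (Fin (d + 1)) ℂ) =
        ((X i).G none : MvPowerSeries (Fin (d + 1)) ℂ)
      rw [hi.g0, MvPowerSeries.pderiv_coe]
    · rfl
  have e1 : (fun b => ulim 𝒰 (F' b)) = LF 𝒰 X := funext fun b =>
    ulim_congr (e0.mono fun i hi => congrFun hi b)
  have h1 := tu2 (finSuccEquiv d) 0 Fin.succ (fun l => Fin.succ_ne_zero l) 𝒰 (fun i => (X i).P) F'
    {none, some none} (b₀ := none) (by simp) (fun _ => rfl) (V := C) (fun c => vv q n c)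
    (fun c b hb => by
      rcases b with _ | _ | j
      · simp at hb
      · simp at hb
      · exact Int.natCast_nonneg _) n c₀ (k := 2 * k) (K := K + 2 * k + 1) (by omega)
    (fun a Z o μ h hD => by
      rw [e1] at h
      obtain ⟨c, a1, a2⟩ := H a Z o μ h (hD _ (by simp)) (hD _ (by simp))
      exact ⟨⟨c, a1⟩, a2⟩)
  filter_upwards [h1, hX, e0] with i h1 hi e0 R hR μ B μ0 m1 m2 m3 m4 m5
  obtain ⟨i1, i2, i3, -, i5⟩ := flo _ _ _ _ _ _ _ _ _ _ _ _ _ _ _ hq hi.lev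
  obtain ⟨s, s1, s2⟩ := hi.s0
  have s3 : (X i).s ≠ 0 := fun e => s1 (by
    rw [show s = 0 from Subtype.ext (s2.trans e)]
    exact (X i).p.zero_mem)
  have s4 : R.ord (X i).s = 0 := s2 ▸ Hr.cen_ord hR s1
  have z0 : ∀ j, (0 : ℝ) ≤ R.ord ((X i).z j) := fun j => by
    obtain ⟨a, -, e⟩ := hi.lev.pt.mem j
    exact_mod_cast Pl.ord_nonneg_of_mem R.toPlace (e ▸ (hR a).1)
  have g0 : MvPolynomial.aeval (Fin.cons (X i).w (X i).t : Fin (d + 1) → (X i).F)
      ((X i).G none) = (X i).dd := by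
    rw [hi.g0, aeval_cons, fse_pderiv, Dt.pol, AlgEquiv.apply_symm_apply]
    rfl
  have d0 : (X i).dd ≠ 0 := i2
  have d1 : (X i).del q ≠ 0 := i3
  have o1 : R.ord ((X i).dd * ((X i).s * (X i).del q)) = R.ord (X i).dd + R.ord ((X i).del q) := by
    rw [Pl.ord_mul _ d0 (mul_ne_zero s3 d1), Pl.ord_mul _ s3 d1, s4, zero_add]
  have k0 : (0 : ℝ) ≤ k * μ := by positivity
  have K0 : (0 : ℝ) ≤ K * μ := by positivity
  have q0 : (q : ℝ) ≠ 0 := by exact_mod_cast hq.ne'
  rw [i5 R]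
  refine le_of_forall_pos_le_add fun η η0 => ?_
  have n0 : (0 : ℝ) < n + 1 := by positivity
  have h2 := paH hi.lev.pt.aff.ff (Fin.cons (X i).w (X i).t : Fin (d + 1) → (X i).F) Fin.succ
    i1 R μ0 (fun j => by
      refine Fin.cases ?_ (fun l => Or.inr (m1 l)) j
      refine (em ((X i).w = 0)).imp_right fun w0 => ?_
      obtain ⟨a, a1, a2⟩ := hi.sk.wp
      obtain ⟨l, hl⟩ := hi.sk.red R hR a a1 (a2 ▸ w0)
      rw [a2] at hl
      exact (m1 l).trans (by exact_mod_cast hl)) (div_pos η0 n0) (X i).pol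
    (by
      rw [aeval_cons, Dt.pol, AlgEquiv.apply_symm_apply]
      exact (hi.lev.prj.ker _).2 dvd_rfl) (X i).G
  obtain ⟨c, hc⟩ := h1 _ _ _ _ (by rw [e0]; exact h2) (fun b hb => by
    rcases hb with rfl | rfl
    · simp only [Set.mem_ofPred_eq, g0]
      exact ⟨d0, by push_cast; linarith⟩
    · simp only [Set.mem_ofPred_eq, hi.g1, o1]
      exact ⟨mul_ne_zero d0 (mul_ne_zero s3 d1), by push_cast; linarith⟩)
  have h3 := le_sum c (fun j => R.ord ((X i).z j)) z0 (m5 c c.2)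
    (M := (K + 2 * k + 1 : ℕ) * μ - R.ord (X i).dd) (by push_cast; linarith)
    (by push_cast; linarith)
  have h4 : ∀ j, min (R.ord ((X i).dd * (X i).z j) : ℝ) ((K + 2 * k + 1 : ℕ) * μ) =
      R.ord (X i).dd + min (R.ord ((X i).z j) : ℝ) ((K + 2 * k + 1 : ℕ) * μ - R.ord (X i).dd) :=
    fun j => by
      rw [Pl.ord_mul _ d0 (hi.lev.pt.ne j), ← min_add_add_left]
      push_cast
      congr 1
      ring
  simp only [Fintype.sum_option, vv, Set.mem_ofPred_eq, g0, hi.g1, hi.g2, o1, d0,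
    mul_ne_zero d0 (mul_ne_zero s3 d1), mul_ne_zero d0 (hi.lev.pt.ne _), if_false, h4, mul_add,
    Finset.sum_add_distrib, ← Finset.sum_mul, Fin.cons_succ] at hc
  rw [min_eq_left (by push_cast; linarith), min_eq_left (by push_cast; linarith)] at hc
  have h5 : (n : ℝ) * (η / (n + 1)) ≤ η := by
    rw [← mul_div_assoc, div_le_iff₀ n0]
    nlinarith
  have h6 : ((n / q : ℕ) : ℝ) = n / q := Nat.cast_div hn q0
  have h7 : (n : ℝ) * ((R.ord ((X i).del q) : ℝ) / q) = n / q * R.ord ((X i).del q) := by ring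
  simp only [Int.cast_neg, Int.cast_add, Int.cast_natCast, Int.cast_sum, h6] at hc
  show _ ≤ (n : ℝ) * (1 + kap (fun l => (X i).t l) R - (R.ord ((X i).del q) : ℝ) / q) + η
  rw [mul_sub, h7]
  linarith

end Vale.Agent.P283R.Bc
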