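import Vale.Agent.P283R.Be2.Cot
import Vale.Agent.P283R.Be2.RDnx
import Vale.Agent.P283R.Be2.RKab
import Vale.Agent.P283R.Be2.RLci
import Vale.Agent.P283R.Be2.RNum
import Vale.Agent.P283R.Be2.RNz
import Vale.Agent.P283R.Be2.RUp
import Vale.Agent.P283R.Be2.Apz

/-!
# P283R, block BE: the core from the projection and the twist
-/

namespace Vale.Agent.P283R.Bc

theorem lte0 (sk : SK) (tw : Tx.TWH) : LTE := cot sk kab num ldt Be2.apy lci (nz_of ldt) up dn tw

end Vale.Agent.P283R.Bc
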