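import Vale.Agent.P283R.Be2.TwS
import Vale.Agent.P283R.Be2.At

/-!
# P283R, block BE: the core at a closed point, the statements
-/

attribute [-instance] HahnSeries.powerSeriesAlgebra

open Filter
open Vale.Agent.P285N.Brep (jac Fr)
open Vale.Agent.P287D
open Vale.Agent.P283.H647 (limLat)

noncomputable section

namespace Vale.Agent.P283R.Bc

open Co (Ge UK ulim)
open Tx Be2

section level

variable {F : Type} [Field F] [Algebra ℂ F] {d N : ℕ}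

/-- there is a klt pair at `p` -/
def KL (S : Subalgebra ℂ F) (p : Ideal S) (y : Fin d → F) : Prop :=
  ∃ (m : ℕ) (g : F), 0 < m ∧ g ≠ 0 ∧ (∀ R, PDat S p R → ld y m g R ≤ 1) ∧
    ∀ q : Ideal S, q ≤ p → ∀ R, Cen S q R → 0 < ld y m g R

/-- the hypotheses at one level which do not depend on a choice -/
structure Hp (q : ℕ) (A : Subgroup (F ≃ₐ[ℂ] F)) (S : Subalgebra ℂ F) (p : Ideal S)
    (z : Fin N → F) (y : Fin d → F) (h : F) : Prop where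
  pt : Pt d A S p z
  fr : Frm y
  fy : ∀ i, Fix A (y i)
  h0 : h ≠ 0
  eh : Eig A h
  bd : ∀ R, PDat S p R → ld y q h R ≤ 1
  kl : KL S p y

/-- the conclusion -/
def Mn (n q : ℕ) (A : Subgroup (F ≃ₐ[ℂ] F)) (S : Subalgebra ℂ F) (p : Ideal S)
    (z : Fin N → F) (y : Fin d → F) (h : F) : Prop :=
  ∀ P, Cen S p P → ∃ c : Fin N → ℕ, Fix A ((∏ j, z j ^ c j) * h ^ (n / q)) ∧
    (∑ j, (c j : ℝ) * P.ord (z j)) / n < ld y q h P

/-- a finite projection which is a reduction of the maximal ideal, with a good place -/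
structure Sk (k₀ : ℕ) (S : Subalgebra ℂ F) (p : Ideal S) (t : Fin d → F) (w : F)
    (Φ : Polynomial (MvPolynomial (Fin d) ℂ)) : Prop where
  prj : Prj S p t w Φ
  wp : ∃ a ∈ p, (a : F) = w
  ind : AlgebraicIndependent ℂ t
  only : ∀ q : Ideal S, q.IsPrime → (∀ a : S, (∃ l, (a : F) = t l) ∨ (a : F) = w → a ∈ q) → q = p
  red : ∀ R, Cen S p R → ∀ a ∈ p, (a : F) ≠ 0 → ∃ l, R.ord (t l) ≤ R.ord (a : F)
  pl : ∃ R, Cen S p R ∧ ∀ l, R.ord (ev2 t w Φ.derivative) ≤ k₀ * R.ord (t l) ∧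
    1 + kap t R ≤ k₀ * R.ord (t l)

end level

/-- **LTE**: the end product of the core -/
def LTE : Prop := ∀ (d N Q : ℕ) (ε : ℝ), 0 < d → 0 < Q → 0 < ε → Unif Q fun n =>
  ∀ (F : Type) [Field F] [Algebra ℂ F] (A : Subgroup (F ≃ₐ[ℂ] F)) (S : Subalgebra ℂ F)
    (p : Ideal S) (z : Fin N → F) (y : Fin d → F) (h : F), Hp Q A S p z y h → Finite A →
    Hyp ε A S p y Q h → Mn n Q A S p z y h

/-- the index set of the series: the derivative, the pair, the coordinates -/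
abbrev Ix (N : ℕ) : Type := Option (Option (Fin N))

/-- the data of one level -/
structure Dt (d N : ℕ) where
  F : Type
  [fld : Field F]
  [alg : Algebra ℂ F]
  A : Subgroup (F ≃ₐ[ℂ] F)
  S : Subalgebra ℂ F
  p : Ideal S
  z : Fin N → F
  y : Fin d → F
  D : Fin d → Derivation ℂ F F
  h : F
  t : Fin d → F
  w : F
  Φ : Polynomial (MvPolynomial (Fin d) ℂ)
  s : F
  G : Ix N → MvPolynomial (Fin (d + 1)) ℂ

attribute [instance] Dt.fld Dt.alg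

namespace Dt

variable {d N : ℕ} (X : Dt d N)

/-- the equation of the hypersurface; the variable `0` is `w` -/
def pol : MvPolynomial (Fin (d + 1)) ℂ := (MvPolynomial.finSuccEquiv ℂ d).symm X.Φ

/-- the equation as a series -/
def P : MvPowerSeries (Fin (d + 1)) ℂ := X.pol

/-- the numerators as series -/
def Fs (b : Ix N) : MvPowerSeries (Fin (d + 1)) ℂ := X.G b

/-- the derivative of the equation -/
def dd : X.F := ev2 X.t X.w X.Φ.derivative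

/-- `(dt) ^ q = del * η` -/
def del (q : ℕ) : X.F := jac X.D X.t ^ q * X.h

/-- the invariant monomials -/
def M (hz : ∀ j, X.z j ≠ 0) : AddSubgroup (Fin N → ℤ) where
  carrier := {m | Fix X.A (∏ j, X.z j ^ m j)}
  zero_mem' := fun σ _ => by simp
  add_mem' := fun {a b} ha hb σ hσ => by
    have e : ∏ j, X.z j ^ (a + b) j = (∏ j, X.z j ^ a j) * ∏ j, X.z j ^ b j := by
      rw [← Finset.prod_mul_distrib]
      exact Finset.prod_congr rfl fun j _ => zpow_add₀ (hz j) _ _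
    rw [e, map_mul, ha σ hσ, hb σ hσ]
  neg_mem' := fun {a} ha σ hσ => by
    have e : ∏ j, X.z j ^ (-a) j = (∏ j, X.z j ^ a j)⁻¹ := by
      rw [← Finset.prod_inv_distrib]
      exact Finset.prod_congr rfl fun j _ => zpow_neg _ _
    rw [e, map_inv₀, ha σ hσ]

/-- the package of one level -/
structure Pk (q k₀ : ℕ) (κv : Fin N → ℤ) : Prop where
  lev : Lev q κv X.A X.S X.p X.z X.y X.D X.h X.t X.w X.Φ
  sk : Sk k₀ X.S X.p X.t X.w X.Φ
  lc : ∀ R, Cen X.S X.p R → 0 ≤ ld X.y q X.h R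
  s0 : ∃ a : X.S, a ∉ X.p ∧ (a : X.F) = X.s
  g0 : X.G none = MvPolynomial.pderiv 0 X.pol
  g1 : MvPolynomial.aeval (Fin.cons X.w X.t : Fin (d + 1) → X.F) (X.G (some none)) =
    X.dd * (X.s * X.del q)
  g2 : ∀ j, MvPolynomial.aeval (Fin.cons X.w X.t : Fin (d + 1) → X.F) (X.G (some (some j))) =
    X.dd * X.z j

/-- the lower bound on the region -/
def UpA (q n : ℕ) (C : Finset (Fin N → ℕ)) (c₀ : ℝ) (k K : ℕ) : Prop :=
  ∀ R, Cen X.S X.p R → ∀ μ B : ℝ, 0 < μ → (∀ l, μ ≤ R.ord (X.t l)) → R.ord X.dd ≤ k * μ →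
    R.ord (X.del q) ≤ k * μ → B ≤ K * μ → (∀ c ∈ C, B ≤ ∑ j, (c j : ℝ) * R.ord (X.z j)) →
    B + c₀ * μ ≤ n * ld X.y q X.h R

/-- a place inside the region which attains the bound -/
def AtB (q n : ℕ) (C : Finset (Fin N → ℕ)) (c₀ : ℝ) (k K : ℕ) : Prop :=
  ∃ (E : Pl X.F) (μ : ℝ), Cen X.S X.p E ∧ 0 < μ ∧ (∀ l, μ ≤ E.ord (X.t l)) ∧
    E.ord X.dd < k * μ ∧ E.ord (X.del q) < k * μ ∧ n * ld X.y q X.h E < K * μ ∧
    ∀ c ∈ C, n * ld X.y q X.h E ≤ ∑ j, (c j : ℝ) * E.ord (X.z j) + c₀ * μ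

/-- an exact integral arc with the given orders; the coordinates in `J` have order at least `K` -/
def Ar (q : ℕ) (a ρ E : ℝ) (v : Fin N → ℝ) (J : Set (Fin N)) (μ K : ℝ) : Prop :=
  ∃ (κ : Type) (_ : Field κ) (_ : Algebra ℂ κ) (δ : Fin d → Derivation ℂ κ κ)
    (x : X.F →ₐ[ℂ] HahnSeries ℝ κ), Arc X.S X.p x ∧ (∀ l, Zs (x (X.t l))) ∧ Zs (x X.w) ∧
    (Jx δ fun l => x (X.t l)).orderTop ≤ (a : WithTop ℝ) ∧ (x X.dd).orderTop = ρ ∧
    (x (X.del q)).orderTop = E ∧ (∀ j ∉ J, (x (X.z j)).orderTop = v j) ∧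
    (∀ j ∈ J, Ge K (x (X.z j))) ∧ ∀ l, Ge μ (x (X.t l))

end Dt

variable {d N : ℕ}

/-- the weights of the linear forms -/
def vv (q n : ℕ) (c : Fin N → ℕ) : Ix N → ℤ
  | none => -((n / q : ℕ) + ∑ j, (c j : ℤ))
  | some none => (n / q : ℕ)
  | some (some j) => c j

/-- the limit of the equations -/
def LP (𝒰 : Ultrafilter ℕ) (X : ℕ → Dt d N) : MvPowerSeries (Fin (d + 1)) (UK 𝒰) :=
  ulim 𝒰 fun i => (X i).P

/-- the limits of the numerators -/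
def LF (𝒰 : Ultrafilter ℕ) (X : ℕ → Dt d N) (b : Ix N) : MvPowerSeries (Fin (d + 1)) (UK 𝒰) :=
  ulim 𝒰 fun i => (X i).Fs b

/-- a statement on sequences of levels -/
def ForL (T : ∀ (d N _ : ℕ) (_ : Fin N → ℤ) (_ : Ultrafilter ℕ) (_ : ℕ → Dt d N), Prop) : Prop :=
  ∀ (d N q k₀ : ℕ) (κv : Fin N → ℤ) (𝒰 : Ultrafilter ℕ) (X : ℕ → Dt d N), 0 < d → 0 < q →
    (∀ᶠ i in (𝒰 : Filter ℕ), (X i).Pk q k₀ κv) → T d N q κv 𝒰 X

/-! ### the rows at one level -/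

/-- **SK**: the projection -/
def SK : Prop := ∀ d N : ℕ, 0 < d → ∃ k₀ : ℕ, ∀ (F : Type) [Field F] [Algebra ℂ F]
  (A : Subgroup (F ≃ₐ[ℂ] F)) (S : Subalgebra ℂ F) (p : Ideal S) (z : Fin N → F) (y : Fin d → F),
    Pt d A S p z → Frm y → KL S p y → ∃ t w Φ, Sk (d := d) k₀ S p t w Φ

/-- **KAB**: the character of the pair is bounded -/
def KAB : Prop := ∀ (d N q k₀ : ℕ), 0 < q → ∃ B : ℕ, ∀ (F : Type) [Field F] [Algebra ℂ F]
  (A : Subgroup (F ≃ₐ[ℂ] F)) (S : Subalgebra ℂ F) (p : Ideal S) (z : Fin N → F) (y : Fin d → F)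
  (h : F) t w Φ, Hp q A S p z y h → (∀ R, Cen S p R → 0 ≤ ld y q h R) →
    Sk (d := d) k₀ S p t w Φ → ∃ κv : Fin N → ℤ, (∀ j, |κv j| ≤ B) ∧ Fix A (h * ∏ j, z j ^ κv j)

/-- **NUM**: the numerators -/
def NUM : Prop := ∀ (d N q k₀ : ℕ) (κv : Fin N → ℤ) (F : Type) [Field F] [Algebra ℂ F]
  (A : Subgroup (F ≃ₐ[ℂ] F)) (S : Subalgebra ℂ F) (p : Ideal S) (z : Fin N → F) (y : Fin d → F)
  (D : Fin d → Derivation ℂ F F) (h : F) t w Φ, 0 < q → Lev q κv A S p z y D h t w Φ →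
    Sk k₀ S p t w Φ → (∀ R, Cen S p R → 0 ≤ ld y q h R) →
    ∃ s G, Dt.Pk ⟨F, A, S, p, z, y, D, h, t, w, Φ, s, G⟩ q k₀ κv

/-- **LDT**: the log discrepancy in terms of the projection -/
def LDT : Prop := ∀ (d N q k₀ : ℕ) (κv : Fin N → ℤ) (X : Dt d N), 0 < q → X.Pk q k₀ κv →
  X.dd ≠ 0 ∧ X.del q ≠ 0 ∧ ∀ R, ld X.y q X.h R = 1 + kap X.t R - R.ord (X.del q) / q

/-- **APB**: the place of an exact integral arc -/
def APB : Prop := ∀ (d : ℕ) (F κ : Type) [Field F] [Algebra ℂ F] [Field κ] [Algebra ℂ κ]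
  (S : Subalgebra ℂ F) (p : Ideal S) (t : Fin d → F) (w : F) Φ (δ : Fin d → Derivation ℂ κ κ)
  (x : F →ₐ[ℂ] HahnSeries ℝ κ) (a : ℝ), 0 < d → Aff d S → Prj S p t w Φ → Arc S p x →
    (∀ l, Zs (x (t l))) → Zs (x w) → (Jx δ fun l => x (t l)).orderTop ≤ (a : WithTop ℝ) →
    ∃ (E : Pl F) (e : ℝ), Cen S p E ∧ 0 < e ∧ e * (1 + kap t E) ≤ a ∧
      ∀ f, f ≠ 0 → (x f).orderTop = (e * E.ord f : ℝ)

/-- **LCI**: from the region to all places -/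
def LCI : Prop := ∀ (d N q k₀ n k K : ℕ) (κv : Fin N → ℤ) (X : Dt d N) (C : Finset (Fin N → ℕ))
  (c₀ : ℝ), 0 < d → 0 < q → 0 < n → 0 < c₀ → C.Nonempty → X.Pk q k₀ κv → KL X.S X.p X.y →
    X.UpA q n C c₀ k K → X.AtB q n C c₀ k K →
    ∀ v, Cen X.S X.p v → ∃ c ∈ C, ∑ j, (c j : ℝ) * v.ord (X.z j) < n * ld X.y q X.h v

/-! ### the rows on the limit -/

/-- **NZ**: the limit has an arc -/
def NZ : Prop := ForL fun _ _ _ _ 𝒰 X => LP 𝒰 X ≠ 0 ∧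
  ∃ a Z o μ, HA (LP 𝒰 X) Fin.succ (LF 𝒰 X) a Z o μ ∧ none ∉ Z ∧ some none ∉ Z

/-- **UP**: from the limit up to the region of the levels -/
def UP : Prop := ForL fun _ N q _ 𝒰 X => ∀ (n k K : ℕ) (C : Finset (Fin N → ℕ)) (c₀ : ℝ), q ∣ n →
  0 ≤ c₀ → (∀ a Z o μ, HA (LP 𝒰 X) Fin.succ (LF 𝒰 X) a Z o μ → none ∉ Z → some none ∉ Z →
    ∃ c ∈ C, (∀ b ∈ Z, vv q n c b = 0) ∧ ∑ b, vv q n c b * o b + c₀ * μ ≤ n * a) →
  ∀ᶠ i in (𝒰 : Filter ℕ), (X i).UpA q n C c₀ k K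

/-- **DN**: from the limit down to exact arcs of the levels -/
def DN : Prop := ForL fun _ _ q _ 𝒰 X => ∀ a Z o μ, IB (LP 𝒰 X) Fin.succ (LF 𝒰 X) a Z o μ →
  none ∉ Z → some none ∉ Z → ∀ K : ℝ, ∀ᶠ i in (𝒰 : Filter ℕ),
    (X i).Ar q a (o none) (o (some none) - o none) (fun j => o (some (some j)) - o none)
      {j | some (some j) ∈ Z} μ K

/-- **COR**: the assembly -/
def COR : Prop := SK → KAB → NUM → LDT → APB → LCI → NZ → UP → DN → TWH → LTE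

end Vale.Agent.P283R.Bc
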