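import Vale.Agent.P283R.Be2.GlU
import Vale.Agent.P283R.Be2.Cc
import Vale.Agent.P283R.Bh.Ver
import Vale.Agent.P283R.Tp.Sem
import Vale.Agent.P283R.Tp.Fre
import Vale.Agent.P283R.Tp.Kap
import Vale.Agent.P283R.Tp.Hrt
import Vale.Agent.P283R.Tp.Ram
import Vale.Agent.P283R.Tp.A0r

/-!
# P283R, bounded embedding dimension: from closed points to all points
-/

set_option linter.all false

attribute [-instance] HahnSeries.powerSeriesAlgebra

open Set
open Vale.Agent.P285N.Brep (jac Fr)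
open Vale.Agent.P297Z

noncomputable section

namespace Vale.Agent.P283R.Bgl

open Vale.Agent.P287D

variable {F : Type} [Field F] [Algebra ℂ F] {d r N E : ℕ} {A : Subgroup (F ≃ₐ[ℂ] F)}
  {S : Subalgebra ℂ F} {p : Ideal S}

/-- an invariant frame which contains `t` -/
theorem inv_frame {y : Fin (d + r) → F} (hy : AlgebraicIndependent ℂ y) (fy : ∀ i, Fix A (y i))
    {t : Fin r → F} (ht : AlgebraicIndependent ℂ t) (ft : ∀ i, Fix A (t i)) :
    ∃ w : Fin d → F, (∀ i, Fix A (w i)) ∧ AlgebraicIndependent ℂ (Fin.append w t) := by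
  let K := IntermediateField.fixedField A
  have mem : ∀ a, Fix A a → a ∈ K := fun a ha =>
    (IntermediateField.mem_fixedField_iff A a).2 ha
  have hy' : AlgebraicIndependent ℂ fun i => (⟨y i, mem _ (fy i)⟩ : K) :=
    AlgebraicIndependent.of_comp K.val hy
  have ht' : AlgebraicIndependent ℂ fun i => (⟨t i, mem _ (ft i)⟩ : K) :=
    AlgebraicIndependent.of_comp K.val ht
  obtain ⟨v, hv⟩ := Cb.ext_ind ht' d (by simpa using hy'.cardinalMk_le_trdeg)
  refine ⟨fun i => v i, fun i => (IntermediateField.mem_fixedField_iff A _).1 (v i).2,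
    Cb.ind_append.2 ?_⟩
  have e : (Sum.elim (fun i => (v i : F)) t) =
      K.val ∘ Sum.elim v fun i => (⟨t i, mem _ (ft i)⟩ : K) := by
    funext i
    rcases i with i | i <;> rfl
  rw [e]
  exact hv.map' K.val.injective

/-- a semi-invariant equation -/
theorem semi (hA : Aff N S) (nor : IsIntegrallyClosed S) (fin : Finite A) (st : Stab A S)
    (hp : p.IsPrime) (hI : ∀ σ ∈ A, Inr S p σ) {h : F} (h0 : h ≠ 0)
    (inv : ∀ σ ∈ A, ∀ R, PDat S p R → R.ord (σ h) = R.ord h) :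
    ∃ h', h' ≠ 0 ∧ Eig A h' ∧ ∀ R, PDat S p R → R.ord h' = R.ord h := by
  classical
  have := Fintype.ofFinite A
  obtain ⟨s, t, e⟩ := hA.fr h
  have t0 : (t : F) ≠ 0 := fun z => h0 (by rw [e, z, div_zero])
  have fu := Fre.fix_prod (G := A) (t : F)
  set u := ∏ σ : A, σ.1 (t : F) with hu
  have u0 : u ≠ 0 := Finset.prod_ne_zero_iff.2 fun σ _ => (map_ne_zero _).2 t0
  have mS : h * u ∈ S := by
    rw [hu, ← Finset.mul_prod_erase _ _ (Finset.mem_univ (1 : A)), e, ← mul_assoc,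
      show (1 : A).1 (t : F) = t from rfl, div_mul_cancel₀ _ t0]
    exact mul_mem s.2 (prod_mem fun σ _ => st σ σ.2 _ t.2)
  obtain ⟨k, _, _, π, hπ⟩ := SemP.exists_pi S p
  obtain ⟨h', -, e', x, x0, hx⟩ := SemP.avg (π := π) st (mul_ne_zero h0 u0) mS (fun σ hσ a => by
    obtain ⟨b, hb, z⟩ := hI σ hσ a
    exact ⟨a + b, by rw [Subalgebra.coe_add, ← z, add_sub_cancel],
      by rw [map_add, (hπ b).2 hb, add_zero]⟩) fun σ hσ => by
    obtain ⟨a, b, hb, z⟩ := (hrt N F S hA nor).2.2.1 p hp (σ (h * u) / (h * u)) fun R hR => by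
      refine Cb.mem_ord ?_
      rw [map_mul, fu σ hσ, mul_div_mul_right _ _ u0, Pl.ord_div _ ((map_ne_zero _).2 h0) h0,
        inv σ hσ R hR, sub_self]
    exact ⟨_, a, b, fun w => hb ((hπ b).1 w), z, rfl⟩
  have n0 : h' ≠ 0 := fun z => hx.ne x0 (by rw [z, zero_div])
  refine ⟨h' / u, div_ne_zero n0 u0, fun σ hσ => ?_, fun R hR => ?_⟩
  · obtain ⟨c, hc⟩ := e' σ hσ
    exact ⟨c, by rw [map_div₀, hc, fu σ hσ, smul_div_assoc]⟩
  · have := hx.ord hπ x0 hR
    rw [Pl.ord_div _ n0 (mul_ne_zero h0 u0), Pl.ord_mul _ h0 u0] at this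
    rw [Pl.ord_div _ n0 u0]
    omega

/-- generators which are not zero -/
theorem Pae.nz {x : Fin E → F} {t : Fin r → S} (hp : Pae N S p x t) (hx : ∀ j, Eig A (x j))
    {P : Pl F} (hP : Cen S p P) :
    ∃ x' : Fin E → F, Pae N S p x' t ∧ (∀ j, Eig A (x' j)) ∧ ∀ j, x' j ≠ 0 := by
  classical
  obtain ⟨i, hi⟩ : ∃ i, x i ≠ 0 := by
    by_contra hn
    push Not at hn
    obtain ⟨s, u, e⟩ := hp.aff.fr P.t⁻¹
    have : P.t⁻¹ ∈ P.ring := Gf.lo_ring hP ⟨s, u, fun m => by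
      obtain ⟨c, -, z⟩ := hp.gen u m
      simp only [hn, mul_zero, Finset.sum_const_zero] at z
      rw [z, div_zero] at e
      exact inv_ne_zero P.t_ne e, e⟩
    have := Pl.ord_nonneg_of_mem _ this
    rw [Pl.ord_inv, P.ord_t] at this
    omega
  refine ⟨fun j => if x j = 0 then x i else x j, ⟨hp.aff, hp.pri, fun j => ?_, fun a ha => ?_,
    hp.ind, hp.alg⟩, fun j => ?_, fun j => ?_⟩
  · split_ifs
    · exact hp.mem i
    · exact hp.mem j
  · obtain ⟨c, c1, c2⟩ := hp.gen a ha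
    refine ⟨fun j => if x j = 0 then 0 else c j, fun j => ?_,
      c2.trans (Finset.sum_congr rfl fun j _ => ?_)⟩
    · dsimp only
      split_ifs
      · exact Gf.lo_of hp.pri 0
      · exact c1 j
    · dsimp only
      split_ifs with z
      · rw [z, mul_zero, zero_mul]
      · rfl
  · dsimp only
    split_ifs
    · exact hx i
    · exact hx j
  · dsimp only
    split_ifs with z
    · exact hi
    · exact z

/-- change of the frame -/
theorem ld_chg {y z : Fin N → F} {j : F} (j0 : j ≠ 0) (kj : ∀ P, kap y P = kap z P + P.ord j)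
    {m : ℕ} (m0 : 0 < m) {g : F} (g0 : g ≠ 0) (P : Pl F) : ld z m (g / j ^ m) P = ld y m g P := by
  have : (m : ℝ) ≠ 0 := Nat.cast_ne_zero.2 m0.ne'
  rw [ld, ld, kj, Pl.ord_div _ g0 (pow_ne_zero _ j0), Pl.ord_pow]
  push_cast
  field_simp
  ring

/-- **the glue** -/
theorem abp_of (L : Bc.LTE) : Bh.ABP := by
  intro N E Q ε hQ hε
  obtain ⟨J, hJ⟩ := eige E
  choose n₀ pos H using fun d => L (d + 1) E Q ε d.succ_pos hQ hε
  refine ⟨J, ∏ k ∈ Finset.range N, n₀ k, Finset.prod_pos fun k _ => pos k, ?_⟩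
  intro n hn dn dQ F _ _ G S p q y m g h pr pri hq le em cr bd hy _ kl
  obtain ⟨A, r, x₀, t, idx, -, pa, hx₀, ht⟩ := hJ N F S G p q pr.aff pr.fin pr.stab pri hq le em
  refine ⟨A, idx, fun P hP => ?_⟩
  obtain ⟨x, par, hx, x0⟩ := pa.nz hx₀ hP
  have fA : Finite A := by
    have := pr.fin
    exact Finite.of_injective _ (Subgroup.inclusion_injective idx.le)
  have sA : Stab A S := fun σ hσ => pr.stab σ (idx.le hσ)
  have fG : ∀ a, Fix G a → Fix A a := fun a fa σ hσ => fa σ (idx.le hσ)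
  have it : AlgebraicIndependent ℂ fun i => (t i : F) := algebraicIndependent_iff.2 fun u e =>
    par.ind u (by
      have : (MvPolynomial.aeval t u : S) = 0 := Subtype.ext
        ((MvPolynomial.comp_aeval_apply t S.val u).trans e)
      exact this ▸ zero_mem p)
  obtain ⟨d, rfl⟩ : ∃ d, N = d + r := by
    have := it.cardinalMk_le_trdeg
    rw [pr.aff.ff.trdeg, Cardinal.mk_fin, Nat.cast_le] at this
    exact ⟨N - r, by omega⟩
  obtain ⟨w, fw, hi⟩ := inv_frame pr.fr.ind (fun i => fG _ (pr.fy i)) it fun i => fG _ (ht i)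
  set z : Fin (d + r) → F := Fin.append w fun i => (t i : F) with hz
  obtain ⟨D, fr⟩ := Cb.fr_of pr.aff.ff hi
  obtain ⟨D', fr'⟩ := pr.fr
  obtain ⟨j0, kj, -⟩ := kap' _ F z y D D' fr fr'
  set j := jac D y with hj
  have fj : Fix A j := fun σ hσ => by
    have e := P285N.Brep.chain ℂ F _ _ D fr σ y
    have e1 : (fun i => σ (y i)) = y := funext fun i => pr.fy i σ (idx.le hσ)
    have e2 : (fun i => σ (z i)) = z := funext fun i => by
      refine Fin.addCases (fun i => ?_) (fun i => ?_) i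
      · rw [hz, Fin.append_left, fw i σ hσ]
      · rw [hz, Fin.append_right, ht i σ (idx.le hσ)]
    rw [e1, e2, Cb.jac_self fr, mul_one] at e
    exact e.symm
  have up : ∀ R, PDat S p R → PDat S q R := fun R ⟨a, b, c⟩ => ⟨a, b.trans le, c⟩
  have g0 := pr.ne
  have m0 : (m : ℝ) ≠ 0 := Nat.cast_ne_zero.2 pr.pos.ne'
  have Q0 : (Q : ℝ) ≠ 0 := Nat.cast_ne_zero.2 hQ.ne'
  have n0 : (n : ℝ) ≠ 0 := Nat.cast_ne_zero.2 hn.ne'
  obtain ⟨f, f0, ef, of⟩ := semi pr.aff pr.nor fA sA pri idx.inr cr.1 fun σ hσ R hR => by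
    obtain ⟨P', h1, h2, -⟩ := (kap' _ F y y D' D' fr' fr').2.2 σ R
    have h4 := cr.2 P' (up _ (SemP.pdat_conj sA hσ (idx.inr σ hσ) hR h1 h2))
    rw [h2, h2, pr.fg σ (idx.le hσ), cr.2 R (up _ hR), div_left_inj' Q0, Int.cast_inj] at h4
    exact h4.symm
  have eR : ∀ R, PDat S p R → (R.ord g : ℝ) / m = R.ord f / Q := fun R hR => by
    rw [of R hR, cr.2 R (up _ hR)]
  have ou : ∀ P : Pl F, P.ord (g ^ Q / f ^ m) = Q * P.ord g - m * P.ord f := fun P => by
    rw [Pl.ord_div _ (pow_ne_zero _ g0) (pow_ne_zero _ f0), Pl.ord_pow, Pl.ord_pow]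
  have oR : ∀ R, PDat S p R → R.ord (g ^ Q / f ^ m) = 0 := fun R hR => by
    have := eR R hR
    field_simp at this
    have e : ((Q * R.ord g - m * R.ord f : ℤ) : ℝ) = 0 := by
      push_cast; linarith
    rw [ou]; exact_mod_cast e
  have Hr := (hrt _ F S pr.aff pr.nor).2.2.1 p pri
  have eP : ∀ P, Cen S p P → (P.ord g : ℝ) / m = P.ord f / Q := fun P hP => by
    have e := Pl.ord_unit P.toPlace (Gf.lo_ring hP (Hr _ fun R hR => Cb.mem_ord (oR R hR).ge))
      (Gf.lo_ring hP (Hr _ fun R hR => Cb.inv_mem_ord (oR R hR)))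
    rw [ou] at e
    have e' : (Q : ℝ) * P.ord g - m * P.ord f = 0 := by exact_mod_cast e
    field_simp
    linarith
  have lq : ∀ P, (P.ord g : ℝ) / m = P.ord f / Q → ld z Q (f / j ^ Q) P = ld y m g P :=
    fun P e => by rw [ld_chg j0 kj hQ f0, ld, ld, e]
  have f1 : f / j ^ Q ≠ 0 := div_ne_zero f0 (pow_ne_zero _ j0)
  obtain ⟨m₁, g₁, m1, g1, k1, k2⟩ := kl
  obtain ⟨c, fc, lt⟩ := tr (n := n) (q := Q) (f := f / j ^ Q)
    (fun F' _ _ A' S' p' x' y' φ pt fin _ fr fy h0 eh bd dic R hR => by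
      rcases d with _ | d
      · exact (Cb.no_pl pt.aff.ff R).elim
      refine H d n hn ((Finset.dvd_prod_of_mem n₀ (Finset.mem_range.2 (by omega))).trans dn) dQ
        F' A' S' p' x' y' _ ⟨pt, fr, fy, h0, eh, bd, m₁, φ (g₁ / j ^ m₁), m1,
          (map_ne_zero φ).2 (div_ne_zero g1 (pow_ne_zero _ j0)), fun U hU => ?_,
          fun a l U hU => ?_⟩ fin (fun U hU e e0 dv => ?_) R hR
      · obtain ⟨a, l, cU, lo⟩ := hU
        obtain ⟨-, -, V, -, -, e, pd, -⟩ := dic a l U cU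
        rw [e, ld_chg j0 kj m1 g1]
        exact k1 V (up _ (pd ⟨a, l, cU, lo⟩))
      · obtain ⟨b, lb, V, cV, -, e, -⟩ := dic a l U hU
        rw [e, ld_chg j0 kj m1 g1]
        exact k2 b (lb.trans le) V cV
      · obtain ⟨b, -, V, cV, eb, e1, -, dv'⟩ := dic p' le_rfl U hU
        obtain rfl := eb rfl
        rw [e1, lq V (eP V cV)]
        exact hy V cV e e0 fun a a0 fa => dv' e dv a a0 (fG a fa))
    par pr.nor x0 hi fA idx.inr hx (fun i => fG _ (ht i)) fw f1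
    (fun σ hσ => by
      obtain ⟨c, hc⟩ := ef σ hσ
      exact ⟨c, by rw [map_div₀, map_pow, hc, fj σ hσ, smul_div_assoc]⟩)
    (fun R hR => (lq R (eR R hR)).trans_le (bd R (up _ hR))) P hP
  have c0 : (∏ i, x i ^ c i) ≠ 0 := Finset.prod_ne_zero_iff.2 fun i _ => pow_ne_zero _ (x0 i)
  have oφ : ∀ R : Pl F, (R.ord ((∏ i, x i ^ c i) * (f / j ^ Q) ^ (n / Q) * j ^ n) : ℝ) / n =
      (∑ i, (c i : ℝ) * R.ord (x i)) / n + R.ord f / Q := fun R => by
    rw [Pl.ord_mul _ (mul_ne_zero c0 (pow_ne_zero _ f1)) (pow_ne_zero _ j0),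
      Pl.ord_mul _ c0 (pow_ne_zero _ f1), A0r.ord_prod R _ _ fun i => pow_ne_zero _ (x0 i),
      Pl.ord_pow, Pl.ord_pow, Pl.ord_div _ f0 (pow_ne_zero _ j0)]
    simp only [Pl.ord_pow]
    simp only [Int.cast_add, Int.cast_mul, Int.cast_sub, Int.cast_sum, Int.cast_natCast]
    rw [Nat.cast_div dQ Q0]
    field_simp
    ring
  refine ⟨(∏ i, x i ^ c i) * (f / j ^ Q) ^ (n / Q) * j ^ n,
    mul_ne_zero (mul_ne_zero c0 (pow_ne_zero _ f1)) (pow_ne_zero _ j0), fun σ hσ => ?_,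
    fun R hR => ?_, ?_⟩
  · rw [map_mul, fc σ hσ, map_pow, fj σ hσ]
  · rw [oφ, eR R hR]
    obtain ⟨a, -, cq, -⟩ := hR
    have : 0 ≤ (∑ i, (c i : ℝ) * R.ord (x i)) / n := by
      refine div_nonneg (Finset.sum_nonneg fun i _ => mul_nonneg (Nat.cast_nonneg _) ?_)
        (Nat.cast_nonneg _)
      obtain ⟨s, -, e⟩ := par.mem i
      exact_mod_cast Pl.ord_nonneg_of_mem R.toPlace (e ▸ (cq s).1)
    linarith
  · rw [ld_chg j0 kj hQ f0, ld] at lt
    rw [ld, oφ]
    linarith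

/-- the birational form -/
theorem abe_of (L : Bc.LTE) : Bx.ABE := (abp_of L).abe

end Vale.Agent.P283R.Bgl
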