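import Vale.Agent.P283R.Be2.Sk0
import Vale.Agent.P283R.H.L5

/-!
# P283R, block BE: a pair which is klt near a point is klt after a twist
-/

open Set

noncomputable section

namespace Vale.Agent.P283R.Sk1

open Vale.Agent.P287D Vale.Agent.P283M Vale.Agent.P297Z

/-- **TWI** -/
theorem twi : TWI := by
  classical
  intro n K _ _ S p y m h v hK hp hy h0 hv klt
  subst hv
  obtain ⟨f, -, e⟩ := Cb.cn_kap hK hy
  have ne : ∀ a : {a : Algebra.adjoin ℂ (v : Set K) // a ∉ p}, (a.1 : K) ≠ 0 := fun a z =>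
    a.2 (by rw [show a.1 = 0 from Subtype.ext z]; exact p.zero_mem)
  choose k k0 hk using fun a : {a : Algebra.adjoin ℂ (v : Set K) // a ∉ p} => pole a.1.2 (ne a)
  let G : {a : Algebra.adjoin ℂ (v : Set K) // a ∉ p} → BD K := fun a =>
    inf v + (k a)⁻¹ • dv (a.1 : K)
  have eG : ∀ a R, k a * G a R = k a * inf v R + R.ord (a.1 : K) := fun a R => by
    have := (k0 a).ne'
    simp only [G, Pi.add_apply, Pi.smul_apply, smul_eq_mul, dv]
    field_simp
  have G0 : ∀ a R, 0 ≤ G a R := fun a R =>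
    (mul_nonneg_iff_of_pos_left (k0 a)).1 (by rw [eG]; linarith [hk a R])
  have hG : ∀ a, Rep (inf v) (G a) := fun a =>
    ⟨G0 a, by simpa only [G, add_sub_cancel_left] using Submodule.smul_mem _ _ (dv_mem_Prn _)⟩
  have ed : ∀ R, dsc n (dv f + (m : ℝ)⁻¹ • dv h) R = ld y m h R - 1 := fun R => by
    simp only [dsc, e, ld, Pi.add_apply, Pi.sub_apply, Pi.smul_apply, smul_eq_mul, dv]
    ring
  have o1 : (1 : Algebra.adjoin ℂ (v : Set K)) ∉ p := (Ideal.ne_top_iff_one p).1 hp.ne_top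
  obtain ⟨t, c, c0, hc⟩ := H.klt_sub hK (Γ := dv f + (m : ℝ)⁻¹ • dv h)
    (add_mem (dv_mem_Car _) (Submodule.smul_mem _ _ (dv_mem_Car _))) (Kl.inf_smp v).car hG
    fun Q z => by
      have i0 : inf v Q = 0 := by
        have := eG ⟨1, o1⟩ Q
        rw [z, mul_zero] at this
        simpa [(k0 _).ne'] using this.symm
      have ov : Ov v Q := Kl.inf_zero.1 i0
      have := klt Q ⟨fun s hs => Br.adj_le ov hs, p, rfl, fun a r => by_contra fun w => by
        have b := eG ⟨a, w⟩ Q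
        rw [z, i0, mul_zero, zero_add] at b
        have o := ((Bm.rd_zero_iff Q (Br.adj_le ov a.2)).1 r).resolve_left (ne ⟨a, w⟩)
        have : (0 : ℝ) < Q.ord (a : K) := by exact_mod_cast o
        exact this.ne b⟩
      rw [ed]; linarith
  obtain ⟨M, hM⟩ : ∃ M : ℕ, ∀ a ∈ t, c ≤ M * k a := by
    obtain ⟨b, hb⟩ := (t.image fun a => c / k a).exists_le
    obtain ⟨M, hM⟩ := exists_nat_ge b
    exact ⟨M, fun a ha => (div_le_iff₀ (k0 a)).1 ((hb _ (Finset.mem_image_of_mem _ ha)).trans hM)⟩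
  refine ⟨∏ a ∈ t, a.1 ^ M, fun w => ?_, ∑ a ∈ t, M * k a,
    Finset.sum_nonneg fun a _ => mul_nonneg M.cast_nonneg (k0 a).le, fun R => ?_⟩
  · obtain ⟨a, -, w⟩ := (Ideal.IsPrime.prod_mem_iff (hp := hp)).1 w
    exact a.2 (hp.mem_of_pow_mem _ w)
  have eo : (R.ord ((∏ a ∈ t, a.1 ^ M : Algebra.adjoin ℂ (v : Set K)) : K) : ℝ) =
      ∑ a ∈ t, (M : ℝ) * R.ord (a.1 : K) := by
    rw [SubmonoidClass.coe_finsetProd, R.ord_prod t fun a _ => by
      rw [Subalgebra.coe_pow]; exact pow_ne_zero _ (ne a), Int.cast_sum]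
    exact Finset.sum_congr rfl fun a _ => by
      rw [Subalgebra.coe_pow, Pl.ord_pow]; push_cast; ring
  have a := hc R
  have ee : dsc n (dv f + (m : ℝ)⁻¹ • dv h - c • ∑ i ∈ t, G i) R =
      ld y m h R - 1 + ∑ i ∈ t, c * G i R := by
    rw [← ed, ← Finset.mul_sum]
    simp only [dsc, Pi.sub_apply, Pi.smul_apply, smul_eq_mul, Finset.sum_apply]
    ring
  have le : ∑ i ∈ t, c * G i R ≤ ∑ i ∈ t, (M * k i * inf v R + M * R.ord (i.1 : K)) :=
    Finset.sum_le_sum fun i hi => (mul_le_mul_of_nonneg_right (hM i hi) (G0 i R)).trans_eq (by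
      rw [mul_assoc, eG]; ring)
  rw [Finset.sum_add_distrib, ← Finset.sum_mul] at le
  rw [eo]
  linarith

end Vale.Agent.P283R.Sk1
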