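import Vale.Agent.P283R.Be2.SkL45
import Vale.Agent.P283R.Be2.SkT
import Vale.Agent.P283R.Ws.Gsk

/-!
# P283R, block BE: the theorem of Skoda on a klt germ
-/

noncomputable section

namespace Vale.Agent.P283R.Sk1.A45

theorem gskp : Ws.GSKp := Ws.gskp_of L45.blow twi

theorem gsk : Ws.GSK := gskp.gsk

theorem sk1 : SK1 := fun n k K _ _ S p y m h t₀ t a b c d e f g i j x hx => by
  simpa using gskp n k K S p y m h t (fun _ => t₀) a b c d e f (fun _ => g) i j x hx

end Vale.Agent.P283R.Sk1.A45
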