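import Vale.Agent.P283R.Be2.RSk
import Vale.Agent.P283R.Be2.SkA

/-!
# P283R, block BE: the row `SK`, unconditional
-/

namespace Vale.Agent.P283R.Bc

/-- **SK** -/
theorem sk : SK := sk_of Sk1.A45.sk1

end Vale.Agent.P283R.Bc
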