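import Vale.Agent.P283R.Co.St

/-!
# Hensel's lemma for Hahn arcs
-/

set_option linter.all false

attribute [-instance] HahnSeries.powerSeriesAlgebra

open MvPowerSeries

namespace Vale.Agent.P283R.Hh

open Vale.Agent.P283R.Co

section

variable {R : Type*} [CommRing R] {σ : Type*}

theorem cauchy {a : ℕ → HahnSeries ℝ R} {c δ : ℝ} (hδ : 0 ≤ δ)
    (h : ∀ k : ℕ, Ge (c + k * δ) (a (k + 1) - a k)) {n m : ℕ} (hm : n ≤ m) :
    Ge (c + n * δ) (a m - a n) := by
  induction m, hm using Nat.le_induction with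
  | base => rw [sub_self]; exact ge_zero _
  | succ m hm ih =>
    have h1 : (n : ℝ) * δ ≤ m * δ := mul_le_mul_of_nonneg_right (Nat.cast_le.2 hm) hδ
    have := ((h m).mono (s := c + n * δ) (by linarith)).add ih
    rwa [sub_add_sub_cancel] at this

/-- completeness -/
theorem lim {a : ℕ → HahnSeries ℝ R} {c δ : ℝ} (hδ : 0 < δ)
    (h : ∀ k : ℕ, Ge (c + k * δ) (a (k + 1) - a k)) :
    ∃ s : HahnSeries ℝ R, ∀ n : ℕ, Ge (c + n * δ) (s - a n) := by
  have ex : ∀ g : ℝ, ∃ n : ℕ, g < c + n * δ := fun g => by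
    obtain ⟨n, hn⟩ := exists_nat_gt ((g - c) / δ)
    rw [div_lt_iff₀ hδ] at hn
    exact ⟨n, by linarith⟩
  choose N hN using ex
  have key : ∀ (g : ℝ) (n : ℕ), g < c + n * δ → (a (N g)).coeff g = (a n).coeff g := fun g n hn => by
    rcases le_total n (N g) with k | k
    · have := ge_iff.1 (cauchy hδ.le h k) g hn
      rwa [HahnSeries.coeff_sub, sub_eq_zero] at this
    · have := ge_iff.1 (cauchy hδ.le h k) g (hN g)
      rw [HahnSeries.coeff_sub, sub_eq_zero] at this
      exact this.symm
  refine ⟨⟨fun g => (a (N g)).coeff g, ?_⟩, fun n => ge_iff.2 fun g hg => ?_⟩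
  · intro f
    by_contra hf
    push Not at hf
    have hm : ∀ n, (f n : ℝ) ∈ (a (N (f 0))).support := fun n => by
      have h1 : (f n : ℝ) ≤ f 0 := by
        rcases n.eq_zero_or_pos with rfl | hn
        · exact le_rfl
        · exact (not_le.1 (hf 0 n hn)).le
      have h2 := (f n).2
      rw [Function.mem_support, key _ (N (f 0)) (h1.trans_lt (hN _))] at h2
      exact h2
    obtain ⟨p, q, hpq, h'⟩ := (a (N (f 0))).isPWO_support fun n => ⟨f n, hm n⟩
    exact hf p q hpq h'
  · rw [HahnSeries.coeff_sub, sub_eq_zero]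
    exact key g n hg

variable [Finite σ]

/-- from polynomials to power series -/
theorem ge_of_poly {φ : MvPowerSeries σ R →+ HahnSeries ℝ R} {δ c r : ℝ} (hδ : 0 < δ)
    (hφ : ∀ (k : ℕ) F, (k : ℕ∞) ≤ F.order → Ge (k * δ - c) (φ F))
    (h : ∀ p : MvPolynomial σ R, Ge r (φ p)) (F : MvPowerSeries σ R) : Ge r (φ F) := by
  obtain ⟨k, hk⟩ := exists_nat_gt ((r + c) / δ)
  rw [div_lt_iff₀ hδ] at hk
  have := ((hφ k _ (order_sub_trunc F k)).mono (s := r) (by linarith)).add (h (truncTotal k F))
  rwa [← map_add, sub_add_cancel] at this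

theorem two {x y : σ → HahnSeries ℝ R} (hx : Pos x) (hy : Pos y) :
    ∃ δ > 0, (∀ j, Ge δ (x j)) ∧ ∀ j, Ge δ (y j) := by
  obtain ⟨a, a0, ha⟩ := hx.exists_ge
  obtain ⟨b, b0, hb⟩ := hy.exists_ge
  exact ⟨min a b, lt_min a0 b0, fun j => (ha j).mono (min_le_left _ _),
    fun j => (hb j).mono (min_le_right _ _)⟩

/-- evaluation is Lipschitz -/
theorem lip {x y : σ → HahnSeries ℝ R} (hx : Pos x) (hy : Pos y) {M : ℝ}
    (h : ∀ j, Ge M (y j - x j)) (F : MvPowerSeries σ R) : Ge M (ev y F - ev x F) := by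
  obtain ⟨δ, hδ, h1, h2⟩ := two hx hy
  refine ge_of_poly (φ := evA y - evA x) (c := 0) hδ (fun k F hF => ?_) (fun p => ?_) F
  · rw [sub_zero]
    exact (ge_ev hδ h2 hF).sub (ge_ev hδ h1 hF)
  · change Ge M (ev y (p : MvPowerSeries σ R) - ev x (p : MvPowerSeries σ R))
    induction p using MvPolynomial.induction_on with
    | C c => rw [MvPolynomial.coe_C, ev_C hx, ev_C hy, sub_self]; exact ge_zero _
    | add p q hp hq =>
      rw [MvPolynomial.coe_add, ev_add, ev_add, add_sub_add_comm]; exact hp.add hq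
    | mul_X p i hp =>
      rw [MvPolynomial.coe_mul, MvPolynomial.coe_X, ev_mul hx, ev_mul hy, ev_X hx, ev_X hy]
      have := (hp.mul0 ((h2 i).mono hδ.le)).add
        (Ge.zero_mul (ge_ev_zero (x := x) (p : MvPowerSeries σ R)) (h i))
      refine (congrArg (Ge M) ?_).mp this
      ring

end

section

variable {R : Type*} [CommRing R] {σ : Type*} [Fintype σ]

/-- Taylor's formula of the second order -/
theorem tay2 {x y : σ → HahnSeries ℝ R} (hx : Pos x) (hy : Pos y) {M : ℝ}
    (h : ∀ j, Ge M (y j - x j)) (F : MvPowerSeries σ R) :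
    Ge (M + M) (ev y F - ev x F - ∑ j, ev x (pderiv R j F) * (y j - x j)) := by
  classical
  obtain ⟨δ, hδ, h1, h2⟩ := two hx hy
  let φ : MvPowerSeries σ R →+ HahnSeries ℝ R := AddMonoidHom.mk'
    (fun F => ev y F - ev x F - ∑ j, ev x (pderiv R j F) * (y j - x j)) fun F G => by
      simp only [map_add, ev_add, add_mul, Finset.sum_add_distrib]; ring
  refine ge_of_poly (φ := φ) (c := 0) hδ (fun k F hF => ?_) (fun p => ?_) F
  · rw [sub_zero]
    refine ((ge_ev hδ h2 hF).sub (ge_ev hδ h1 hF)).sub (Ge.sum fun j _ => ?_)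
    rcases k with _ | k
    · simpa using (ge_ev_zero _).mul0 (((h2 j).sub (h1 j)).mono hδ.le)
    · refine ((ge_ev hδ h1 (order_pderiv j hF)).mul ((h2 j).sub (h1 j))).mono (le_of_eq ?_)
      push_cast; ring
  · change Ge (M + M) (ev y (p : MvPowerSeries σ R) - ev x (p : MvPowerSeries σ R) -
      ∑ j, ev x (pderiv R j (p : MvPowerSeries σ R)) * (y j - x j))
    induction p using MvPolynomial.induction_on with
    | C c =>
      simp only [MvPolynomial.coe_C, ev_C hx, ev_C hy, sub_self, pderiv_C, ev_zero, zero_mul,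
        Finset.sum_const_zero]
      exact ge_zero _
    | add p q hp hq =>
      refine (congrArg (Ge (M + M)) ?_).mp (hp.add hq)
      simp only [MvPolynomial.coe_add, map_add, ev_add, add_mul, Finset.sum_add_distrib]; ring
    | mul_X p i hp =>
      have e : ∑ j, ev x (pderiv R j ((p : MvPowerSeries σ R) * X i)) * (y j - x j) =
          ev x (p : MvPowerSeries σ R) * (y i - x i) +
            x i * ∑ j, ev x (pderiv R j (p : MvPowerSeries σ R)) * (y j - x j) := by
        simp only [Derivation.leibniz, smul_eq_mul, ev_add, ev_mul hx, ev_X hx, add_mul,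
          Finset.sum_add_distrib, Finset.mul_sum]
        congr 1
        · rw [Finset.sum_eq_single i]
          · rw [pderiv_X_self, ← evH_apply hx 1, map_one, mul_one]
          · intro j _ hj
            rw [pderiv_X_of_ne hj.symm, ev_zero, mul_zero, zero_mul]
          · simp
        · exact Finset.sum_congr rfl fun j _ => mul_assoc _ _ _
      rw [MvPolynomial.coe_mul, MvPolynomial.coe_X, e, ev_mul hx, ev_mul hy, ev_X hx, ev_X hy]
      have := (Ge.zero_mul ((h1 i).mono hδ.le) hp).add
        ((lip hx hy h (p : MvPowerSeries σ R)).mul (h i))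
      refine (congrArg (Ge (M + M)) ?_).mp this
      ring

end

section

variable {K : Type*} [Field K]

theorem ne_of_ord {a : HahnSeries ℝ K} {s : ℝ} (h : a.orderTop = s) : a ≠ 0 := fun e => by
  rw [e, HahnSeries.orderTop_zero] at h
  exact WithTop.top_ne_coe h

theorem ord_inv {a : HahnSeries ℝ K} {s : ℝ} (h : a.orderTop = s) : a⁻¹.orderTop = (-s : ℝ) := by
  have a0 := ne_of_ord h
  obtain ⟨w, hw⟩ := WithTop.ne_top_iff_exists.1 (HahnSeries.orderTop_ne_top.2 (inv_ne_zero a0))
  have := HahnSeries.orderTop_mul a a⁻¹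
  rw [mul_inv_cancel₀ a0, HahnSeries.orderTop_one, h, ← hw, ← WithTop.coe_add] at this
  have h2 : (0 : ℝ) = s + w := by exact_mod_cast this
  rw [← hw, show w = -s by linarith]

theorem ge_div {a D : HahnSeries ℝ K} {s t : ℝ} (h : D.orderTop = s) (ha : Ge (t + s) a) :
    Ge t (a / D) := by
  have := ha.mul (le_of_eq (ord_inv h).symm)
  rwa [add_neg_cancel_right, ← div_eq_mul_inv] at this

/-- a small perturbation does not change the order -/
theorem ord_eq {a b : HahnSeries ℝ K} {s M : ℝ} (h : a.orderTop = s) (hb : Ge M (b - a))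
    (hs : s < M) : b.orderTop = s := by
  have h1 : a.orderTop < (b - a).orderTop := by
    rw [h]
    exact lt_of_lt_of_le (by exact_mod_cast hs) hb
  have := HahnSeries.orderTop_add_eq_left h1
  rwa [add_sub_cancel, h] at this

variable {σ : Type*} [Fintype σ] [DecidableEq σ] {x : σ → HahnSeries ℝ K} {j₀ : σ} {M s : ℝ}

theorem pos_upd (hx : Pos x) (hM : 0 < M) {y : HahnSeries ℝ K} (hy : Ge M (y - x j₀)) :
    Pos (Function.update x j₀ y) := fun j => by
  by_cases e : j = j₀
  · subst e
    obtain ⟨δ, hδ, h⟩ := exists_ge (hx j)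
    have := (hy.mono (min_le_left M δ)).add (h.mono (min_le_right M δ))
    rw [sub_add_cancel] at this
    rw [Function.update_self]
    exact lt_of_lt_of_le (by exact_mod_cast lt_min hM hδ) this
  · rw [Function.update_of_ne e]; exact hx j

theorem ge_upd {r : ℝ} {y y' : HahnSeries ℝ K} (h : Ge r (y' - y)) (j : σ) :
    Ge r (Function.update x j₀ y' j - Function.update x j₀ y j) := by
  by_cases e : j = j₀
  · subst e; rwa [Function.update_self, Function.update_self]
  · rw [Function.update_of_ne e, Function.update_of_ne e, sub_self]; exact ge_zero _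

theorem ge_upd0 {y : HahnSeries ℝ K} (h : Ge M (y - x j₀)) (j : σ) :
    Ge M (Function.update x j₀ y j - x j) := by
  have := ge_upd (x := x) (j₀ := j₀) h j
  rwa [Function.update_eq_self] at this

theorem nonneg_of_ord {F : MvPowerSeries σ K} (h : (ev x F).orderTop = s) : 0 ≤ s := by
  have := ge_ev_zero (x := x) F
  rw [Ge, h] at this
  exact_mod_cast this

/-- the chord method is a contraction -/
theorem ctr (hx : Pos x) {F : MvPowerSeries σ K} (hD : (ev x (pderiv K j₀ F)).orderTop = s)
    (hs : s < M) {y y' : HahnSeries ℝ K} (hy : Ge M (y - x j₀)) (hy' : Ge M (y' - x j₀)) {r : ℝ}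
    (hr : M ≤ r) (h : Ge r (y' - y)) :
    Ge (r + (M - s)) ((y' - ev (Function.update x j₀ y') F / ev x (pderiv K j₀ F)) -
      (y - ev (Function.update x j₀ y) F / ev x (pderiv K j₀ F))) := by
  have hM : 0 < M := (nonneg_of_ord hD).trans_lt hs
  have p := pos_upd hx hM hy
  have p' := pos_upd hx hM hy'
  have h1 := tay2 p p' (ge_upd (x := x) (j₀ := j₀) h) F
  rw [Finset.sum_eq_single j₀ (fun j _ e => by
    rw [Function.update_of_ne e, Function.update_of_ne e, sub_self, mul_zero]) (by simp),
    Function.update_self, Function.update_self] at h1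
  have h2 := (lip hx p (ge_upd0 hy) (pderiv K j₀ F)).mul h
  have h3 := ((h1.mono (s := M + r) (by linarith)).add h2).neg
  have h4 := ge_div (t := r + (M - s)) hD (h3.mono (by linarith))
  refine (congrArg (Ge _) ?_).mp h4
  have := ne_of_ord hD
  field_simp
  ring

/-- **Hensel's lemma** in one of the variables -/
theorem hen (hx : Pos x) (j₀ : σ) {F : MvPowerSeries σ K}
    (hD : (ev x (pderiv K j₀ F)).orderTop = s) (hF : Ge (M + s) (ev x F)) (hs : s < M) :
    ∃ y, Ge M (y - x j₀) ∧ ev (Function.update x j₀ y) F = 0 := by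
  have hM : 0 < M := (nonneg_of_ord hD).trans_lt hs
  let Φ : HahnSeries ℝ K → HahnSeries ℝ K := fun y =>
    y - ev (Function.update x j₀ y) F / ev x (pderiv K j₀ F)
  let a : ℕ → HahnSeries ℝ K := fun n => Φ^[n] (x j₀)
  have ha : ∀ n, a (n + 1) = Φ (a n) := fun n => Function.iterate_succ_apply' _ _ _
  have key : ∀ n : ℕ, Ge M (a n - x j₀) ∧ Ge (M + n * (M - s)) (a (n + 1) - a n) := fun n => by
    induction n with
    | zero =>
      refine ⟨by rw [show a 0 = x j₀ from rfl, sub_self]; exact ge_zero _, ?_⟩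
      rw [ha, show a 0 = x j₀ from rfl]
      simp only [Φ, Function.update_eq_self, sub_sub_cancel_left, Nat.cast_zero, zero_mul, add_zero]
      exact (ge_div hD hF).neg
    | succ n ih =>
      have n0 : (0 : ℝ) ≤ n * (M - s) := mul_nonneg (Nat.cast_nonneg _) (by linarith)
      have h1 : Ge M (a (n + 1) - x j₀) := by
        have := (ih.2.mono (s := M) (by linarith)).add ih.1
        rwa [sub_add_sub_cancel] at this
      refine ⟨h1, ?_⟩
      have := ctr hx hD hs ih.1 h1 (by linarith) ih.2
      rw [ha (n + 1), ha n]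
      rw [ha n] at this
      refine this.mono (le_of_eq ?_)
      push_cast; ring
  obtain ⟨y, hy⟩ := lim (sub_pos.2 hs) fun n => (key n).2
  have y0 : Ge M (y - x j₀) := by
    have := hy 0
    rwa [Nat.cast_zero, zero_mul, add_zero] at this
  refine ⟨y, y0, ?_⟩
  have e : Φ y = y := eq_of_ge (sub_pos.2 hs) 0 fun n => by
    have n0 : (0 : ℝ) ≤ n * (M - s) := mul_nonneg (Nat.cast_nonneg _) (by linarith)
    have h1 := ctr hx hD hs (key n).1 y0 (by linarith) (hy n)
    have h2 := hy (n + 1)
    rw [ha n] at h2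
    have := (h1.mono (s := n * (M - s) - 0) (by linarith)).sub
      (h2.mono (s := n * (M - s) - 0) (by push_cast; linarith))
    refine (congrArg (Ge _) ?_).mp this
    simp only [Φ]; ring
  simpa [Φ, ne_of_ord hD] using e

/-- the root is unique in its ball -/
theorem hen_uniq (hx : Pos x) (j₀ : σ) {F : MvPowerSeries σ K}
    (hD : (ev x (pderiv K j₀ F)).orderTop = s) (hs : s < M) {y y' : HahnSeries ℝ K}
    (hy : Ge M (y - x j₀)) (hy' : Ge M (y' - x j₀)) (e : ev (Function.update x j₀ y) F = 0)
    (e' : ev (Function.update x j₀ y') F = 0) : y' = y := by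
  have key : ∀ n : ℕ, Ge (M + n * (M - s)) (y' - y) := fun n => by
    induction n with
    | zero =>
      have := hy'.sub hy
      rw [sub_sub_sub_cancel_right] at this
      simpa using this
    | succ n ih =>
      have n0 : (0 : ℝ) ≤ n * (M - s) := mul_nonneg (Nat.cast_nonneg _) (by linarith)
      have := ctr hx hD hs hy hy' (by linarith) ih
      rw [e, e', zero_div, sub_zero, sub_zero] at this
      refine this.mono (le_of_eq ?_)
      push_cast; ring
  have hM : 0 < M := (nonneg_of_ord hD).trans_lt hs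
  exact eq_of_ge (sub_pos.2 hs) 0 fun n => (key n).mono (by linarith)

end

end Vale.Agent.P283R.Hh
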