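import Vale.Agent.P283R.Co.Ev0
import Mathlib.Algebra.Polynomial.Identities
import Mathlib.Algebra.Polynomial.Derivative
import Mathlib.RingTheory.Polynomial.Subring

/-!
# Hensel's lemma for polynomials in one variable over Hahn series, with uniqueness
-/

open Polynomial

namespace Vale.Agent.P283R.Hn

open Vale.Agent.P283R.Co

section ring

variable {R : Type*} [CommRing R]

/-- a sequence of Hahn series whose orders grow linearly is summable -/
noncomputable def sq (a : ℕ → HahnSeries ℝ R) {δ c : ℝ} (hδ : 0 < δ)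
    (h : ∀ n : ℕ, Ge (n * δ + c) (a n)) : HahnSeries.SummableFamily ℝ R ℕ where
  toFun := a
  isPWO_iUnion_support' := by
    intro f
    by_contra hf
    push Not at hf
    obtain ⟨k, hk⟩ := exists_nat_gt (((f 0 : ℝ) - c) / δ)
    rw [div_lt_iff₀ hδ] at hk
    have hT : Set.IsPWO (⋃ m ∈ Finset.range k, (a m).support) :=
      (Finset.isPWO_bUnion _).2 fun m _ => HahnSeries.isPWO_support _
    have hm : ∀ n, (f n : ℝ) ∈ ⋃ m ∈ Finset.range k, (a m).support := by
      intro n
      obtain ⟨m, hm⟩ := Set.mem_iUnion.1 (f n).2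
      have h1 : m * δ + c ≤ (f n : ℝ) := by
        by_contra h2
        exact hm (ge_iff.1 (h m) _ (not_le.1 h2))
      have h2 : (f n : ℝ) ≤ f 0 := by
        rcases n.eq_zero_or_pos with rfl | hn
        · exact le_rfl
        · exact (not_le.1 (hf 0 n hn)).le
      have h3 : (m : ℝ) < k := lt_of_mul_lt_mul_right (by linarith) hδ.le
      exact Set.mem_iUnion₂.2 ⟨m, Finset.mem_range.2 (by exact_mod_cast h3), hm⟩
    obtain ⟨a, b, hab, h'⟩ := hT fun n => ⟨f n, hm n⟩
    exact hf a b hab h'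
  finite_co_support' g := by
    obtain ⟨k, hk⟩ := exists_nat_gt ((g - c) / δ)
    rw [div_lt_iff₀ hδ] at hk
    refine (Set.finite_lt_nat k).subset fun m hm => ?_
    by_contra h2
    have h3 : (k : ℝ) ≤ m := by exact_mod_cast not_lt.1 h2
    exact hm (ge_iff.1 (h m) _ (by nlinarith))

/-- completeness of the ring of Hahn series -/
theorem lim (y : ℕ → HahnSeries ℝ R) {δ c : ℝ} (hδ : 0 < δ)
    (h : ∀ n : ℕ, Ge (n * δ + c) (y (n + 1) - y n)) :
    ∃ z, ∀ n : ℕ, Ge (n * δ + c) (z - y n) := by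
  refine ⟨y 0 + (sq (fun n => y (n + 1) - y n) hδ h).hsum, fun n => ge_iff.2 fun g hg => ?_⟩
  have e : (sq (fun n => y (n + 1) - y n) hδ h).hsum.coeff g
      = (∑ m ∈ Finset.range n, (y (m + 1) - y m)).coeff g := by
    rw [HahnSeries.SummableFamily.coeff_hsum, HahnSeries.coeff_sum]
    refine finsum_eq_sum_of_support_subset _ fun m hm => ?_
    by_contra h2
    have h3 : (n : ℝ) ≤ m := by
      exact_mod_cast not_lt.1 fun h4 => h2 (Finset.mem_coe.2 (Finset.mem_range.2 h4))
    exact hm (ge_iff.1 (h m) _ (by nlinarith))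
  rw [HahnSeries.coeff_sub, HahnSeries.coeff_add, e, Finset.sum_range_sub, HahnSeries.coeff_sub]
  ring

/-- the ring of Hahn series of nonnegative order -/
def OO (R : Type*) [CommRing R] : Subring (HahnSeries ℝ R) where
  carrier := {a | Ge 0 a}
  mul_mem' ha hb := Ge.mul0 ha hb
  one_mem' := ge_one
  add_mem' ha hb := Ge.add ha hb
  zero_mem' := ge_zero 0
  neg_mem' ha := Ge.neg ha

theorem lift {f : (HahnSeries ℝ R)[X]} (hf : ∀ i, Ge 0 (f.coeff i)) :
    ∃ F : (OO R)[X], F.map (OO R).subtype = f :=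
  ⟨f.toSubring (OO R) fun a ha => by
    obtain ⟨i, -, rfl⟩ := mem_coeffs_iff.1 (Finset.mem_coe.1 ha)
    exact hf i, map_toSubring _ _ _⟩

theorem ev_map (F : (OO R)[X]) (x : OO R) :
    (F.map (OO R).subtype).eval ((OO R).subtype x) = (OO R).subtype (F.eval x) := by
  rw [eval_map]
  exact eval₂_hom (OO R).subtype x

theorem ge_eval {f : (HahnSeries ℝ R)[X]} (hf : ∀ i, Ge 0 (f.coeff i)) {x : HahnSeries ℝ R}
    (hx : Ge 0 x) : Ge 0 (f.eval x) := by
  obtain ⟨F, rfl⟩ := lift hf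
  obtain ⟨x, rfl⟩ : ∃ x' : OO R, (OO R).subtype x' = x := ⟨⟨x, hx⟩, rfl⟩
  rw [ev_map]
  exact (F.eval x).2

theorem ge_der {f : (HahnSeries ℝ R)[X]} (hf : ∀ i, Ge 0 (f.coeff i)) (i : ℕ) :
    Ge 0 (f.derivative.coeff i) := by
  obtain ⟨F, rfl⟩ := lift hf
  rw [derivative_map, coeff_map]
  exact (F.derivative.coeff i).2

/-- second order Taylor expansion -/
theorem tay {f : (HahnSeries ℝ R)[X]} (hf : ∀ i, Ge 0 (f.coeff i)) {x h : HahnSeries ℝ R}
    (hx : Ge 0 x) (hh : Ge 0 h) :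
    ∃ k, Ge 0 k ∧ f.eval (x + h) = f.eval x + f.derivative.eval x * h + k * h ^ 2 := by
  obtain ⟨F, rfl⟩ := lift hf
  obtain ⟨x, rfl⟩ : ∃ x' : OO R, (OO R).subtype x' = x := ⟨⟨x, hx⟩, rfl⟩
  obtain ⟨h, rfl⟩ : ∃ x' : OO R, (OO R).subtype x' = h := ⟨⟨h, hh⟩, rfl⟩
  obtain ⟨k, hk⟩ := F.binomExpansion x h
  refine ⟨(OO R).subtype k, k.2, ?_⟩
  rw [derivative_map, ← map_add, ev_map, ev_map, ev_map, hk, map_add, map_add, map_mul, map_mul,
    map_pow]

/-- polynomials with integral coefficients are Lipschitz -/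
theorem lip {f : (HahnSeries ℝ R)[X]} (hf : ∀ i, Ge 0 (f.coeff i)) {x y : HahnSeries ℝ R}
    (hx : Ge 0 x) (hy : Ge 0 y) {r : ℝ} (h : Ge r (y - x)) : Ge r (f.eval y - f.eval x) := by
  obtain ⟨k, hk, e⟩ := tay hf hx (hy.sub hx)
  rw [add_sub_cancel] at e
  have e' : f.eval y - f.eval x = (f.derivative.eval x + k * (y - x)) * (y - x) := by
    rw [e]; ring
  rw [e']
  exact Ge.zero_mul ((ge_eval (ge_der hf) hx).add (hk.mul0 (hy.sub hx))) h

theorem ord_add {a b : HahnSeries ℝ R} {D s : ℝ} (ha : a.orderTop = (D : WithTop ℝ))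
    (hb : Ge (D + s) b) (hs : 0 < s) : (a + b).orderTop = (D : WithTop ℝ) := by
  rw [HahnSeries.orderTop_add_eq_left, ha]
  rw [ha]
  exact lt_of_lt_of_le (WithTop.coe_lt_coe.2 (by linarith)) hb

end ring

variable {K : Type*} [Field K]

theorem ge_inv {u : HahnSeries ℝ K} {D : ℝ} (hu : u.orderTop = (D : WithTop ℝ)) :
    u ≠ 0 ∧ Ge (-D) u⁻¹ := by
  have h0 : u ≠ 0 := by
    rintro rfl
    simp at hu
  refine ⟨h0, ?_⟩
  have h1 : (u * u⁻¹).orderTop = 0 := by rw [mul_inv_cancel₀ h0, HahnSeries.orderTop_one]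
  rw [HahnSeries.orderTop_mul, hu] at h1
  obtain ⟨r, hr⟩ := WithTop.ne_top_iff_exists.1
    (HahnSeries.orderTop_ne_top.2 (inv_ne_zero h0))
  rw [← hr, ← WithTop.coe_add] at h1
  have h2 : D + r = 0 := by exact_mod_cast h1
  rw [Ge, ← hr]
  exact WithTop.coe_le_coe.2 (by linarith)

/-- Hensel's lemma -/
theorem hen {f : (HahnSeries ℝ K)[X]} (hf : ∀ i, Ge 0 (f.coeff i)) {y0 : HahnSeries ℝ K}
    (h0 : Ge 0 y0) {D s : ℝ} (hD : (f.derivative.eval y0).orderTop = (D : WithTop ℝ))
    (hv : Ge (2 * D + s) (f.eval y0)) (hs : 0 < s) :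
    ∃ y, f.eval y = 0 ∧ Ge (D + s) (y - y0) ∧
      (f.derivative.eval y).orderTop = (D : WithTop ℝ) := by
  obtain ⟨hu0, hu⟩ := ge_inv hD
  have hD0 : 0 ≤ D := by
    have := ge_eval (ge_der hf) h0
    rw [Ge, hD] at this
    exact_mod_cast this
  set u := f.derivative.eval y0 with hud
  let y : ℕ → HahnSeries ℝ K := fun n => Nat.rec y0 (fun _ z => z - f.eval z * u⁻¹) n
  have hy : ∀ n, y (n + 1) = y n - f.eval (y n) * u⁻¹ := fun _ => rfl
  have near : ∀ {z}, Ge (D + s) (z - y0) → Ge 0 z := fun {z} hz => by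
    have := (hz.mono (show 0 ≤ D + s by linarith)).add h0
    rwa [sub_add_cancel] at this
  have key : ∀ n : ℕ, Ge (D + s) (y n - y0) ∧ Ge (n * s + (2 * D + s)) (f.eval (y n)) := by
    intro n
    induction n with
    | zero =>
      exact ⟨by rw [show y 0 - y0 = 0 from sub_self y0]; exact ge_zero _, by
        rw [Nat.cast_zero, zero_mul, zero_add]; exact hv⟩
    | succ n ih =>
      obtain ⟨h1, h2⟩ := ih
      have hn : (0 : ℝ) ≤ n * s := mul_nonneg n.cast_nonneg hs.le
      have h3 : Ge (n * s + (D + s)) (-(f.eval (y n) * u⁻¹)) :=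
        ((h2.mul hu).mono (by linarith)).neg
      refine ⟨?_, ?_⟩
      · have := h1.add (h3.mono (by linarith))
        rwa [show y n - y0 + -(f.eval (y n) * u⁻¹) = y (n + 1) - y0 by rw [hy]; ring] at this
      · obtain ⟨k, hk, e⟩ := tay hf (near h1) (h3.mono (by linarith))
        have e' : f.eval (y (n + 1)) = -(f.eval (y n) * u⁻¹) * (f.derivative.eval (y n) - u)
            + k * (-(f.eval (y n) * u⁻¹) * -(f.eval (y n) * u⁻¹)) := by
          rw [hy, sub_eq_add_neg, e]
          field_simp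
          ring
        rw [e']
        refine ((h3.mul (lip (ge_der hf) h0 (near h1) h1)).mono ?_).add
          (hk.zero_mul ((h3.mul h3).mono ?_))
        · push_cast; linarith
        · push_cast; linarith
  obtain ⟨z, hz⟩ := lim y (c := D + s) hs fun n => by
    rw [hy, sub_sub_cancel_left]
    exact (((key n).2.mul hu).mono (by linarith)).neg
  have hz0 : Ge (D + s) (z - y0) := (hz 0).mono (by simp)
  refine ⟨z, eq_of_ge hs 0 fun n => ?_, hz0, ?_⟩
  · have h1 := (lip hf (near (key n).1) (near hz0) (hz n)).mono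
      (show n * s - 0 ≤ n * s + (D + s) by linarith)
    have h2 := h1.add ((key n).2.mono (by linarith))
    rwa [sub_add_cancel, ← sub_zero (f.eval z)] at h2
  · have := ord_add hD (lip (ge_der hf) h0 (near hz0) hz0) hs
    rwa [add_sub_cancel] at this

/-- uniqueness: a root closer than the order of the derivative to another root is that root -/
theorem hen_uniq {f : (HahnSeries ℝ K)[X]} (hf : ∀ i, Ge 0 (f.coeff i)) {y z : HahnSeries ℝ K}
    (hy : Ge 0 y) {D s : ℝ} (hD : (f.derivative.eval y).orderTop = (D : WithTop ℝ))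
    (hs : 0 < s) (hz : Ge (D + s) (z - y)) (ey : f.eval y = 0) (ez : f.eval z = 0) : z = y := by
  have hD0 : 0 ≤ D := by
    have := ge_eval (ge_der hf) hy
    rw [Ge, hD] at this
    exact_mod_cast this
  obtain ⟨k, hk, e⟩ := tay hf hy (hz.mono (by linarith))
  rw [add_sub_cancel, ey, ez] at e
  have e' : (f.derivative.eval y + k * (z - y)) * (z - y) = 0 := by
    linear_combination -e
  rcases mul_eq_zero.1 e' with h | h
  · have := ord_add hD (hk.zero_mul hz) hs
    rw [h] at this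
    simp at this
  · exact sub_eq_zero.1 h

end Vale.Agent.P283R.Hn
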