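import Vale.Agent.P283R.Tp.St
import Vale.Agent.P283R.Co.Ev1

/-!
# P283R, block BE: the twist of an exact arc, the statements
-/

attribute [-instance] HahnSeries.powerSeriesAlgebra

open Vale.Agent.P285N.Brep (jac Fr)
open Vale.Agent.P287D

noncomputable section

namespace Vale.Agent.P283R.Tx

open Co (Ge thl)

variable {F κ : Type} [Field F] [Algebra ℂ F] [Field κ] [Algebra ℂ κ] {d N : ℕ}

/-- a closed point of a normal affine variety with semi-invariant generators of the maximal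
ideal -/
structure Pt (d : ℕ) (A : Subgroup (F ≃ₐ[ℂ] F)) (S : Subalgebra ℂ F) (p : Ideal S)
    (z : Fin N → F) : Prop where
  aff : Aff d S
  nor : IsIntegrallyClosed S
  pri : p.IsPrime
  mem : ∀ j, ∃ s ∈ p, (s : F) = z j
  ne : ∀ j, z j ≠ 0
  gen : ∀ a ∈ p, ∃ c : Fin N → F, (∀ j, c j ∈ Lo S p) ∧ (a : F) = ∑ j, c j * z j
  res : ∀ a : S, ∃ c : ℂ, a - algebraMap ℂ S c ∈ p
  inr : ∀ σ ∈ A, Inr S p σ
  eig : ∀ j, Eig A (z j)

/-- the value of a polynomial at `(t, w)` -/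
def ev2 {R : Type} [CommRing R] [Algebra ℂ R] (t : Fin d → R) (w : R) :
    Polynomial (MvPolynomial (Fin d) ℂ) →+* R :=
  Polynomial.eval₂RingHom (MvPolynomial.aeval t : MvPolynomial (Fin d) ℂ →ₐ[ℂ] R).toRingHom w

/-- `S` is integral over the polynomials in `t`, the function `w` is a primitive element with the
minimal polynomial `Φ` -/
structure Prj (S : Subalgebra ℂ F) (p : Ideal S) (t : Fin d → F) (w : F)
    (Φ : Polynomial (MvPolynomial (Fin d) ℂ)) : Prop where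
  mem : ∀ l, ∃ s ∈ p, (s : F) = t l
  wm : w ∈ S
  mon : Φ.Monic
  ker : ∀ G, ev2 t w G = 0 ↔ Φ ∣ G
  int : ∀ a ∈ S, ∃ G : Polynomial (MvPolynomial (Fin d) ℂ), G.Monic ∧ ev2 t a G = 0
  top : ∀ a : F, ∃ G H, a = ev2 t w G / ev2 t w H

/-- an arc centred at `p` -/
structure Arc (S : Subalgebra ℂ F) (p : Ideal S) (x : F →ₐ[ℂ] HahnSeries ℝ κ) : Prop where
  ge : ∀ a ∈ S, Ge 0 (x a)
  pos : ∀ a ∈ p, 0 < (x a).orderTop

/-- the exponents are integers -/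
def Zs (a : HahnSeries ℝ κ) : Prop := ∀ g, a.coeff g ≠ 0 → ∃ n : ℤ, g = n

/-- the Jacobian of an arc -/
def Jx (δ : Fin d → Derivation ℂ κ κ) (x : Fin d → HahnSeries ℝ κ) : HahnSeries ℝ κ :=
  (Matrix.of fun k l => thl 0 (δ k) (x l)).det

/-- the data of one level; `κv` is the character of the generator of `q (K + B)` -/
structure Lev (q : ℕ) (κv : Fin N → ℤ) (A : Subgroup (F ≃ₐ[ℂ] F)) (S : Subalgebra ℂ F)
    (p : Ideal S) (z : Fin N → F) (y : Fin d → F) (D : Fin d → Derivation ℂ F F) (h : F)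
    (t : Fin d → F) (w : F) (Φ : Polynomial (MvPolynomial (Fin d) ℂ)) : Prop where
  pt : Pt d A S p z
  prj : Prj S p t w Φ
  fr : Fr y D
  fy : ∀ i, Fix A (y i)
  h0 : h ≠ 0
  fh : Fix A (h * ∏ j, z j ^ κv j)
  bd : ∀ R, PDat S p R → ld y q h R ≤ 1

/-- an integral arc with the data `a'`, `E`, bounded by `a`; `f` is `jac D t ^ q * h` -/
structure Dat (a a' E : ℝ) (S : Subalgebra ℂ F) (p : Ideal S) (z : Fin N → F) (t : Fin d → F)
    (w : F) (Φ : Polynomial (MvPolynomial (Fin d) ℂ)) (f : F) (δ : Fin d → Derivation ℂ κ κ)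
    (x : F →ₐ[ℂ] HahnSeries ℝ κ) : Prop where
  arc : Arc S p x
  zt : ∀ l, Zs (x (t l))
  zw : Zs (x w)
  jac : (Jx δ fun l => x (t l)).orderTop ≤ (a' : WithTop ℝ)
  le : a' ≤ a
  der : (x (ev2 t w Φ.derivative)).orderTop ≤ (a : WithTop ℝ)
  ge : Ge E (x f)
  del : (x f).orderTop ≤ (a : WithTop ℝ)

/-- the dual vector `χ / r` -/
structure Dua (c η : ℝ) (k : ℕ) (A : Subgroup (F ≃ₐ[ℂ] F)) (z : Fin N → F)
    (x : F →ₐ[ℂ] HahnSeries ℝ κ) (r : ℕ) (χ : Fin N → ℤ) : Prop where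
  pos : 0 < r
  bd : ∀ j, |(χ j / r : ℝ)| ≤ c
  ge : ∀ j, Ge (η - χ j / r) (x (z j))
  low : ∀ m : Fin N → ℤ, (∀ j, |m j| ≤ k) → Fix A (∏ j, z j ^ m j) → ∑ j, χ j * m j = 0

/-- a statement on all twisted arcs -/
def ForTw (T : ∀ (d N _ : ℕ) (_ : ℝ) (_ : Fin N → ℤ) (F κ : Type) [Field F] [Algebra ℂ F] [Field κ]
    [Algebra ℂ κ] (_ : Subgroup (F ≃ₐ[ℂ] F)) (S : Subalgebra ℂ F) (_ : Ideal S) (_ : Fin N → F)
    (_ : Fin d → F) (_ : F) (_ : F →ₐ[ℂ] HahnSeries ℝ κ) (_ : ℕ) (_ : Fin N → ℤ) (_ : ℝ), Prop) :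
    Prop :=
  ∀ (d N q : ℕ) (a c η : ℝ) (κv : Fin N → ℤ), 0 < d → 0 < q → 0 < η → ∃ k : ℕ,
    ∀ (F κ : Type) [Field F] [Algebra ℂ F] [Field κ] [Algebra ℂ κ] (A : Subgroup (F ≃ₐ[ℂ] F))
      (S : Subalgebra ℂ F) (p : Ideal S) (z : Fin N → F) (y : Fin d → F)
      (D : Fin d → Derivation ℂ F F) (h : F) (t : Fin d → F) (w : F)
      (Φ : Polynomial (MvPolynomial (Fin d) ℂ)) (δ : Fin d → Derivation ℂ κ κ)
      (x : F →ₐ[ℂ] HahnSeries ℝ κ) (a' E : ℝ) (r : ℕ) (χ : Fin N → ℤ),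
      Lev q κv A S p z y D h t w Φ → Dat a a' E S p z t w Φ (jac D t ^ q * h) δ x →
      Dua c η k A z x r χ →
      T d N q a κv F κ A S p z y h x r χ (a' - E / q + (∑ j, (χ j / r : ℝ) * κv j) / q)

/-- **TW**: the place of the twisted arc, for any group -/
def TW : Prop := ForTw fun _ _ q a _ _ _ _ _ _ _ A S p z y h x r χ b =>
  (∃ g ∈ A, ∀ j, g (z j) = Complex.exp (2 * Real.pi * Complex.I * (χ j / r)) • z j) →
    ∃ (P : Pl _) (e : ℝ), Cen S p P ∧ 0 < e ∧ (∃ n : ℕ, r * e = n) ∧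
      (∀ f, f ≠ 0 → Fix A f → ∃ n : ℤ, e * P.ord f = n) ∧ e * ld y q h P ≤ b ∧
      ∀ j (v : ℝ), (x (z j)).orderTop = v → v ≤ a → e * P.ord (z j) = v + χ j / r

/-- **TWH**: the inequality (P) at one level, for a finite group -/
def TWH : Prop := ForTw fun _ _ q _ _ _ _ _ _ _ _ A S p z y h _ r χ b =>
  Finite A → (∀ m : Fin _ → ℤ, Fix A (∏ j, z j ^ m j) → (r : ℤ) ∣ ∑ j, χ j * m j) →
    ∀ ε : ℝ, 0 ≤ ε → Hyp ε A S p y q h → ε ≤ b

end Vale.Agent.P283R.Tx
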