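import Vale.Agent.P283R.Be2.Tw0
import Vale.Agent.P283R.Be2.Nw
import Vale.Agent.P283R.Be2.Hen
import Vale.Agent.P283R.Be2.TwS
import Vale.Agent.P283R.Co.Td

/-!
# P283R, block BE: the system of the twisted arc and its solution in Hahn series
-/

attribute [-instance] HahnSeries.powerSeriesAlgebra

open MvPolynomial

noncomputable section

namespace Vale.Agent.P283R.Btw

open Vale.Agent.P283R.Co Vale.Agent.P283R.Tx

variable {d : ℕ} {R R' : Type} [CommRing R] [Algebra ℂ R] [CommRing R'] [Algebra ℂ R']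

theorem map_ev2 (f : R →ₐ[ℂ] R') (t : Fin d → R) (w : R)
    (G : Polynomial (MvPolynomial (Fin d) ℂ)) :
    f (ev2 t w G) = ev2 (fun l => f (t l)) (f w) G := by
  refine (Polynomial.hom_eval₂ G _ (f : R →+* R') w).trans ?_
  rw [ev2, Polynomial.coe_eval₂RingHom, ← comp_aeval]
  rfl

/-- polynomials in `d + 1` variables -/
def mp : Polynomial (MvPolynomial (Fin d) ℂ) →+* MvPolynomial (Fin (d + 1)) ℂ :=
  ev2 (fun l => X l.succ) (X 0)

theorem aeval_mp (b : Fin (d + 1) → R) (G : Polynomial (MvPolynomial (Fin d) ℂ)) :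
    aeval b (mp G) = ev2 (fun l => b l.succ) (b 0) G := by
  rw [mp, map_ev2]
  simp

theorem pderiv_mp (G : Polynomial (MvPolynomial (Fin d) ℂ)) :
    pderiv 0 (mp G) = mp G.derivative := by
  have c : ∀ a : MvPolynomial (Fin d) ℂ, pderiv 0 (mp (Polynomial.C a)) = 0 := fun a => by
    rw [mp, ev2, Polynomial.coe_eval₂RingHom, Polynomial.eval₂_C]
    change pderiv 0 (aeval (fun l : Fin d => (X l.succ : MvPolynomial (Fin (d + 1)) ℂ)) a) = 0
    rw [Td.chain]
    simp [pderiv_X_of_ne (Fin.succ_ne_zero _)]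
  have x : mp (Polynomial.X : Polynomial (MvPolynomial (Fin d) ℂ)) = X 0 := by simp [mp, ev2]
  induction G using Polynomial.induction_on with
  | C a => simp [c]
  | add p q hp hq => simp [hp, hq]
  | monomial n a h =>
    rw [pow_succ, ← mul_assoc]
    generalize Polynomial.C a * Polynomial.X ^ n = G at h
    rw [map_mul, Derivation.leibniz, h, Polynomial.derivative_mul,
      Polynomial.derivative_X, map_add, map_mul, map_mul, x, pderiv_X_self]
    simp only [smul_eq_mul, map_one]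
    ring

variable (P : MvPolynomial (Fin (d + 1)) ℂ) (Q : Fin d → MvPolynomial (Fin (d + 1)) ℂ)

/-- the system `P = 0`, `P' c = Q` -/
def sys (c : Fin d → R) : Fin (d + 1) → MvPolynomial (Fin (d + 1)) R :=
  Fin.cons (map (algebraMap ℂ R) P) fun i =>
    map (algebraMap ℂ R) (pderiv 0 P) * C (c i) - map (algebraMap ℂ R) (Q i)

/-- its Jacobian matrix -/
def mt (b : Fin (d + 1) → R) (c : Fin d → R) : Matrix (Fin (d + 1)) (Fin (d + 1)) R :=
  Matrix.of fun i o => (Fin.cons (aeval b (pderiv o P)) fun i =>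
    aeval b (pderiv o (pderiv 0 P)) * c i - aeval b (pderiv o (Q i)) : Fin (d + 1) → R) i

theorem eval_map' (b : Fin (d + 1) → R) (G : MvPolynomial (Fin (d + 1)) ℂ) :
    eval b (map (algebraMap ℂ R) G) = aeval b G := by rw [eval_map, aeval_def]

theorem sys_zero (b : Fin (d + 1) → R) (c : Fin d → R) : eval b (sys P Q c 0) = aeval b P :=
  eval_map' _ _

theorem sys_succ (b : Fin (d + 1) → R) (c : Fin d → R) (i : Fin d) :
    eval b (sys P Q c i.succ) = aeval b (pderiv 0 P) * c i - aeval b (Q i) := by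
  simp only [sys, Fin.cons_succ, map_sub, map_mul, eval_map', eval_C]

theorem jm_sys (b : Fin (d + 1) → R) (c : Fin d → R) : Nw.jm (sys P Q c) b = mt P Q b c := by
  ext i o
  refine Fin.cases ?_ (fun i => ?_) i
  · simp only [Nw.jm, mt, sys, Matrix.of_apply, Fin.cons_zero, pderiv_map, eval_map']
  · simp only [Nw.jm, mt, sys, Matrix.of_apply, Fin.cons_succ, map_sub, Derivation.leibniz,
      pderiv_C, smul_eq_mul, mul_zero, zero_add, map_mul, pderiv_map, eval_map', eval_C]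
    ring

theorem map_mt (f : R →ₐ[ℂ] R') (b : Fin (d + 1) → R) (c : Fin d → R) :
    f (mt P Q b c).det = (mt P Q (fun o => f (b o)) fun i => f (c i)).det := by
  rw [AlgHom.map_det]
  congr 1
  ext i o
  refine Fin.cases ?_ (fun i => ?_) i <;> simp [mt, comp_aeval_apply]

/-- the Jacobian of the system against the Jacobians of the arc -/
theorem det_id (θ : Fin d → Derivation ℂ R R) {b : Fin (d + 1) → R} {c : Fin d → R}
    (h0 : aeval b P = 0) (h1 : ∀ i, aeval b (pderiv 0 P) * c i = aeval b (Q i)) :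
    (mt P Q b c).det * (Matrix.of fun k l => θ k (b (Fin.succ l))).det =
      aeval b (pderiv 0 P) * ((-aeval b (pderiv 0 P)) ^ d *
        (Matrix.of fun k l => θ k (c l)).det) := by
  let N : Matrix (Fin (d + 1)) (Fin (d + 1)) R := Matrix.of fun o k =>
    (Fin.cons (if o = 0 then 1 else 0) fun k => θ k (b o) : Fin (d + 1) → R) k
  have e1 : N.det = (Matrix.of fun k l => θ k (b (Fin.succ l))).det := by
    rw [Matrix.det_succ_column_zero, Fin.sum_univ_succ, ← Matrix.det_transpose (Matrix.of _)]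
    simp only [N, Matrix.of_apply, Fin.cons_zero, if_true, Fin.succ_ne_zero, if_false, mul_zero,
      zero_mul, Finset.sum_const_zero, add_zero, Fin.val_zero, pow_zero, one_mul]
    congr 1
  have r0 : ∀ k, (mt P Q b c * N) 0 (Fin.succ k) = 0 := fun k => by
    have := Td.chain (θ k) b P
    rw [h0, map_zero] at this
    simpa [Matrix.mul_apply, mt, N] using this.symm
  have r1 : ∀ i k, (mt P Q b c * N) (Fin.succ i) (Fin.succ k) =
      -aeval b (pderiv 0 P) * θ k (c i) := fun i k => by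
    have := congrArg (θ k) (h1 i)
    rw [Derivation.leibniz, Td.chain (θ k) b (Q i), Td.chain (θ k) b (pderiv 0 P), smul_eq_mul,
      smul_eq_mul, Finset.mul_sum] at this
    simp only [Matrix.mul_apply, mt, N, Matrix.of_apply, Fin.cons_succ, sub_mul,
      Finset.sum_sub_distrib, ← this]
    rw [Finset.sum_congr rfl fun o _ => show aeval b (pderiv o (pderiv 0 P)) * c i * θ k (b o) =
      c i * (aeval b (pderiv o (pderiv 0 P)) * θ k (b o)) by ring]
    ring
  have r2 : (mt P Q b c * N) 0 0 = aeval b (pderiv 0 P) := by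
    simp [Matrix.mul_apply, mt, N]
  rw [← e1, ← Matrix.det_mul, Matrix.det_succ_row_zero, Fin.sum_univ_succ]
  simp only [r0, r2, mul_zero, zero_mul, Finset.sum_const_zero, add_zero, Fin.val_zero, pow_zero,
    one_mul]
  congr 1
  have e2 := Matrix.det_smul (Matrix.of fun k l => θ k (c l)).transpose (-aeval b (pderiv 0 P))
  rw [Fintype.card_fin, Matrix.det_transpose] at e2
  rw [← e2]
  congr 1
  ext i k
  simpa using r1 i k

variable {κ : Type} [Field κ] [Algebra ℂ κ]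

/-- the valuation ring -/
def OA (κ : Type) [Field κ] [Algebra ℂ κ] : Subalgebra ℂ (HahnSeries ℝ κ) where
  carrier := {a | Ge 0 a}
  mul_mem' ha hb := Ge.mul0 ha hb
  add_mem' ha hb := Ge.add ha hb
  algebraMap_mem' := ge_const

/-- the parameter -/
def pi0 (κ : Type) [Field κ] [Algebra ℂ κ] : OA κ :=
  ⟨HahnSeries.single 1 1, (ge_single 1 1).mono zero_le_one⟩

theorem pi_pow (k : ℕ) : ((pi0 κ ^ k : OA κ) : HahnSeries ℝ κ) = HahnSeries.single (k : ℝ) 1 := by
  simp [pi0, HahnSeries.single_pow]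

theorem pi_dvd {k : ℕ} {a : OA κ} : pi0 κ ^ k ∣ a ↔ Ge k (a : HahnSeries ℝ κ) := by
  refine ⟨fun ⟨c, e⟩ => ?_, fun h =>
    ⟨⟨HahnSeries.single (-k : ℝ) (1 : κ) * (a : HahnSeries ℝ κ), ?_⟩, Subtype.ext ?_⟩⟩
  · rw [e, Subalgebra.coe_mul, pi_pow]
    exact (ge_single _ _).mul0 c.2
  · exact ((ge_single (-k : ℝ) (1 : κ)).mul h).mono (by simp)
  · rw [Subalgebra.coe_mul, pi_pow, ← mul_assoc, HahnSeries.single_mul_single]
    simp

theorem dvd_pi {k : ℕ} {a : OA κ} (h : ¬Ge k (a : HahnSeries ℝ κ)) : a ∣ pi0 κ ^ k := by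
  have a0 : (a : HahnSeries ℝ κ) ≠ 0 := fun e => h (e ▸ ge_zero _)
  obtain ⟨D, hD⟩ := WithTop.ne_top_iff_exists.1 (HahnSeries.orderTop_ne_top.2 a0)
  have lt : D < k := by
    rw [Ge, ← hD, not_le] at h
    exact_mod_cast h
  refine ⟨⟨HahnSeries.single (k : ℝ) 1 * (a : HahnSeries ℝ κ)⁻¹,
    ((ge_single _ _).mul (Hn.ge_inv hD.symm).2).mono (by linarith)⟩, Subtype.ext ?_⟩
  rw [Subalgebra.coe_mul, pi_pow]
  field_simp

theorem smod {k : ℕ} {x y : OA κ} :
    (x ≡ y [SMOD (Ideal.span {pi0 κ} ^ k • ⊤ : Submodule (OA κ) (OA κ))]) ↔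
      Ge k ((x : HahnSeries ℝ κ) - (y : HahnSeries ℝ κ)) := by
  rw [SModEq.sub_mem, smul_eq_mul, Ideal.mul_top, Ideal.span_singleton_pow,
    Ideal.mem_span_singleton, pi_dvd]
  rfl

theorem compl : IsAdicComplete (Ideal.span {pi0 κ}) (OA κ) where
  haus' x h := Subtype.ext (eq_of_ge one_pos 0 fun n => by simpa using smod.1 (h n))
  prec' f h := by
    obtain ⟨z, hz⟩ := Hn.lim (fun n => (f n : HahnSeries ℝ κ)) (c := 0) one_pos fun n => by
      simpa using (smod.1 (h n.le_succ)).neg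
    have z0 : Ge 0 z := by simpa using (hz 0).add (show Ge _ _ from ((f 0).2.mono (by simp)))
    exact ⟨⟨z, z0⟩, fun n => smod.2 (by simpa using (hz n).neg)⟩

/-- **Newton** for the system, in Hahn series -/
theorem newtonH {b₀ : Fin (d + 1) → HahnSeries ℝ κ} {c : Fin d → HahnSeries ℝ κ}
    (hb : ∀ o, Ge 0 (b₀ o)) (hc : ∀ i, Ge 0 (c i)) {ρ n : ℕ} (hn : 0 < n)
    (hJ : ¬Ge ρ (mt P Q b₀ c).det) (h0 : Ge (2 * ρ + n) (aeval b₀ P))
    (h1 : ∀ i, Ge (2 * ρ + n) (aeval b₀ (pderiv 0 P) * c i - aeval b₀ (Q i))) :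
    ∃ b : Fin (d + 1) → HahnSeries ℝ κ, (∀ o, Ge (ρ + n) (b o - b₀ o)) ∧ aeval b P = 0 ∧
      (∀ i, aeval b (pderiv 0 P) * c i = aeval b (Q i)) ∧ (mt P Q b c).det ≠ 0 ∧
      ∀ b' : Fin (d + 1) → HahnSeries ℝ κ, (∀ o, Ge (ρ + 1) (b' o - b₀ o)) → aeval b' P = 0 →
        (∀ i, aeval b' (pderiv 0 P) * c i = aeval b' (Q i)) → b' = b := by
  have := compl (κ := κ)
  lift b₀ to Fin (d + 1) → OA κ using hb
  lift c to Fin d → OA κ using hc
  have ev : ∀ (b : Fin (d + 1) → OA κ) G, ((aeval b G : OA κ) : HahnSeries ℝ κ) =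
      aeval (fun o => (b o : HahnSeries ℝ κ)) G := fun b G => comp_aeval_apply b (OA κ).val G
  have dt : ∀ b : Fin (d + 1) → OA κ, (((Nw.jm (sys P Q c) b).det : OA κ) : HahnSeries ℝ κ) =
      (mt P Q (fun o => (b o : HahnSeries ℝ κ)) fun i => (c i : HahnSeries ℝ κ)).det := fun b => by
    rw [jm_sys]; exact map_mt P Q (OA κ).val b c
  have sol : ∀ b : Fin (d + 1) → OA κ, (∀ i, eval b (sys P Q c i) = 0) ↔
      aeval (fun o => (b o : HahnSeries ℝ κ)) P = 0 ∧
        ∀ i, aeval (fun o => (b o : HahnSeries ℝ κ)) (pderiv 0 P) * c i =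
          aeval (fun o => (b o : HahnSeries ℝ κ)) (Q i) := fun b => by
    simp only [Fin.forall_fin_succ, sys_zero, sys_succ, sub_eq_zero]
    simp only [Subtype.ext_iff, Subalgebra.coe_mul, ev, Subalgebra.coe_zero]
  have j0 : (Nw.jm (sys P Q c) b₀).det ∣ pi0 κ ^ ρ := dvd_pi (by rwa [dt])
  obtain ⟨b, h2, h3⟩ := Nw.newton (sys P Q c) b₀ hn j0 fun i => pi_dvd.2 (by
    refine Fin.cases ?_ (fun i => ?_) i
    · rw [sys_zero, ev]; exact_mod_cast h0
    · rw [sys_succ, Subalgebra.coe_sub, Subalgebra.coe_mul, ev, ev]; exact_mod_cast h1 i)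
  have p0 : pi0 κ ≠ 0 := fun e => by simpa [pi0] using congrArg Subtype.val e
  have j1 := Nw.det_dvd (IsAdicComplete.le_jacobson_bot (Ideal.span {pi0 κ})
    (Ideal.mem_span_singleton_self _)) (sys P Q c) j0 fun j =>
      (pow_dvd_pow _ (by omega)).trans (h2 j)
  refine ⟨fun o => b o, fun o => by exact_mod_cast pi_dvd.1 (h2 o), ((sol b).1 h3).1,
    ((sol b).1 h3).2, fun e => ?_, fun b' k0 k1 k2 => ?_⟩
  · rw [← dt, Subalgebra.coe_eq_zero] at e
    exact pow_ne_zero _ p0 (zero_dvd_iff.1 (e ▸ j1))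
  · lift b' to Fin (d + 1) → OA κ using fun o => by
      have := ((k0 o).mono (s := 0) (by positivity)).add (b₀ o).2
      rwa [sub_add_cancel] at this
    rw [Nw.unique (mem_nonZeroDivisors_of_ne_zero p0) (sys P Q c) j1 (b' := b') (fun j => by
      have := dvd_sub (pi_dvd.2 (show Ge ((ρ + 1 : ℕ) : ℝ) ((b' j - b₀ j : OA κ) : HahnSeries ℝ κ)
        by exact_mod_cast k0 j)) ((pow_dvd_pow _ (by omega)).trans (h2 j))
      rwa [sub_sub_sub_cancel_right] at this) fun i => by rw [h3, (sol b').2 ⟨k1, k2⟩]]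

theorem lipH {σ : Type} {b b' : σ → HahnSeries ℝ κ} (hb : ∀ o, Ge 0 (b o)) {r : ℝ} (hr : 0 ≤ r)
    (h : ∀ o, Ge r (b' o - b o)) (G : MvPolynomial σ ℂ) :
    Ge r (aeval b' G - aeval b G) ∧ Ge 0 (aeval b G) := by
  induction G using MvPolynomial.induction_on with
  | C a => exact ⟨by simpa using ge_zero r, by simpa using ge_const a⟩
  | add f g hf hg =>
    exact ⟨by rw [map_add, map_add, add_sub_add_comm]; exact hf.1.add hg.1,
      by rw [map_add]; exact hf.2.add hg.2⟩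
  | mul_X f s hf =>
    refine ⟨?_, by rw [map_mul, aeval_X]; exact hf.2.mul0 (hb s)⟩
    have a := ((h s).mono hr).add (hb s)
    rw [sub_add_cancel] at a
    convert (hf.1.mul0 a).add (hf.2.zero_mul (h s)) using 1
    simp only [map_mul, aeval_X]
    ring

end Vale.Agent.P283R.Btw
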