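import Vale.Agent.P283R.Be2.TwS

/-!
# P283R, block BE: duality for a finite group, the inequality (P) at one level
-/

attribute [-instance] HahnSeries.powerSeriesAlgebra

open Vale.Agent.P287D Finset

noncomputable section

namespace Vale.Agent.P283R.Tx

variable {F : Type} [Field F] [Algebra ℂ F] {N : ℕ} {A : Subgroup (F ≃ₐ[ℂ] F)} {z : Fin N → F}

theorem eig_mon (h : ∀ j, Eig A (z j)) (m : Fin N → ℤ) : Eig A (∏ j, z j ^ m j) := by
  intro σ hσ
  choose c hc using fun j => h j σ hσ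
  refine ⟨∏ j, c j ^ m j, ?_⟩
  simp only [map_prod, map_zpow₀, hc, Algebra.smul_def, mul_zpow, prod_mul_distrib]

/-- the character of the lattice of exponents given by an automorphism -/
def chM (hz : ∀ j, z j ≠ 0) (σ : F ≃ₐ[ℂ] F) : Multiplicative (Fin N → ℤ) →* F where
  toFun m := ∏ j, (σ (z j) / z j) ^ m.toAdd j
  map_one' := by simp
  map_mul' a b := by
    rw [← prod_mul_distrib]
    exact prod_congr rfl fun j _ => by
      rw [toAdd_mul, Pi.add_apply, zpow_add₀ (div_ne_zero (by simpa using hz j) (hz j))]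

theorem chM_eq (hz : ∀ j, z j ≠ 0) (σ : F ≃ₐ[ℂ] F) (m : Multiplicative (Fin N → ℤ)) :
    chM hz σ m = σ (∏ j, z j ^ m.toAdd j) / ∏ j, z j ^ m.toAdd j := by
  simp only [chM, MonoidHom.coe_mk, OneHom.coe_mk, map_prod, map_zpow₀, div_zpow, prod_div_distrib]

/-- the character of the group given by a semi-invariant function -/
def chA {u : F} (hu : u ≠ 0) (h : Eig A u) : A →* F where
  toFun σ := σ.1 u / u
  map_one' := by simp [hu]
  map_mul' σ τ := by
    obtain ⟨c, hc⟩ := h τ.1 τ.2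
    simp only [Subgroup.coe_mul, AlgEquiv.mul_apply, hc, map_smul]
    simp only [Algebra.smul_def]
    field_simp

/-- **duality**: a point of the torus which kills the invariant monomials comes from the group -/
theorem exists_elt [Finite A] (hz : ∀ j, z j ≠ 0) (h : ∀ j, Eig A (z j)) {c : Fin N → ℂ}
    (hc : ∀ j, c j ≠ 0) (hM : ∀ m : Fin N → ℤ, Fix A (∏ j, z j ^ m j) → ∏ j, c j ^ m j = 1) :
    ∃ g ∈ A, ∀ j, g (z j) = c j • z j := by
  classical
  have := Fintype.ofFinite A
  have : CharZero F := charZero_of_injective_algebraMap (algebraMap ℂ F).injective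
  let e : Multiplicative (Fin N → ℤ) →* F :=
    { toFun := fun m => ∏ j, (algebraMap ℂ F (c j))⁻¹ ^ m.toAdd j
      map_one' := by simp
      map_mul' := fun a b => by
        rw [← prod_mul_distrib]
        exact prod_congr rfl fun j _ => by
          rw [toAdd_mul, Pi.add_apply, zpow_add₀ (inv_ne_zero (by simpa using hc j))] }
  have key : ∀ m, ∑ σ : A, chM hz σ.1 m * e m = ∑ σ : A, chM hz σ.1 m := by
    intro m
    have hu : ∏ j, z j ^ m.toAdd j ≠ 0 := prod_ne_zero_iff.2 fun j _ => zpow_ne_zero _ (hz j)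
    by_cases hm : Fix A (∏ j, z j ^ m.toAdd j)
    · have : e m = 1 := by
        have := congrArg (fun a => (algebraMap ℂ F a)⁻¹) (hM _ hm)
        simpa [e] using this
      simp only [this, mul_one]
    · have h1 : chA hu (eig_mon h m.toAdd) ≠ 1 := fun h1 => hm fun σ hσ =>
        (div_eq_one_iff_eq hu).1 (DFunLike.congr_fun h1 ⟨σ, hσ⟩)
      have h2 : ∑ σ : A, chM hz σ.1 m = 0 := by
        rw [← sum_hom_units_eq_zero _ h1]
        exact sum_congr rfl fun σ _ => chM_eq hz _ _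
      rw [← sum_mul, h2, zero_mul]
  have h3 := linearIndependent_iff.1 (linearIndependent_monoidHom (Multiplicative (Fin N → ℤ)) F)
    (∑ σ : A, Finsupp.single (chM hz σ.1 * e) 1 - ∑ σ : A, Finsupp.single (chM hz σ.1) 1) (by
      funext m
      simp only [map_sub, map_sum, Finsupp.linearCombination_single, one_smul, Pi.sub_apply,
        Finset.sum_apply, MonoidHom.mul_apply, key, sub_self, Pi.zero_apply])
  have h4 : ∃ σ : A, chM hz σ.1 * e = 1 := by
    by_contra h4
    push Not at h4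
    have h5 := DFunLike.congr_fun (sub_eq_zero.1 h3) 1
    simp only [Finsupp.finsetSum_apply, Finsupp.single_apply, h4, if_false, sum_const_zero,
      sum_boole] at h5
    refine (card_ne_zero.2 ⟨(1 : A), mem_filter.2 ⟨mem_univ _, ?_⟩⟩) (Nat.cast_eq_zero.1 h5.symm)
    ext m
    simp [chM, hz]
  obtain ⟨σ, h5⟩ := h4
  refine ⟨σ.1, σ.2, fun j => ?_⟩
  have h6 := DFunLike.congr_fun h5 (Multiplicative.ofAdd (Pi.single j 1))
  have h7 : ∀ a : Fin N → F, ∏ i, a i ^ (Pi.single j 1 : Fin N → ℤ) i = a j := fun a => by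
    rw [prod_eq_single j (fun i _ hi => by simp [Pi.single_eq_of_ne hi]) (by simp)]
    simp
  simp only [MonoidHom.mul_apply, chM, e, MonoidHom.coe_mk, OneHom.coe_mk, toAdd_ofAdd, h7,
    MonoidHom.one_apply] at h6
  have h8 : algebraMap ℂ F (c j) ≠ 0 := by simpa using hc j
  have h9 := hz j
  rw [Algebra.smul_def]
  field_simp at h6
  rw [h6]
  ring

/-- the element of the group for a dual vector -/
theorem exists_exp [Finite A] (hz : ∀ j, z j ≠ 0) (h : ∀ j, Eig A (z j)) {r : ℕ} (hr : 0 < r)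
    {χ : Fin N → ℤ}
    (hM : ∀ m : Fin N → ℤ, Fix A (∏ j, z j ^ m j) → (r : ℤ) ∣ ∑ j, χ j * m j) :
    ∃ g ∈ A, ∀ j, g (z j) = Complex.exp (2 * Real.pi * Complex.I * (χ j / r)) • z j := by
  refine exists_elt hz h (fun j => Complex.exp_ne_zero _) fun m hm => ?_
  obtain ⟨k, hk⟩ := hM m hm
  have r0 : (r : ℂ) ≠ 0 := by exact_mod_cast hr.ne'
  have hk' : ∑ j, (χ j : ℂ) * m j = r * k := by exact_mod_cast hk
  simp only [← Complex.exp_int_mul]
  rw [← Complex.exp_sum, ← Complex.exp_int_mul_two_pi_mul_I k]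
  congr 1
  calc _ = 2 * Real.pi * Complex.I / r * ∑ j, (χ j : ℂ) * m j := by
        rw [mul_sum]
        exact sum_congr rfl fun j _ => by ring
    _ = _ := by rw [hk']; field_simp

/-- the hypothesis (H) for a rational multiple of the order -/
theorem hyp_rat {d : ℕ} {S : Subalgebra ℂ F} {p : Ideal S} {y : Fin d → F} {q : ℕ} {h : F}
    {ε : ℝ} (hε : 0 ≤ ε) (hH : Hyp ε A S p y q h) {P : Pl F} (hP : Cen S p P) {e : ℝ} (he : 0 < e)
    {r n : ℕ} (hr : 0 < r) (hn : r * e = n)
    (hf : ∀ f, f ≠ 0 → Fix A f → ∃ n : ℤ, e * P.ord f = n) : ε ≤ e * ld y q h P := by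
  obtain ⟨a, c, hc, h1, h2⟩ := Nat.exists_coprime n r
  have g0 : 0 < Nat.gcd n r := Nat.gcd_pos_of_pos_right _ hr
  generalize Nat.gcd n r = g at h1 h2 g0
  have g1 : (0 : ℝ) < g := by exact_mod_cast g0
  have c0 : 0 < c := Nat.pos_of_mul_pos_right (h2 ▸ hr)
  have c1 : (0 : ℝ) < c := by exact_mod_cast c0
  have e1 : c * e = a := by
    rw [h1, h2] at hn
    push_cast at hn
    exact mul_right_cancel₀ g1.ne' (by linarith)
  have a1 : (1 : ℝ) ≤ a := by
    have : (0 : ℝ) < a := e1 ▸ mul_pos c1 he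
    exact_mod_cast Nat.succ_le_of_lt (by exact_mod_cast this)
  have h3 := hH P hP c c0 fun f f0 ff => by
    obtain ⟨k, hk⟩ := hf f f0 ff
    have : (a : ℝ) * P.ord f = c * k := by rw [← e1, ← hk]; ring
    have h4 : (a : ℤ) * P.ord f = c * k := by exact_mod_cast this
    exact (Nat.isCoprime_iff_coprime.2 hc.symm).dvd_of_dvd_mul_left ⟨k, h4⟩
  have h4 := mul_le_mul_of_nonneg_left h3 he.le
  nlinarith

theorem twh_of (tw : TW) : TWH := by
  intro d N q a c η κv hd hq hη
  obtain ⟨k, hk⟩ := tw d N q a c η κv hd hq hη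
  refine ⟨k, fun F κ _ _ _ _ A S p z y D h t w Φ δ x a' E r χ hL hD hU hA hM ε hε hH => ?_⟩
  obtain ⟨P, e, hP, he, ⟨n, hn⟩, hf, hb, -⟩ := hk F κ A S p z y D h t w Φ δ x a' E r χ hL hD hU
    (exists_exp hL.pt.ne hL.pt.eig hU.pos hM)
  exact (hyp_rat hε hH hP he hU.pos hn hf).trans hb

end Vale.Agent.P283R.Tx
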