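import Vale.Agent.P283R.Be2.TwK
import Vale.Agent.P283R.Be2.TwH
import Vale.Agent.P283R.Be2.Tw1
import Vale.Agent.P283R.Be2.Kb
import Vale.Agent.P283R.Be2.Arc
import Vale.Agent.P283R.Be2.Hh

/-!
# P283R, block BE: the order of a semi-invariant function along the twisted arc
-/

attribute [-instance] HahnSeries.powerSeriesAlgebra

open Vale.Agent.P287D Finset

noncomputable section

namespace Vale.Agent.P283R.Tx

open Co (Ge)

variable {F κ : Type} [Field F] [Algebra ℂ F] [Field κ] [Algebra ℂ κ] {d N : ℕ}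
  {A : Subgroup (F ≃ₐ[ℂ] F)} {S : Subalgebra ℂ F} {p : Ideal S} {z : Fin N → F}

namespace Pc

theorem stab (h : Pt d A S p z) : Stab A S := fun σ hσ a ha => by
  obtain ⟨b, -, e⟩ := h.inr σ hσ ⟨a, ha⟩
  exact (sub_eq_iff_eq_add.1 e : σ a = b + a) ▸ S.add_mem b.2 ha

/-- a semi-invariant function is a combination of the monomials of its class -/
theorem proj (h : Pt d A S p z) {f : F} (hf : f ∈ Lo S p) (ef : Eig A f) (K : ℕ)
    (V : Submodule ℂ F) (h1 : Bkb.Wk S p z K ≤ V)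
    (h2 : ∀ b : Fin N → ℕ, ∑ j, b j < K → Fix A (f / ∏ j, z j ^ b j) → ∏ j, z j ^ b j ∈ V) :
    f ∈ V := by
  classical
  let G : Set F := {v | ∃ b : Fin N → ℕ, ∑ j, b j < K ∧ Fix A (f / ∏ j, z j ^ b j) ∧
    v = ∏ j, z j ^ b j}
  refine (sup_le h1 (Submodule.span_le.2 ?_) : Bkb.Wk S p z K ⊔ Submodule.span ℂ G ≤ V) ?_
  · rintro _ ⟨b, hb, e, rfl⟩
    exact h2 b hb e
  by_contra h0
  obtain ⟨w, hw, x, hx, e⟩ := Submodule.mem_sup.1 (Bkb.expk h hf K)
  obtain ⟨T, hT, hx'⟩ := Submodule.mem_span_finite_of_mem_span hx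
  obtain ⟨v, hv, r⟩ := Bkb.pick _ (fun σ hσ a ha => by
      obtain ⟨a1, k1, a2, k2, rfl⟩ := Submodule.mem_sup.1 ha
      rw [map_add]
      refine Submodule.add_mem_sup (Bkb.wk_st h (stab h) K σ hσ _ k1) ?_
      clear ha
      induction k2 using Submodule.span_induction with
      | mem u hu =>
        obtain ⟨b, k3, k4, rfl⟩ := hu
        obtain ⟨c, hc⟩ := Bkb.eig_mon h.eig b σ hσ
        exact hc ▸ Submodule.smul_mem _ _ (Submodule.subset_span ⟨b, k3, k4, rfl⟩)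
      | zero => simp
      | add x y _ _ a b => rw [map_add]; exact add_mem a b
      | smul a x _ b => rw [map_smul]; exact Submodule.smul_mem _ _ b) ef h0
    (T.filter (· ∉ G)) (fun v hv => by
      obtain ⟨b, -, rfl⟩ := hT (mem_filter.1 hv).1
      exact Bkb.eig_mon h.eig b) (by
      refine (congrArg (· ∈ _) e).mp (add_mem (Submodule.mem_sup_left (Submodule.mem_sup_left hw))
        (Submodule.span_le.2 (fun v hv => ?_) hx'))
      by_cases k : v ∈ G
      · exact Submodule.mem_sup_left (Submodule.mem_sup_right (Submodule.subset_span k))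
      · exact Submodule.mem_sup_right (Submodule.subset_span (mem_filter.2 ⟨hv, k⟩)))
  obtain ⟨b, hb, rfl⟩ := hT (mem_filter.1 hv).1
  refine (mem_filter.1 hv).2 ⟨b, hb, fun σ hσ => ?_, rfl⟩
  obtain ⟨c, h1, h2⟩ := r σ hσ
  have v0 : ∏ j, z j ^ b j ≠ 0 := prod_ne_zero_iff.2 fun j _ => pow_ne_zero _ (h.ne j)
  have c0 : c ≠ 0 := fun a => v0 (σ.injective (by rw [h2, a, zero_smul, map_zero]))
  rw [map_div₀, h1, h2, Algebra.smul_def, Algebra.smul_def,
    mul_div_mul_left _ _ ((map_ne_zero _).2 c0)]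

/-- the powers of the maximal ideal along an arc -/
theorem ge_wk (h : Pt d A S p z) {x : F →ₐ[ℂ] HahnSeries ℝ κ} (hx : Arc S p x) {η : ℝ}
    (hz : ∀ j, Ge η (x (z j))) {K : ℕ} {a : F} (ha : a ∈ Bkb.Wk S p z K) : Ge (K * η) (x a) := by
  induction ha using Submodule.span_induction with
  | mem u hu =>
    obtain ⟨c, hc, b, rfl, rfl⟩ := hu
    rw [map_mul, map_prod, Nat.cast_sum, sum_mul]
    exact (Barc.ge_lo hx h.res hc).zero_mul (Co.Ge.prod fun j _ => by
      rw [map_pow]; exact (hz j).pow _)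
  | zero => rw [map_zero]; exact Co.ge_zero _
  | add x y _ _ a b => rw [map_add]; exact a.add b
  | smul a x _ b => rw [map_smul]; exact Btw.ge_smul b a

omit [Algebra ℂ κ] in
theorem ge_one {a : HahnSeries ℝ κ} (h : Zs a) (h0 : 0 < a.orderTop) : Ge 1 a := by
  refine Co.ge_iff.2 fun g hg => by_contra fun k => ?_
  obtain ⟨n, rfl⟩ := h g k
  have h1 := h0.trans_le (HahnSeries.orderTop_le_of_coeff_ne_zero k)
  have h2 : (0 : ℝ) < n := by exact_mod_cast h1
  have h3 : 0 < n := by exact_mod_cast h2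
  have h4 : n < 1 := by exact_mod_cast hg
  omega

theorem eig_of {f : F} (h : ∀ j, Eig A (z j)) (hz : ∀ j, z j ≠ 0) {m : Fin N → ℤ}
    (hm : Fix A (f / ∏ j, z j ^ m j)) : Eig A f := fun σ hσ => by
  have v0 : ∏ j, z j ^ m j ≠ 0 := prod_ne_zero_iff.2 fun j _ => zpow_ne_zero _ (hz j)
  obtain ⟨c, hc⟩ := eig_mon h m σ hσ
  refine ⟨c, ?_⟩
  conv_lhs => rw [← div_mul_cancel₀ f v0, map_mul, hm σ hσ, hc]
  rw [mul_smul_comm, div_mul_cancel₀ f v0]

end Pc

open Pc

/-- the twisted arc on a semi-invariant function, up to any order -/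
theorem cls_ge (N : ℕ) (c B H : ℝ) {η : ℝ} (hη : 0 < η) : ∃ (n₀ : ℝ) (k₀ : ℕ), ∀ n, n₀ ≤ n →
    ∀ k, k₀ ≤ k → ∀ (F κ : Type) [Field F] [Algebra ℂ F] [Field κ] [Algebra ℂ κ] (d : ℕ)
      (A : Subgroup (F ≃ₐ[ℂ] F)) (S : Subalgebra ℂ F) (p : Ideal S) (z : Fin N → F)
      (x ψ : F →ₐ[ℂ] HahnSeries ℝ κ) (r : ℕ) (χ : Fin N → ℤ) (J : Fin d → Fin N), Pt d A S p z →
      Arc S p x → (∀ f, Zs (x f)) → Dua c η k A z x r χ → Ex n S p z x r χ J ψ →
      ∀ f ∈ Lo S p, ∀ m : Fin N → ℤ, (∀ j, (|m j| : ℝ) ≤ B) → Fix A (f / ∏ j, z j ^ m j) →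
        Ge H (ψ f - HahnSeries.single (∑ j, (χ j / r : ℝ) * m j) 1 * x f) := by
  obtain ⟨K, hK⟩ := exists_nat_ge (max (H / η) (H + N * (c * B)))
  have K1 : H ≤ K * η := (div_le_iff₀ hη).1 ((le_max_left _ _).trans hK)
  have K2 : H + N * (c * B) ≤ K := (le_max_right _ _).trans hK
  refine ⟨max (max H η) 0, K + ⌈B⌉₊, fun n hn k hk F κ _ _ _ _ d A S p z x ψ r χ J pt hx zs du ex
    f hf m hm fm => ?_⟩
  by_cases f0 : f = 0
  · simpa [f0] using Co.ge_zero H
  have n1 : H ≤ n := ((le_max_left _ _).trans (le_max_left _ _)).trans hn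
  have n2 : η ≤ n := ((le_max_right _ _).trans (le_max_left _ _)).trans hn
  have n3 : 0 ≤ n := (le_max_right _ _).trans hn
  set s : ℝ := ∑ j, (χ j / r : ℝ) * m j with hs
  have s1 : -(N * (c * B)) ≤ s := by
    have : ∑ _j : Fin N, -(c * B) ≤ s := sum_le_sum fun j _ => by
      refine neg_le_of_abs_le ?_
      rw [abs_mul]
      exact mul_le_mul (du.bd j) (hm j) (abs_nonneg _) ((abs_nonneg _).trans (du.bd j))
    simpa using this
  have t1 : ∀ j, Ge η (HahnSeries.single (χ j / r : ℝ) 1 * x (z j)) := fun j => by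
    have := (Co.ge_single (χ j / r : ℝ) (1 : κ)).mul (du.ge j)
    rwa [add_sub_cancel] at this
  have t2 : ∀ j, Ge η (ψ (z j)) := fun j => by
    have := ((ex.near j).mono n2).add (t1 j)
    rwa [sub_add_cancel] at this
  have t3 : ∀ j, Ge 1 (x (z j)) := fun j => by
    obtain ⟨a, ha, e⟩ := pt.mem j
    exact ge_one (zs _) (e ▸ hx.pos a ha)
  let V : Submodule ℂ F :=
    { carrier := {g | Ge H (ψ g - HahnSeries.single s 1 * x g)}
      zero_mem' := by simpa using Co.ge_zero H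
      add_mem' := fun {a b} ha hb => by
        have := Co.Ge.add ha hb
        simp only [Set.mem_ofPred_eq, map_add, mul_add]
        rwa [add_sub_add_comm]
      smul_mem' := fun c a ha => by
        have := Btw.ge_smul ha c
        simp only [Set.mem_ofPred_eq, map_smul, mul_smul_comm]
        rwa [← smul_sub] }
  refine proj pt hf (eig_of pt.eig pt.ne fm) K V (fun a ha => ?_) fun b hb fb => ?_
  · exact ((ge_wk pt ex.arc t2 ha).mono K1).sub
      (((Co.ge_single s 1).mul (ge_wk pt hx t3 ha)).mono (by linarith))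
  · have e : ∑ j, χ j * (m j - b j) = 0 := du.low _ (fun j => by
      have a1 : b j ≤ K := (single_le_sum (f := b) (fun _ _ => Nat.zero_le _) (mem_univ j)).trans hb.le
      have a2 : |m j| ≤ ⌈B⌉₊ := by exact_mod_cast (hm j).trans (Nat.le_ceil B)
      have a3 : (K : ℤ) + ⌈B⌉₊ ≤ k := by exact_mod_cast hk
      have := abs_le.1 a2
      rw [abs_le]
      omega) fun σ hσ => by
      have v0 : ∏ j, z j ^ m j ≠ 0 := prod_ne_zero_iff.2 fun j _ => zpow_ne_zero _ (pt.ne j)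
      have v1 : ∏ j, z j ^ b j ≠ 0 := prod_ne_zero_iff.2 fun j _ => pow_ne_zero _ (pt.ne j)
      have : ∏ j, z j ^ (m j - b j) = (f / ∏ j, z j ^ b j) / (f / ∏ j, z j ^ m j) := by
        simp only [zpow_sub₀ (pt.ne _), zpow_natCast, prod_div_distrib]
        field_simp
      rw [this, map_div₀, fm σ hσ, fb σ hσ]
    have e' : s = ∑ j, (b j : ℝ) * (χ j / r) := by
      have : ∑ j, (χ j : ℝ) * (m j - b j) = 0 := by exact_mod_cast e
      rw [hs, ← sub_eq_zero, ← sum_sub_distrib, ← zero_div (r : ℝ), ← this, sum_div]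
      exact sum_congr rfl fun j _ => by ring
    have k1 := (Btw.lipH (fun j => (t1 j).mono hη.le) n3 ex.near
      (∏ j, MvPolynomial.X j ^ b j)).1.mono n1
    simp only [map_prod, map_pow, MvPolynomial.aeval_X, mul_pow, prod_mul_distrib,
      HahnSeries.single_pow, one_pow, Btw.prod_single, nsmul_eq_mul, ← e'] at k1
    show Ge H _
    simpa only [map_prod, map_pow] using k1

/-- **the class projection**: the exact order of a semi-invariant function -/
theorem cls (N : ℕ) (a c B : ℝ) {η : ℝ} (hη : 0 < η) : ∃ (n₀ : ℝ) (k₀ : ℕ), ∀ n, n₀ ≤ n →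
    ∀ k, k₀ ≤ k → ∀ (F κ : Type) [Field F] [Algebra ℂ F] [Field κ] [Algebra ℂ κ] (d : ℕ)
      (A : Subgroup (F ≃ₐ[ℂ] F)) (S : Subalgebra ℂ F) (p : Ideal S) (z : Fin N → F)
      (x ψ : F →ₐ[ℂ] HahnSeries ℝ κ) (r : ℕ) (χ : Fin N → ℤ) (J : Fin d → Fin N), Pt d A S p z →
      Arc S p x → (∀ f, Zs (x f)) → Dua c η k A z x r χ → Ex n S p z x r χ J ψ →
      ∀ f ∈ Lo S p, ∀ m : Fin N → ℤ, (∀ j, (|m j| : ℝ) ≤ B) → Fix A (f / ∏ j, z j ^ m j) →
        ∀ v : ℝ, (x f).orderTop = v → v ≤ a →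
          (ψ f).orderTop = (v + ∑ j, (χ j / r : ℝ) * m j : ℝ) := by
  obtain ⟨n₀, k₀, h⟩ := cls_ge N c B (a + N * (c * B) + 1) hη
  refine ⟨n₀, k₀, fun n hn k hk F κ _ _ _ _ d A S p z x ψ r χ J pt hx zs du ex f hf m hm fm v hv
    ha => Hh.ord_eq ?_ (h n hn k hk F κ d A S p z x ψ r χ J pt hx zs du ex f hf m hm fm) ?_⟩
  · rw [HahnSeries.orderTop_mul, HahnSeries.orderTop_single one_ne_zero, hv, add_comm v,
      WithTop.coe_add]
  · have : ∑ j, (χ j / r : ℝ) * m j ≤ ∑ _j : Fin N, c * B := sum_le_sum fun j _ => by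
      refine le_of_abs_le ?_
      rw [abs_mul]
      exact mul_le_mul (du.bd j) (hm j) (abs_nonneg _) ((abs_nonneg _).trans (du.bd j))
    simp only [sum_const, card_univ, Fintype.card_fin, nsmul_eq_mul] at this
    linarith

end Vale.Agent.P283R.Tx
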