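import Vale.Agent.P283R.Be2.TwL
import Vale.Agent.P283R.Be2.TwP

/-!
# P283R, block BE: the twist from its core
-/

noncomputable section

namespace Vale.Agent.P283R.Tx

theorem cls' : CLS := fun d N a c η B hη => by
  obtain ⟨n₀, k₀, h⟩ := cls N a c B hη
  exact ⟨n₀, k₀, fun n k hn hk F κ _ _ _ _ A S p z x r χ J ψ pt hx zs du ex f hf m hm fm v hv ha =>
    (h n hn k hk F κ d A S p z x ψ r χ J pt hx zs du ex f hf m
      (fun j => by exact_mod_cast hm j) fm v hv ha).ge⟩

/-- **TW** from the core -/
theorem tw_core (hC : TWC) : TW := tw_of hC cls'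

/-- **TWH** from the core -/
theorem twh_core (hC : TWC) : TWH := twh_of (tw_core hC)

end Vale.Agent.P283R.Tx
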