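import Vale.Agent.P283R.Be2.All0
import Vale.Agent.P283R.Be2.RSkA
import Vale.Agent.P283R.Be2.GlA
import Vale.Agent.P283R.Be2.TwM

/-!
# P283R, block BE: everything follows from the exact twisted arc
-/

namespace Vale.Agent.P283R.Be2

theorem lte_twh (h : Tx.TWH) : Bc.LTE := Bc.lte0 Bc.sk h

theorem abp_twh (h : Tx.TWH) : Bh.ABP := Bgl.abp_of (lte_twh h)

theorem abe_twh (h : Tx.TWH) : Bx.ABE := Bgl.abe_of (lte_twh h)

end Vale.Agent.P283R.Be2
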