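import Vale.Agent.P283R.Be2.Cs
import Vale.Agent.P283R.Be2.Arc

/-!
# P283R, block BE: the arcs are centred at the point
-/

namespace Vale.Agent.P283R.Be2

open Barc

/-- **ARC** -/
theorem arc : ARC := by
  intro d F κ _ _ _ _ S p t w Φ x μ h sp res pp hμ ht hw
  have pos : ∀ {a : HahnSeries ℝ κ}, Co.Ge μ a → 0 < a.orderTop := fun k =>
    lt_of_lt_of_le (by exact_mod_cast hμ) k
  have g : ∀ a ∈ S, Co.Ge 0 (x a) := fun a ha => by
    obtain ⟨G, h1, h2⟩ := h.int a ha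
    exact int_ge x (fun l => (ht l).mono hμ.le) h1 h2
  have a : Tx.Arc S p x := ⟨g, sp.sep _ (cen_prime S x g) (by
    rintro s (e | ⟨l, e⟩)
    · exact (vx_lt x _).2 (e ▸ pos hw)
    · exact (vx_lt x _).2 (e ▸ pos (ht l)))⟩
  exact ⟨a, fun s hs => ord_zero a res hs⟩

end Vale.Agent.P283R.Be2
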