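import Vale.Agent.P283R.Lp.B

/-!
# P283R, block BE: the lattice rows (inequality (P) for the limit, vertices) without arcs
-/

namespace Vale.Agent.P283R.Blp

open Filter Finset Topology
open Vale.Agent.P283.H647 (limLat)

variable {ι : Type} [Fintype ι]

/-- vertices, all weights finite -/
theorem ver0 (L : AddSubgroup (ι → ℤ)) (κ : ι → ℤ) {Q : ℕ} (hQ : 0 < Q) :
    ∃ (n : ℕ) (C : Finset (ι → ℕ)), 0 < n ∧ Q ∣ n ∧
      (∀ c ∈ C, (fun j => (c j : ℤ) - (n / Q : ℕ) * κ j) ∈ L) ∧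
      ∀ (a : ℝ) (w : ι → ℝ), (∀ j, 0 ≤ w j) →
        (∀ ζ : ι → ℝ, (∀ m ∈ L, ∑ j, ζ j * m j = 0) → (∀ j, 0 ≤ w j + ζ j) →
          0 ≤ a + ∑ j, (κ j : ℝ) / Q * ζ j) → ∃ c ∈ C, (∑ j, (c j : ℝ) * w j) / n ≤ a := by
  obtain ⟨n, V, hn, hV, h⟩ := Lp.vert L κ
  have hQ' : (0 : ℝ) < Q := by exact_mod_cast hQ
  have hn' : (0 : ℝ) < n := by exact_mod_cast hn
  refine ⟨Q * n, V, Nat.mul_pos hQ hn, Dvd.intro _ rfl, fun c hc => ?_, ?_⟩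
  · rw [Nat.mul_div_cancel_left n hQ]
    exact hV c hc
  · intro a w hw hP
    have key : ∀ s : ℝ, (∀ c ∈ V, n * s ≤ ∑ j, (c j : ℝ) * w j) → s / Q ≤ a := by
      intro s hs
      obtain ⟨ζ, h1, h2, h3⟩ := h w s hw hs
      have h4 := hP ζ h1 h2
      have e : ∑ j, (κ j : ℝ) / Q * ζ j = (∑ j, ζ j * (κ j : ℝ)) / Q := by
        rw [sum_div]
        exact sum_congr rfl fun j _ => by ring
      have h5 : s / Q ≤ (-∑ j, ζ j * (κ j : ℝ)) / Q := div_le_div_of_nonneg_right h3 hQ'.le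
      rw [e] at h4
      rw [neg_div] at h5
      linarith
    rcases V.eq_empty_or_nonempty with rfl | hne
    · have := key (Q * (a + 1)) (by simp)
      rw [mul_div_cancel_left₀ _ hQ'.ne'] at this
      linarith
    · obtain ⟨c, hc, hm⟩ := V.exists_min_image (fun c => ∑ j, (c j : ℝ) * w j) hne
      refine ⟨c, hc, ?_⟩
      have := key ((∑ j, (c j : ℝ) * w j) / n) fun c' hc' => by
        rw [mul_div_cancel₀ _ hn'.ne']
        exact hm c' hc'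
      rwa [div_div, mul_comm (n : ℝ), ← Nat.cast_mul] at this

/-- **vertices**: the weights of the coordinates in `J` are infinite -/
theorem ver (L : AddSubgroup (ι → ℤ)) (κ : ι → ℤ) {Q : ℕ} (hQ : 0 < Q) :
    ∃ (n : ℕ) (C : Finset (ι → ℕ)), 0 < n ∧ Q ∣ n ∧
      (∀ c ∈ C, (fun j => (c j : ℤ) - (n / Q : ℕ) * κ j) ∈ L) ∧
      ∀ (a : ℝ) (w : ι → ℝ) (J : Set ι), (∀ j, 0 ≤ w j) →
        (∀ ζ : ι → ℝ, (∀ m ∈ L, ∑ j, ζ j * m j = 0) → (∀ j, j ∉ J → 0 ≤ w j + ζ j) →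
          0 ≤ a + ∑ j, (κ j : ℝ) / Q * ζ j) →
        ∃ c ∈ C, (∀ j ∈ J, c j = 0) ∧ (∑ j, (c j : ℝ) * w j) / n ≤ a := by
  classical
  obtain ⟨n, C, hn, hd, hc, h⟩ := ver0 L κ hQ
  refine ⟨n, C, hn, hd, hc, fun a w J hw hP => ?_⟩
  have hn' : (0 : ℝ) < n := by exact_mod_cast hn
  have h0 : ∀ j, 0 ≤ w j + if j ∈ J then n * |a| + 1 else 0 := fun j => by
    have := hw j
    split_ifs <;> positivity
  obtain ⟨c, hc, h1⟩ := h a _ h0 fun ζ h1 h2 => hP ζ h1 fun j hj => by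
    simpa only [if_neg hj, add_zero] using h2 j
  refine ⟨c, hc, fun j hj => ?_, le_trans (div_le_div_of_nonneg_right (sum_le_sum fun j _ =>
    mul_le_mul_of_nonneg_left (le_add_of_nonneg_right ?_) (Nat.cast_nonneg _)) hn'.le) h1⟩
  · by_contra h2
    have h3 : (1 : ℝ) ≤ c j := by exact_mod_cast Nat.one_le_iff_ne_zero.2 h2
    have h4 := single_le_sum (f := fun j => (c j : ℝ) * (w j + if j ∈ J then n * |a| + 1 else 0))
      (fun j _ => mul_nonneg (Nat.cast_nonneg _) (h0 j)) (mem_univ j)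
    rw [div_le_iff₀ hn'] at h1
    have h5 := h0 j
    simp only [if_pos hj] at h4 h5
    have h6 := le_abs_self a
    have h7 := hw j
    nlinarith
  · split_ifs <;> positivity

/-- **(P) for the limit** from any supply `T` of twists -/
theorem pp_sup {U : Ultrafilter ℕ} {L : AddSubgroup (ι → ℤ)} (T : ℕ → ℕ → (ι → ℤ) → Prop)
    {w κ : ι → ℝ} {J : Set ι} {a ε : ℝ} (hw : ∀ j, j ∉ J → 0 < w j)
    (hS : ∀ (z : ι → ℝ) (η : ℝ), (∀ m ∈ L, ∑ j, z j * m j = 0) → 0 < η →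
      (∀ j, j ∉ J → 2 * η ≤ w j + z j) → ∀ᶠ i in (U : Filter ℕ), ∃ (r : ℕ) (χ : ι → ℤ), 0 < r ∧
        T i r χ ∧ ∀ j, |(χ j / r : ℝ) - z j| < η)
    (hL : ∀ η b : ℝ, 0 < η → ∀ᶠ i in (U : Filter ℕ), ∀ (r : ℕ) (χ : ι → ℤ), 0 < r → T i r χ →
      (∀ j, j ∉ J → η ≤ w j + (χ j / r : ℝ)) → (∀ j, |(χ j / r : ℝ)| ≤ b) →
      ε ≤ a + ∑ j, κ j * (χ j / r : ℝ))
    (ζ : ι → ℝ) (hζ : ∀ m ∈ L, ∑ j, ζ j * m j = 0) (h0 : ∀ j, j ∉ J → 0 ≤ w j + ζ j) :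
    ε ≤ a + ∑ j, κ j * ζ j := by
  obtain ⟨μ, hμ, hμ0⟩ : ∃ μ : ℝ, (∀ j, j ∉ J → μ ≤ w j) ∧ 0 < μ := by
    have : ∀ᶠ μ : ℝ in 𝓝[>] 0, ∀ j, j ∉ J → μ ≤ w j := eventually_all.2 fun j => by
      by_cases hj : j ∈ J
      · exact Eventually.of_forall fun _ h => absurd hj h
      · exact (eventually_nhdsWithin_of_eventually_nhds (ge_mem_nhds (hw j hj))).mono fun _ h _ => h
    exact (this.and self_mem_nhdsWithin).exists
  set D : ℝ := ∑ j, |κ j| * (μ / 2 + |ζ j|) with hD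
  have D0 : 0 ≤ D := sum_nonneg fun j _ => by positivity
  refine le_of_forall_pos_le_add fun θ hθ => ?_
  obtain ⟨δ, hδ, hδ1, hδ2⟩ : ∃ δ : ℝ, 0 < δ ∧ δ ≤ 1 ∧ δ * D ≤ θ := by
    refine ⟨min 1 (θ / (D + 1)), lt_min one_pos (by positivity), min_le_left _ _, ?_⟩
    calc _ ≤ θ / (D + 1) * D := mul_le_mul_of_nonneg_right (min_le_right _ _) D0
      _ ≤ θ / (D + 1) * (D + 1) := mul_le_mul_of_nonneg_left (by linarith) (by positivity)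
      _ = θ := by field_simp
  have hη : 0 < δ * μ / 2 := by positivity
  have hw1 : ∀ j, j ∉ J → 2 * (δ * μ / 2) ≤ w j + (1 - δ) * ζ j := fun j hj => by
    have := hμ j hj
    have := h0 j hj
    nlinarith
  obtain ⟨i, hi, r, χ, hr, h1, h3⟩ :=
    ((hL (δ * μ / 2) (∑ j, (|ζ j| + δ * (μ / 2 + |ζ j|))) hη).and
      (hS (fun j => (1 - δ) * ζ j) _ (fun m hm => by
        simp only [mul_assoc, ← mul_sum, hζ m hm, mul_zero]) hη hw1)).exists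
  have h6 : ∀ j, |(χ j / r : ℝ) - ζ j| ≤ δ * (μ / 2 + |ζ j|) := fun j => by
    have e : (χ j / r : ℝ) - ζ j = ((χ j / r : ℝ) - (1 - δ) * ζ j) - δ * ζ j := by ring
    rw [e]
    refine (abs_sub _ _).trans ?_
    rw [abs_mul, abs_of_pos hδ]
    linarith [h3 j]
  have h7 := hi r χ hr h1 (fun j hj => by linarith [hw1 j hj, (abs_lt.1 (h3 j)).1]) fun j => by
    refine le_trans ?_ (single_le_sum (f := fun j => |ζ j| + δ * (μ / 2 + |ζ j|))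
      (fun j _ => by positivity) (mem_univ j))
    linarith [abs_sub_abs_le_abs_sub (χ j / r : ℝ) (ζ j), h6 j]
  have h8 : ∑ j, κ j * (χ j / r : ℝ) ≤ ∑ j, κ j * ζ j + δ * D := by
    rw [hD, mul_sum, ← sum_add_distrib]
    refine sum_le_sum fun j _ => ?_
    have a1 : κ j * ((χ j / r : ℝ) - ζ j) ≤ |κ j| * (δ * (μ / 2 + |ζ j|)) := by
      refine (le_abs_self _).trans ?_
      rw [abs_mul]
      exact mul_le_mul_of_nonneg_left (h6 j) (abs_nonneg _)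
    nlinarith
  linarith

/-- **(P) for the limit lattice** from the bound at the levels -/
theorem pp {U : Ultrafilter ℕ} (M : ℕ → AddSubgroup (ι → ℤ)) {w κ : ι → ℝ} {J : Set ι} {a ε : ℝ}
    (hw : ∀ j, j ∉ J → 0 < w j)
    (hL : ∀ η b : ℝ, 0 < η → ∀ᶠ i in (U : Filter ℕ), ∀ (r : ℕ) (χ : ι → ℤ), 0 < r →
      (∀ m ∈ M i, (r : ℤ) ∣ ∑ j, χ j * m j) → (∀ m ∈ limLat U M, ∑ j, χ j * m j = 0) →
      (∀ j, j ∉ J → η ≤ w j + (χ j / r : ℝ)) → (∀ j, |(χ j / r : ℝ)| ≤ b) →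
      ε ≤ a + ∑ j, κ j * (χ j / r : ℝ))
    (ζ : ι → ℝ) (hζ : ∀ m ∈ limLat U M, ∑ j, ζ j * m j = 0) (h0 : ∀ j, j ∉ J → 0 ≤ w j + ζ j) :
    ε ≤ a + ∑ j, κ j * ζ j :=
  pp_sup (U := U) (fun i r χ => (∀ m ∈ M i, (r : ℤ) ∣ ∑ j, χ j * m j) ∧
      ∀ m ∈ limLat U M, ∑ j, χ j * m j = 0) hw
    (fun z _ hz hη _ => (Lp.densq U M z hz hη).mono fun _ ⟨r, χ, h1, h2, h3, h4⟩ =>
      ⟨r, χ, h1, ⟨h2, h3⟩, h4⟩)
    (fun η b hη => (hL η b hη).mono fun _ h r χ h1 h2 => h r χ h1 h2.1 h2.2) ζ hζ h0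

end Vale.Agent.P283R.Blp
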