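import Vale.Agent.P283R.Be2.Cor
import Vale.Agent.P283R.Be2.Apz

/-!
# P283R, block BE: the assembly of the core, on the row `APY`
-/

attribute [-instance] HahnSeries.powerSeriesAlgebra

open Filter
open Vale.Agent.P285N.Brep (jac Fr)
open Vale.Agent.P287D
open Vale.Agent.P283.H647 (limLat)

noncomputable section

namespace Vale.Agent.P283R.Bc

open Co (Ge UK ulim)
open Tx Be2

namespace Cq

open Cr (sum_vv pk live)

variable {d N : ℕ}

/-- the attaining place -/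
theorem atb (ldt : LDT) {q k₀ n k : ℕ} {κv : Fin N → ℤ} {X : Dt d N} (hd : 0 < d)
    (hq : 0 < q) (hn : q ∣ n) (pk : X.Pk q k₀ κv) {a ρ E μ c₀ : ℝ} {v : Fin N → ℝ}
    {J : Set (Fin N)} {C : Finset (Fin N → ℕ)} (h0 : 0 ≤ c₀) (hμ : 0 < μ)
    (har : X.Ar q a ρ E v J μ (n * a - (n / q : ℕ) * E)) (k1 : ρ < k * μ) (k2 : E < k * μ)
    (k3 : n * a - (n / q : ℕ) * E < k * μ) (hc : ∀ c ∈ C, (∀ j ∈ J, c j = 0) →
      n * a ≤ (n / q : ℕ) * E + ∑ j, (c j : ℝ) * v j + c₀ * μ) : X.AtB q n C c₀ k k := by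
  obtain ⟨κ, _, _, δ, x, h1, h2, h3, h4, h5, h6, h7, h8, h9⟩ := har
  obtain ⟨P, e, e0, p1, p3, p2⟩ := Be2.apy d _ κ _ _ _ _ _ δ x a hd pk.lev.pt.aff.ff pk.sk.prj
    pk.lev.pt.res h1 h2 h3 h4
  obtain ⟨l1, l2, l3⟩ := ldt d N q k₀ κv X hq pk
  have a1 : ρ = e * P.ord X.dd := by exact_mod_cast h5.symm.trans (p3 _ l1)
  have a2 : E = e * P.ord (X.del q) := by exact_mod_cast h6.symm.trans (p3 _ l2)
  have a3 : ∀ j ∉ J, v j = e * P.ord (X.z j) := fun j hj => by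
    exact_mod_cast (h7 j hj).symm.trans (p3 _ (pk.lev.pt.ne j))
  have a4 : ∀ j ∈ J, n * a - (n / q : ℕ) * E ≤ e * P.ord (X.z j) := fun j hj => by
    have := h8 j hj
    rw [Ge, p3 _ (pk.lev.pt.ne j)] at this
    exact_mod_cast this
  have a5 : ∀ j, 0 ≤ e * P.ord (X.z j) := fun j => by
    obtain ⟨s, -, hs⟩ := pk.lev.pt.mem j
    have := h1.ge _ (hs ▸ s.2)
    rw [Ge, p3 _ (pk.lev.pt.ne j)] at this
    exact_mod_cast this
  have q0 : (q : ℝ) ≠ 0 := by exact_mod_cast hq.ne'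
  have n0 : (0 : ℝ) ≤ n := Nat.cast_nonneg n
  have a6 : e * (n * ld X.y q X.h P) ≤ n * a - (n / q : ℕ) * E := by
    rw [l3, Nat.cast_div hn q0, a2]
    have := mul_le_mul_of_nonneg_left p2 n0
    have e1 : e * (n * (1 + kap X.t P - P.ord (X.del q) / q)) =
      n * (e * (1 + kap X.t P)) - n / q * (e * P.ord (X.del q)) := by ring
    linarith
  have em : e * (μ / e) = μ := mul_div_cancel₀ _ e0.ne'
  have ek : e * (k * (μ / e)) = k * μ := by rw [mul_left_comm, em]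
  refine ⟨P, μ / e, p1, div_pos hμ e0, fun l => ?_, ?_, ?_, ?_, fun c hc' => ?_⟩
  · have := h9 l
    rw [Ge, p3 _ (pk.sk.ind.ne_zero l)] at this
    rw [div_le_iff₀' e0]
    exact_mod_cast this
  · exact lt_of_mul_lt_mul_left (by rw [ek, ← a1]; exact k1) e0.le
  · exact lt_of_mul_lt_mul_left (by rw [ek, ← a2]; exact k2) e0.le
  · exact lt_of_mul_lt_mul_left (by rw [ek]; linarith) e0.le
  · refine le_of_mul_le_mul_left ?_ e0
    have e1 : e * (∑ j, (c j : ℝ) * P.ord (X.z j) + c₀ * (μ / e)) =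
        ∑ j, (c j : ℝ) * (e * P.ord (X.z j)) + c₀ * μ := by
      rw [mul_add, mul_left_comm e c₀, em, Finset.mul_sum]
      exact congrArg (· + c₀ * μ) (Finset.sum_congr rfl fun j _ => by ring)
    rw [e1]
    by_cases hJ : ∀ j ∈ J, c j = 0
    · have e2 : ∑ j, (c j : ℝ) * v j = ∑ j, (c j : ℝ) * (e * P.ord (X.z j)) :=
        Finset.sum_congr rfl fun j _ => by
          by_cases hj : j ∈ J
          · simp [hJ j hj]
          · rw [a3 j hj]
      have := hc c hc' hJ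
      linarith
    · push Not at hJ
      obtain ⟨j, hj, c1⟩ := hJ
      have c2 : (1 : ℝ) ≤ c j := by exact_mod_cast Nat.pos_of_ne_zero c1
      have c3 := Finset.single_le_sum (f := fun j => (c j : ℝ) * (e * P.ord (X.z j)))
        (fun j _ => mul_nonneg (Nat.cast_nonneg _) (a5 j)) (Finset.mem_univ j)
      have c4 := mul_le_mul_of_nonneg_right c2 (a5 j)
      have c5 := mul_nonneg h0 hμ.le
      have := a4 j hj
      linarith

/-- the conclusion at most of the levels -/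
theorem lim (ldt : LDT) (lci : LCI) (nz : NZ) (up : UP) (dn : DN) (tw : TWH)
    {q k₀ : ℕ} {κv : Fin N → ℤ} {𝒰 : Ultrafilter ℕ} {X : ℕ → Dt d N}
    (hz : ∀ i j, (X i).z j ≠ 0) (hd : 0 < d) (hq : 0 < q) {ε : ℝ} (hε : 0 < ε)
    (hX : ∀ᶠ i in (𝒰 : Filter ℕ), (X i).Pk q k₀ κv) (fin : ∀ i, Finite (X i).A)
    (hy : ∀ i, Hyp ε (X i).A (X i).S (X i).p (X i).y q (X i).h)
    (kl : ∀ i, KL (X i).S (X i).p (X i).y) : ∃ n, 0 < n ∧ q ∣ n ∧ ∀ᶠ i in (𝒰 : Filter ℕ),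
      Mn n q (X i).A (X i).S (X i).p (X i).z (X i).y (X i).h := by
  classical
  obtain ⟨n, C, n0, nq, hC, hv⟩ := Blp.ver (limLat 𝒰 fun i => (X i).M (hz i)) κv hq
  obtain ⟨P0, a₀, Z₀, o₀, μ₀, g1, g2, g3⟩ := nz d N q k₀ κv 𝒰 X hd hq hX
  have : Nonempty (Fin d) := ⟨⟨0, hd⟩⟩
  have q0 : (q : ℝ) ≠ 0 := by exact_mod_cast hq.ne'
  have n1 : (0 : ℝ) < n := by exact_mod_cast n0
  have dD : ∀ {Z : Set (Ix N)}, (∀ b ∈ ({none, some none} : Set (Ix N)), b ∉ Z) ↔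
      none ∉ Z ∧ some none ∉ Z := by simp
  obtain ⟨c₀, c0, lb, a, Z, o, μ, ib, hD, ⟨c₁, -⟩, at'⟩ := att2 (finSuccEquiv d) P0 Fin.succ (LF 𝒰 X)
    {none, some none} (fun c : C => vv q n c.1) n ⟨a₀, Z₀, o₀, μ₀, g1, dD.2 ⟨g2, g3⟩⟩
    fun a Z o μ ib hD => by
      obtain ⟨z1, z2⟩ := dD.1 hD
      obtain ⟨p1, p2⟩ := pk tw hz hd hq hε hX fin hy (dn d N q k₀ κv 𝒰 X hd hq hX a Z o μ ib z1 z2)
      obtain ⟨c, c1, c2, c3⟩ := hv (a - ((o (some none) : ℝ) - o none) / q - ε)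
        (fun j => if some (some j) ∈ Z then 0 else (o (some (some j)) : ℝ) - o none)
        {j | some (some j) ∈ Z} (fun j => by
          split_ifs with h
          · exact le_rfl
          · exact (p1 j h).le) fun ζ a1 a2 => by
          have := p2 ζ a1 fun j hj => by
            have := a2 j hj
            rwa [if_neg (show some (some j) ∉ Z from hj)] at this
          linarith
      refine ⟨⟨c, c1⟩, (live z1 z2).2 c2, ?_⟩
      have e : ∑ j, (c j : ℝ) * (if some (some j) ∈ Z then 0 else (o (some (some j)) : ℝ) - o none) =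
          ∑ j, (c j : ℝ) * ((o (some (some j)) : ℝ) - o none) :=
        Finset.sum_congr rfl fun j _ => by
          split_ifs with h
          · simp [c2 j h]
          · rfl
      have e' := sum_vv q n c fun b => o b
      rw [e, div_le_iff₀ n1] at c3
      rw [Nat.cast_div nq q0] at e'
      have e2 : (a - ((o (some none) : ℝ) - o none) / q - ε) * n =
        n * a - n / q * ((o (some none) : ℝ) - o none) - ε * n := by ring
      have : ∑ b, (vv q n c b : ℝ) * o b < n * a := by linarith [mul_pos hε n1]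
      exact_mod_cast this
  obtain ⟨z1, z2⟩ := dD.1 hD
  have m0 : 0 < μ := by obtain ⟨_, _, _, _, _, _, h, -⟩ := ib; exact h
  have m1 : (1 : ℝ) ≤ μ := by exact_mod_cast m0
  have har := dn d N q k₀ κv 𝒰 X hd hq hX a Z o μ ib z1 z2
  let k : ℕ := o none + o (some none) + n * a + (n / q : ℕ) * o none + 1
  have kk : (o none : ℝ) + o (some none) + n * a + (n / q : ℕ) * o none + 1 ≤ k * μ := by
    have : (k : ℝ) = o none + o (some none) + n * a + (n / q : ℕ) * o none + 1 := by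
      simp only [k, Nat.cast_add, Nat.cast_mul, Nat.cast_one]
    rw [← this]
    exact le_mul_of_one_le_right (Nat.cast_nonneg k) m1
  have b1 : (0 : ℝ) ≤ o none := Nat.cast_nonneg _
  have b2 : (0 : ℝ) ≤ o (some none) := Nat.cast_nonneg _
  have b3 : (0 : ℝ) ≤ n * a := by positivity
  have b4 : (0 : ℝ) ≤ (n / q : ℕ) * o none := by positivity
  have b5 : (0 : ℝ) ≤ (n / q : ℕ) * o (some none) := by positivity
  have e1 : ∀ᶠ i in (𝒰 : Filter ℕ), ∀ c ∈ C,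
      (fun j => (c j : ℤ) - (n / q : ℕ) * κv j) ∈ (X i).M (hz i) :=
    (eventually_all_finset C).2 fun c hc => hC c hc
  refine ⟨n, n0, nq, ?_⟩
  filter_upwards [hX, e1, har (n * a - (n / q : ℕ) * ((o (some none) : ℝ) - o none)), up d N q k₀ κv 𝒰 X hd hq hX n k k C c₀ nq c0.le
    fun a Z o μ h z1 z2 => let ⟨c, h⟩ := lb a Z o μ h (dD.2 ⟨z1, z2⟩); ⟨c.1, c.2, h⟩]
    with i pk f1 ar ua v hv
  obtain ⟨c, c1, c2⟩ := lci d N q k₀ n k k κv (X i) C c₀ hd hq n0 c0 ⟨_, c₁.2⟩ pk (kl i) ua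
    (atb ldt hd hq nq pk c0.le (by linarith) ar (by linarith) (by linarith)
      (by rw [mul_sub]; linarith)
      fun c hc hJ => by
        have := at' ⟨c, hc⟩ ((live z1 z2).2 hJ)
        rw [sum_vv q n c fun b => o b] at this
        exact this) v hv
  refine ⟨c, fun σ hσ => ?_, by rwa [div_lt_iff₀' n1]⟩
  have e : (∏ j, (X i).z j ^ c j) * (X i).h ^ (n / q) =
      (∏ j, (X i).z j ^ ((c j : ℤ) - (n / q : ℕ) * κv j)) *
        ((X i).h * ∏ j, (X i).z j ^ κv j) ^ (n / q) := by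
    rw [mul_pow, mul_left_comm, mul_comm, ← Finset.prod_pow, ← Finset.prod_mul_distrib]
    refine congrArg _ (Finset.prod_congr rfl fun j _ => ?_)
    rw [← zpow_natCast (_ ^ κv j), ← zpow_mul, ← zpow_add₀ (hz i j), ← zpow_natCast]
    congr 1
    ring
  rw [e, map_mul, map_pow, f1 c c1 σ hσ, pk.lev.fh σ hσ]

end Cq

/-- the assembly without the row `APB` -/
theorem cos0 (sk : SK) (kab : KAB) (num : NUM) (ldt : LDT) (lci : LCI) (nz : NZ) (up : UP)
    (dn : DN) (tw : TWH) : LTE := by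
  intro d N Q ε hd hQ hε
  obtain ⟨k₀, hk⟩ := sk d N hd
  obtain ⟨B, hB⟩ := kab d N Q k₀ hQ
  by_contra hn
  have key : ∀ i : ℕ, ∃ (n : ℕ) (κv : Fin N → ℤ) (X : Dt d N), 0 < n ∧ Q * i.factorial ∣ n ∧
      (∀ j, |κv j| ≤ B) ∧ X.Pk Q k₀ κv ∧ Finite X.A ∧ Hyp ε X.A X.S X.p X.y Q X.h ∧
      KL X.S X.p X.y ∧ ¬ Mn n Q X.A X.S X.p X.z X.y X.h := fun i => by
    by_contra e
    refine hn ⟨Q * i.factorial, Nat.mul_pos hQ i.factorial_pos,
      fun n h1 h2 _ F _ _ A S p z y h hp fin hy => by_contra fun h6 => e ?_⟩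
    have lc : ∀ R, Cen S p R → 0 ≤ ld y Q h R := fun R r =>
      hε.le.trans (by simpa using hy R r 1 one_pos fun _ _ _ => one_dvd _)
    obtain ⟨t, w, Φ, s⟩ := hk F A S p z y hp.pt hp.fr hp.kl
    obtain ⟨κv, k1, k2⟩ := hB F A S p z y h t w Φ hp lc s
    obtain ⟨D, hD⟩ := hp.fr
    obtain ⟨s', G, pk⟩ := num d N Q k₀ κv F A S p z y D h t w Φ hQ
      ⟨hp.pt, s.prj, hD, hp.fy, hp.h0, k2, hp.bd⟩ s lc
    exact ⟨n, κv, _, h1, h2, k1, pk, fin, hy, hp.kl, h6⟩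
  choose n κv X n0 nd kb pk fin hy kl no using key
  let 𝒰 : Ultrafilter ℕ := hyperfilter ℕ
  obtain ⟨κ, -, hκ⟩ := (Ultrafilter.eventually_exists_mem_iff (f := 𝒰) (P := fun κ i => κv i = κ)
    (Fintype.piFinset fun _ : Fin N => Finset.Icc (-B : ℤ) B).finite_toSet).1
    (Eventually.of_forall fun i => ⟨κv i, Finset.mem_coe.2 (Fintype.mem_piFinset.2 fun j =>
      Finset.mem_Icc.2 (abs_le.1 (kb i j))), rfl⟩)
  obtain ⟨n₁, h1, h2, h3⟩ := Cq.lim ldt lci nz up dn tw (𝒰 := 𝒰) (κv := κ)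
    (fun i => (pk i).lev.pt.ne) hd hQ hε (hκ.mono fun i e => e ▸ pk i) fin hy kl
  have big : ∀ᶠ i in (𝒰 : Filter ℕ), n₁ ≤ i :=
    hyperfilter_le_cofinite (Nat.cofinite_eq_atTop ▸ eventually_ge_atTop n₁)
  obtain ⟨i, a1, a3⟩ := (h3.and big).exists
  obtain ⟨r, hr⟩ : n₁ ∣ n i :=
    ((Nat.dvd_factorial h1 a3).trans (Dvd.intro_left _ rfl)).trans (nd i)
  have r0 : 0 < r := Nat.pos_of_ne_zero fun e => (n0 i).ne' (by rw [hr, e, mul_zero])
  exact no i (hr ▸ Cr.Mn.mul h2 r0 a1)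

end Vale.Agent.P283R.Bc
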