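import Vale.Agent.P283R.Be2.TwS
import Vale.Agent.P283R.Be2.At

/-!
# P283R, block BE: the core, the statements
-/

attribute [-instance] HahnSeries.powerSeriesAlgebra

open Filter
open Vale.Agent.P285N.Brep (jac Fr)
open Vale.Agent.P287D

noncomputable section

namespace Vale.Agent.P283R.Be2

open Co (Ge thl ulim UK)
open Tx

section

variable {F : Type} [Field F] [Algebra ℂ F] {d N : ℕ}

/-- `w` vanishes at `p` and at no other point of the fibre of `t` -/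
structure Sep (S : Subalgebra ℂ F) (p : Ideal S) (t : Fin d → F) (w : F) : Prop where
  wp : ∃ s ∈ p, (s : F) = w
  sep : ∀ q : Ideal S, q.IsPrime → (∀ s : S, ((s : F) = w ∨ ∃ l, (s : F) = t l) → s ∈ q) → p ≤ q

/-- `μ` is a lower bound for the orders of `t` and `w` -/
def Mu (t : Fin d → F) (w : F) (R : Pl F) (μ : ℝ) : Prop :=
  0 < μ ∧ (∀ l, μ ≤ R.ord (t l)) ∧ (w ≠ 0 → μ ≤ R.ord w)

/-- the order of a monomial -/
def om (z : Fin N → F) (R : Pl F) (c : Fin N → ℕ) : ℝ := ∑ j, (c j : ℝ) * R.ord (z j)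

/-- the lower bound on the region where the orders of `g` and `f` are at most `k μ` -/
def OutA (q n k : ℕ) (c₀ : ℝ) (C : Finset (Fin N → ℕ)) (S : Subalgebra ℂ F) (p : Ideal S)
    (z : Fin N → F) (y : Fin d → F) (h : F) (t : Fin d → F) (w g f : F) : Prop :=
  ∀ (R : Pl F) (μ β : ℝ), Cen S p R → Mu t w R μ → (R.ord g : ℝ) ≤ k * μ → (R.ord f : ℝ) ≤ k * μ →
    β ≤ k * μ → (∀ c ∈ C, β ≤ om z R c / n) → β + c₀ * μ ≤ ld y q h R

/-- the bound is attained inside the region -/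
def OutB (q n k : ℕ) (c₀ : ℝ) (C : Finset (Fin N → ℕ)) (S : Subalgebra ℂ F) (p : Ideal S)
    (z : Fin N → F) (y : Fin d → F) (h : F) (t : Fin d → F) (w g f : F) : Prop :=
  ∃ (E : Pl F) (μ : ℝ), Cen S p E ∧ Mu t w E μ ∧ (E.ord g : ℝ) < k * μ ∧ (E.ord f : ℝ) < k * μ ∧
    (∃ c ∈ C, om z E c / n < k * μ) ∧ ∀ c ∈ C, ld y q h E ≤ om z E c / n + c₀ * μ

end

/-- **TTe**: the end product of the core -/
def TTe : Prop := ∀ (d N q k₀ B : ℕ) (ε : ℝ), 0 < d → 0 < q → 0 < ε → Unif q fun n =>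
  ∀ (F : Type) [Field F] [Algebra ℂ F] (κv : Fin N → ℤ) (A : Subgroup (F ≃ₐ[ℂ] F))
    (S : Subalgebra ℂ F) (p : Ideal S) (z : Fin N → F) (y : Fin d → F)
    (D : Fin d → Derivation ℂ F F) (h : F) (t : Fin d → F) (w : F)
    (Φ : Polynomial (MvPolynomial (Fin d) ℂ)), Lev q κv A S p z y D h t w Φ → (∀ j, |κv j| ≤ B) →
    Sep S p t w → Finite A → Hyp ε A S p y q h →
    (∃ R μ, Cen S p R ∧ Mu t w R μ ∧ (R.ord (ev2 t w Φ.derivative) : ℝ) ≤ k₀ * μ ∧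
      (R.ord (jac D t ^ q * h) : ℝ) ≤ k₀ * μ) →
    ∃ (C : Finset (Fin N → ℕ)) (c₀ : ℝ) (k : ℕ), 0 < c₀ ∧
      (∀ c ∈ C, Fix A (h ^ (n / q) * ∏ j, z j ^ c j)) ∧
      OutA q n k c₀ C S p z y h t w (ev2 t w Φ.derivative) (jac D t ^ q * h) ∧
      OutB q n k c₀ C S p z y h t w (ev2 t w Φ.derivative) (jac D t ^ q * h)

/-- **PAY**: from a place to a Hahn arc on the hypersurface -/
def PAY : Prop := ∀ (d : ℕ) (F : Type) [Field F] [Algebra ℂ F] (u : Fin (d + 1) → F) (α : Type)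
  (P : MvPolynomial (Fin (d + 1)) ℂ) (G : α → MvPolynomial (Fin (d + 1)) ℂ) (R : Pl F) (μ η : ℝ),
  FF F d → AlgebraicIndependent ℂ (fun l : Fin d => u l.succ) → MvPolynomial.aeval u P = 0 →
  0 < μ → (∀ j, u j ≠ 0 → μ ≤ R.ord (u j)) → 0 < η →
  HA (P : MvPowerSeries (Fin (d + 1)) ℂ) Fin.succ (fun b => (G b : MvPowerSeries (Fin (d + 1)) ℂ))
    (1 + kap (fun l : Fin d => u l.succ) R + η) {b | MvPolynomial.aeval u (G b) = 0}
    (fun b => R.ord (MvPolynomial.aeval u (G b))) μ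

/-- **DNY**: from an integral arc on the limit to exact arcs at the levels -/
def DNY : Prop := ∀ (d : ℕ) (α : Type) [Finite α] (𝒰 : Ultrafilter ℕ)
  (P : ℕ → MvPolynomial (Fin (d + 1)) ℂ) (G : α → ℕ → MvPolynomial (Fin (d + 1)) ℂ) (b₀ : α)
  (a : ℕ) (Z : Set α) (o : α → ℕ) (μ K : ℕ), (∀ i, G b₀ i = MvPolynomial.pderiv 0 (P i)) →
  IB (ulim 𝒰 fun i => (P i : MvPowerSeries (Fin (d + 1)) ℂ)) Fin.succ
    (fun b => ulim 𝒰 fun i => (G b i : MvPowerSeries (Fin (d + 1)) ℂ)) a Z o μ → b₀ ∉ Z →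
  ∀ᶠ i in (𝒰 : Filter ℕ), ∃ (κ : Type) (_ : Field κ) (_ : Algebra ℂ κ)
    (x : Fin (d + 1) → HahnSeries ℝ κ) (δ : Fin d → Derivation ℂ κ κ),
    (∀ j, Zs (x j) ∧ Ge μ (x j)) ∧ MvPolynomial.aeval x (P i) = 0 ∧
    (Jx δ fun l => x l.succ).orderTop ≤ ((a : ℝ) : WithTop ℝ) ∧
    (∀ b ∈ Z, Ge K (MvPolynomial.aeval x (G b i))) ∧
    ∀ b ∉ Z, o b < K → (MvPolynomial.aeval x (G b i)).orderTop = ((o b : ℝ) : WithTop ℝ)

/-- **EXA**: an exact arc on the hypersurface is an arc of the field -/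
def EXA : Prop := ∀ (d : ℕ) (F κ : Type) [Field F] [Algebra ℂ F] [Field κ] [Algebra ℂ κ]
  (S : Subalgebra ℂ F) (p : Ideal S) (t : Fin d → F) (w : F)
  (Φ : Polynomial (MvPolynomial (Fin d) ℂ)) (δ : Fin d → Derivation ℂ κ κ)
  (t' : Fin d → HahnSeries ℝ κ) (w' : HahnSeries ℝ κ), Prj S p t w Φ → Jx δ t' ≠ 0 →
  ev2 t' w' Φ = 0 → ∃ x : F →ₐ[ℂ] HahnSeries ℝ κ, (∀ l, x (t l) = t' l) ∧ x w = w'

/-- **EUL**: the lemma of Euler -/
def EUL : Prop := ∀ (d : ℕ) (F : Type) [Field F] [Algebra ℂ F] (S : Subalgebra ℂ F) (p : Ideal S)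
  (t : Fin d → F) (w : F) (Φ : Polynomial (MvPolynomial (Fin d) ℂ)), Prj S p t w Φ →
  ∀ a ∈ S, ∃ G, ev2 t w Φ.derivative * a = ev2 t w G

/-- **APY**: from an integral arc to a place -/
def APY : Prop := ∀ (d : ℕ) (F κ : Type) [Field F] [Algebra ℂ F] [Field κ] [Algebra ℂ κ]
  (S : Subalgebra ℂ F) (p : Ideal S) (t : Fin d → F) (w : F)
  (Φ : Polynomial (MvPolynomial (Fin d) ℂ)) (δ : Fin d → Derivation ℂ κ κ)
  (x : F →ₐ[ℂ] HahnSeries ℝ κ) (a : ℝ), 0 < d → FF F d → Prj S p t w Φ →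
  (∀ s : S, ∃ c : ℂ, s - algebraMap ℂ S c ∈ p) → Arc S p x → (∀ l, Zs (x (t l))) → Zs (x w) →
  (Jx δ fun l => x (t l)).orderTop ≤ (a : WithTop ℝ) →
  ∃ (E : Pl F) (e : ℝ), 0 < e ∧ Cen S p E ∧
    (∀ g, g ≠ 0 → (x g).orderTop = ((e * E.ord g : ℝ) : WithTop ℝ)) ∧ e * (1 + kap t E) ≤ a

/-- **FLO**: the log discrepancy in the frame `t` -/
def FLO : Prop := ∀ (d N q : ℕ) (F : Type) [Field F] [Algebra ℂ F] (κv : Fin N → ℤ)
  (A : Subgroup (F ≃ₐ[ℂ] F)) (S : Subalgebra ℂ F) (p : Ideal S) (z : Fin N → F) (y : Fin d → F)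
  (D : Fin d → Derivation ℂ F F) (h : F) (t : Fin d → F) (w : F)
  (Φ : Polynomial (MvPolynomial (Fin d) ℂ)), 0 < q → Lev q κv A S p z y D h t w Φ →
  AlgebraicIndependent ℂ t ∧ ev2 t w Φ.derivative ≠ 0 ∧ jac D t ^ q * h ≠ 0 ∧
    jac D t ^ q * h ∈ Lo S p ∧
    ∀ R : Pl F, ld y q h R = 1 + kap t R - (R.ord (jac D t ^ q * h) : ℝ) / q

/-- **ARC**: the arcs are centred at the point -/
def ARC : Prop := ∀ (d : ℕ) (F κ : Type) [Field F] [Algebra ℂ F] [Field κ] [Algebra ℂ κ]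
  (S : Subalgebra ℂ F) (p : Ideal S) (t : Fin d → F) (w : F)
  (Φ : Polynomial (MvPolynomial (Fin d) ℂ)) (x : F →ₐ[ℂ] HahnSeries ℝ κ) (μ : ℝ), Prj S p t w Φ →
  Sep S p t w → (∀ s : S, ∃ c : ℂ, s - algebraMap ℂ S c ∈ p) → p.IsPrime → 0 < μ →
  (∀ l, Ge μ (x (t l))) → Ge μ (x w) →
  Arc S p x ∧ ∀ s : S, s ∉ p → (x s).orderTop = 0

/-- **CRR**: the assembly -/
def CRR : Prop := TWH → PAY → DNY → EXA → EUL → APY → FLO → ARC → TTe

end Vale.Agent.P283R.Be2
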