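import Vale.Agent.P283R.Be2.Cr0
import Vale.Agent.P283R.Be2.Uq
import Vale.Agent.P283R.Be2.Lp
import Vale.Agent.P283R.Be2.Dn

/-!
# P283R, block BE: the core, the assembly
-/

attribute [-instance] HahnSeries.powerSeriesAlgebra

open Filter
open Vale.Agent.P285N.Brep (jac Fr)
open Vale.Agent.P287D
open Vale.Agent.P283.H647 (limLat)

noncomputable section

namespace Vale.Agent.P283R.Be2

open Co (Ge thl ulim UK)
open Tx

variable {d N q : ℕ} {𝒰 : Ultrafilter ℕ} {L : ℕ → LD d N q}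
  {G : ℕ → Ix N → MvPolynomial (Fin (d + 1)) ℂ}

variable (𝒰 L) in
/-- the limit of the equations -/
abbrev LP : MvPowerSeries (Fin (d + 1)) (UK 𝒰) :=
  ulim 𝒰 fun i => ((L i).P : MvPowerSeries (Fin (d + 1)) ℂ)

variable (𝒰 G) in
/-- the limits of the polynomials -/
abbrev LG (b : Ix N) : MvPowerSeries (Fin (d + 1)) (UK 𝒰) :=
  ulim 𝒰 fun i => (G i b : MvPowerSeries (Fin (d + 1)) ℂ)

theorem down (dny : DNY) (exa : EXA) (arc : ARC) (hG : ∀ i, (L i).Pol (G i)) {a μ : ℕ}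
    {Z : Set (Ix N)} {o : Ix N → ℕ} (h : IB (LP 𝒰 L) Fin.succ (LG 𝒰 G) a Z o μ) (z0 : none ∉ Z)
    (z1 : some none ∉ Z) (K : ℝ) : ∀ᶠ i in (𝒰 : Filter ℕ), (L i).Ar a (o none)
      (o (some none) - o none) {j | some (some j) ∈ Z}
      (fun j => o (some (some j)) - o none) μ K := by
  have m0 : (0 : ℝ) < μ := by
    obtain ⟨_, _, _, _, _, -, h, -⟩ := h
    exact_mod_cast h
  obtain ⟨K₀, hK⟩ := exists_nat_ge (K + o none)
  filter_upwards [dny d (Ix N) 𝒰 (fun i => (L i).P) (fun b i => G i b) none a Z o μ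
    (K₀ + ∑ b, o b + 1) (fun i => (hG i).der) h z0] with i ⟨κ, _, _, x, δ, p1, p2, p3, p4, p5⟩
  have := (L i).ar exa arc (hG i) (K := K + o none) (o := fun b => o b) m0 p1 p2 p3
    (fun b hb => (p4 b hb).mono (hK.trans (Nat.cast_le.2 (by omega))))
    (fun b hb => p5 b hb (by
      have := Finset.single_le_sum (f := o) (fun _ _ => Nat.zero_le _) (Finset.mem_univ b)
      omega)) z0 z1
  rwa [add_sub_cancel_right] at this

theorem box (M : ℕ → AddSubgroup (Fin N → ℤ)) (k : ℕ) : ∀ᶠ i in (𝒰 : Filter ℕ),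
    ∀ m : Fin N → ℤ, (∀ j, |m j| ≤ k) → m ∈ M i → m ∈ limLat 𝒰 M := by
  have fin : {m : Fin N → ℤ | ∀ j, |m j| ≤ k}.Finite :=
    (Set.Finite.pi' fun _ => Set.finite_Icc (-(k : ℤ)) k).subset fun m hm j => abs_le.1 (hm j)
  refine (eventually_all_finite fin).2 fun m _ => ?_
  by_cases h : m ∈ limLat 𝒰 M
  · exact Eventually.of_forall fun _ _ => h
  · exact (Ultrafilter.eventually_not.2 h).mono fun _ h1 h2 => absurd h2 h1

/-- the inequality (P) for the limit -/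
theorem pk (twh : TWH) (hd : 0 < d) (hq : 0 < q) {ε : ℝ} (hε : 0 < ε) {κv : Fin N → ℤ}
    (hκ : ∀ᶠ i in (𝒰 : Filter ℕ), (L i).κv = κv) (fin : ∀ i, Finite (L i).A)
    (hyp : ∀ i, Hyp ε (L i).A (L i).S (L i).p (L i).y q (L i).h) {a og of μ : ℝ} {J : Set (Fin N)}
    {w : Fin N → ℝ} (h : ∀ K, ∀ᶠ i in (𝒰 : Filter ℕ), (L i).Ar a og of J w μ K) :
    (∀ j, j ∉ J → 0 < w j) ∧ ∀ ζ : Fin N → ℝ,
      (∀ m ∈ limLat 𝒰 fun i => (L i).M, ∑ j, ζ j * m j = 0) → (∀ j, j ∉ J → 0 ≤ w j + ζ j) →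
      ε ≤ a - of / q + ∑ j, (κv j : ℝ) / q * ζ j := by
  have hw : ∀ j, j ∉ J → 0 < w j := fun j hj => by
    obtain ⟨i, κ, _, _, x, δ, a1, -, -, -, -, -, -, -, -, a10⟩ := (h 0).exists
    obtain ⟨s, hs, e⟩ := (L i).lev.pt.mem j
    have := a1.pos s hs
    rw [e, a10 j hj] at this
    exact_mod_cast this
  refine ⟨hw, Blp.pp (fun i => (L i).M) hw fun η b hη => ?_⟩
  obtain ⟨k, hk⟩ := twh d N q (max a (max og of)) b η κv hd hq hη
  filter_upwards [h (η + b), hκ, box (fun i => (L i).M) k] with i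
    ⟨κ, _, _, x, δ, a1, a2, a3, _, _, a6, a7, a8, a9, a10⟩ e hb r χ r0 c1 c2 c3 c4
  have := hk _ κ _ _ _ _ _ _ _ _ _ _ δ x a of r χ (e ▸ (L i).lev)
    ⟨a1, a2, a3, a6, le_max_left _ _,
      a7.trans_le (WithTop.coe_le_coe.2 ((le_max_left _ _).trans (le_max_right _ _))), a8.ge,
      a8.trans_le (WithTop.coe_le_coe.2 ((le_max_right _ _).trans (le_max_right _ _)))⟩
    ⟨r0, c4, fun j => by
      by_cases hj : j ∈ J
      · exact (a9 j hj).mono (by linarith [(abs_le.1 (c4 j)).1])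
      · exact le_trans (WithTop.coe_le_coe.2 (by linarith [c3 j hj])) (a10 j hj).ge,
      fun m h1 h2 => c2 m (hb m h1 h2)⟩ (fin i) c1 ε hε.le (hyp i)
  refine this.trans_eq ?_
  rw [Finset.sum_div]
  exact congrArg _ (Finset.sum_congr rfl fun j _ => by ring)

theorem der_coe (hG : ∀ i, (L i).Pol (G i)) (i : ℕ) :
    (G i none : MvPowerSeries (Fin (d + 1)) ℂ) = MvPowerSeries.pderiv ℂ 0 (L i).P := by
  rw [(hG i).der, MvPowerSeries.pderiv_coe]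

theorem vx_nonneg (r : ℕ) (c : Fin N → ℕ) : ∀ b ∉ ({none, some none} : Set (Ix N)), 0 ≤ vx r c b
  | none, h => absurd (Or.inl rfl) h
  | some none, h => absurd (Or.inr rfl) h
  | some (some _), _ => Int.natCast_nonneg _

theorem vx_zero {r : ℕ} {c : Fin N → ℕ} {Z : Set (Ix N)}
    (hZ : ∀ b ∈ ({none, some none} : Set (Ix N)), b ∉ Z) :
    (∀ b ∈ Z, vx r c b = 0) ↔ ∀ j ∈ {j | some (some j) ∈ Z}, c j = 0 :=
  ⟨fun h j hj => Int.natCast_eq_zero.1 (h _ hj), fun h b hb => by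
    rcases b with _ | _ | j
    · exact absurd hb (hZ _ (Or.inl rfl))
    · exact absurd hb (hZ _ (Or.inr rfl))
    · exact Int.natCast_eq_zero.2 (h j hb)⟩

/-- there is an arc on the limit -/
theorem nz (pay : PAY) (flo : FLO) (hq : 0 < q) (hG : ∀ i, (L i).Pol (G i)) {k₀ : ℕ}
    (sk : ∀ i, ∃ R μ, Cen (L i).S (L i).p R ∧ Mu (L i).t (L i).w R μ ∧
      (R.ord (L i).g : ℝ) ≤ k₀ * μ ∧ (R.ord (L i).f : ℝ) ≤ k₀ * μ) :
    ∃ a Z o μ, HA (LP 𝒰 L) Fin.succ (LG 𝒰 G) a Z o μ ∧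
      ∀ b ∈ ({none, some none} : Set (Ix N)), b ∉ Z := by
  by_contra hc
  obtain ⟨i, hi⟩ := (tu2 (finSuccEquiv d) 0 Fin.succ Fin.succ_ne_zero 𝒰 (fun i => (L i).P)
    (fun b i => G i b) {none, some none} (Or.inl rfl) (der_coe hG) (V := Empty) Empty.elim
    (fun j => j.elim) 0 0 (Nat.lt_succ_self (2 * k₀))
    fun a Z o μ h1 h2 => absurd ⟨a, Z, o, μ, h1, h2⟩ hc).exists
  obtain ⟨R, μ, h1, h2, h3, h4⟩ := sk i
  have : (0 : ℝ) ≤ k₀ * μ := mul_nonneg (Nat.cast_nonneg _) h2.1.le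
  obtain ⟨j, -⟩ := hi _ _ _ _ ((L i).ha pay flo hq (hG i) h1 h2 one_pos) (by
    rintro b (rfl | rfl) <;> refine ⟨id, ?_⟩ <;> simp only [LD.oo, Option.elim] <;> push_cast <;>
      linarith)
  exact j.elim

/-- the conclusion at one level -/
def LD.Out (L : LD d N q) (n : ℕ) : Prop :=
  ∃ (C : Finset (Fin N → ℕ)) (c₀ : ℝ) (k : ℕ), 0 < c₀ ∧
    (∀ c ∈ C, Fix L.A (L.h ^ (n / q) * ∏ j, L.z j ^ c j)) ∧
    OutA q n k c₀ C L.S L.p L.z L.y L.h L.t L.w L.g L.f ∧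
    OutB q n k c₀ C L.S L.p L.z L.y L.h L.t L.w L.g L.f

theorem LD.fix (L : LD d N q) {r : ℕ} {c : Fin N → ℕ}
    (h : (fun j => (c j : ℤ) - r * L.κv j) ∈ L.M) : Fix L.A (L.h ^ r * ∏ j, L.z j ^ c j) := by
  have e : L.h ^ r * ∏ j, L.z j ^ c j =
      (L.h * ∏ j, L.z j ^ L.κv j) ^ r * ∏ j, L.z j ^ ((c j : ℤ) - r * L.κv j) := by
    rw [mul_pow, mul_assoc, ← Finset.prod_pow, ← Finset.prod_mul_distrib]
    refine congrArg _ (Finset.prod_congr rfl fun j _ => ?_)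
    rw [← zpow_natCast, ← zpow_natCast, ← zpow_mul, ← zpow_add₀ (L.lev.pt.ne j)]
    congr 1
    ring
  intro σ hσ
  rw [e, map_mul, map_pow, L.lev.fh σ hσ, h σ hσ]

theorem lim (twh : TWH) (pay : PAY) (dny : DNY) (exa : EXA) (eul : EUL) (apy : APY) (flo : FLO)
    (arc : ARC) (hd : 0 < d) (hq : 0 < q) {ε : ℝ} (hε : 0 < ε) {κv : Fin N → ℤ}
    (hκ : ∀ᶠ i in (𝒰 : Filter ℕ), (L i).κv = κv) (fin : ∀ i, Finite (L i).A)
    (hyp : ∀ i, Hyp ε (L i).A (L i).S (L i).p (L i).y q (L i).h) {k₀ : ℕ}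
    (sk : ∀ i, ∃ R μ, Cen (L i).S (L i).p R ∧ Mu (L i).t (L i).w R μ ∧
      (R.ord (L i).g : ℝ) ≤ k₀ * μ ∧ (R.ord (L i).f : ℝ) ≤ k₀ * μ) :
    ∃ n : ℕ, 0 < n ∧ q ∣ n ∧ ∀ᶠ i in (𝒰 : Filter ℕ), (L i).Out n := by
  choose G hG using fun i => (L i).exists_pol eul flo hq
  obtain ⟨n, C, hn, hqn, hC, hv⟩ := Blp.ver (limLat 𝒰 fun i => (L i).M) κv hq
  have n0 : (0 : ℝ) < n := by exact_mod_cast hn
  have q0 : (0 : ℝ) < q := by exact_mod_cast hq
  have h0 := nz (𝒰 := 𝒰) pay flo hq hG sk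
  have hP : LP 𝒰 L ≠ 0 := fun e => by
    obtain ⟨a, Z, o, μ, ⟨s, x, l, -, -, -, -, h, -⟩, hZ⟩ := h0
    have := h none (hZ _ (Or.inl rfl))
    simp only [LG, der_coe hG, Dn.ulim_pderiv] at this
    rw [show (ulim 𝒰 fun i => ((L i).P : MvPowerSeries (Fin (d + 1)) ℂ)) = 0 from e, map_zero,
      map_zero, Co.ev_zero] at this
    simp at this
  have : Nonempty (Fin d) := ⟨⟨0, hd⟩⟩
  obtain ⟨c, c0, lb, a, Z, o, μ, hI, hZ, ⟨c₁, hc₁⟩, hat⟩ := att2 (finSuccEquiv d) hP Fin.succ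
    (LG 𝒰 G) {none, some none} (V := C) (fun c => vx (n / q) c) n h0 fun a Z o μ hI hZ => by
      obtain ⟨p1, p2⟩ := pk twh hd hq hε hκ fin hyp
        (down dny exa arc hG hI (hZ _ (Or.inl rfl)) (hZ _ (Or.inr rfl)))
      obtain ⟨c, hc, r1, r2⟩ := hv (a - ((o (some none) : ℝ) - o none) / q - ε)
        (fun j => max ((o (some (some j)) : ℝ) - o none) 0) {j | some (some j) ∈ Z}
        (fun j => le_max_right _ _) fun ζ z1 z2 => by
          have := p2 ζ z1 fun j hj => by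
            have := z2 j hj
            rwa [max_eq_left (p1 j hj).le] at this
          linarith
      refine ⟨⟨c, hc⟩, (vx_zero hZ).2 r1, ?_⟩
      have r3 : ∑ j, (c j : ℝ) * ((o (some (some j)) : ℝ) - o none) ≤
          ∑ j, (c j : ℝ) * max ((o (some (some j)) : ℝ) - o none) 0 :=
        Finset.sum_le_sum fun j _ => mul_le_mul_of_nonneg_left (le_max_left _ _) (Nat.cast_nonneg _)
      have r4 : ∑ b, (vx (n / q) c b : ℝ) * (o b : ℝ) < n * a := by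
        rw [sum_vx (o := fun b => (o b : ℝ)), Nat.cast_div hqn q0.ne']
        rw [div_le_iff₀' n0] at r2
        have := mul_pos n0 hε
        have e : (n : ℝ) * (a - ((o (some none) : ℝ) - o none) / q - ε) =
            n * a - n / q * ((o (some none) : ℝ) - o none) - n * ε := by ring
        linarith
      exact_mod_cast r4
  have m1 : (1 : ℝ) ≤ μ := by
    obtain ⟨_, _, _, _, _, -, h, -⟩ := hI
    exact_mod_cast h
  obtain ⟨k, hk⟩ := exists_nat_gt (max (max (o none : ℝ) ((o (some none) : ℝ) - o none))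
    ((∑ j, (c₁.1 j : ℝ) * ((o (some (some j)) : ℝ) - o none)) / n))
  have kk : (k : ℝ) ≤ k * μ := le_mul_of_one_le_right (Nat.cast_nonneg _) m1
  simp only [max_lt_iff] at hk
  refine ⟨n, hn, hqn, ?_⟩
  have e1 : ∀ᶠ i in (𝒰 : Filter ℕ), ∀ c ∈ C,
      (fun j => (c j : ℤ) - (n / q : ℕ) * κv j) ∈ (L i).M :=
    (eventually_all_finset C).2 fun c hc => hC c hc
  filter_upwards [e1, hκ, down dny exa arc hG hI (hZ _ (Or.inl rfl)) (hZ _ (Or.inr rfl))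
    (n * (a - ((o (some none) : ℝ) - o none) / q)),
    tu2 (finSuccEquiv d) 0 Fin.succ Fin.succ_ne_zero 𝒰 (fun i => (L i).P)
      (fun b i => G i b) {none, some none} (Or.inl rfl) (der_coe hG) (V := C)
      (fun c => vx (n / q) c) (fun c => vx_nonneg _ _) n c
      (show 2 * k < (n + 2) * k + 1 by nlinarith) lb] with i r1 r2 r3 r4
  refine ⟨C, c / n, k, div_pos c0 n0, fun c hc => (L i).fix (r2 ▸ r1 c hc),
    (L i).outA pay flo hq (hG i) hn hqn r4,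
    (L i).outB apy flo hd hq hn r3 (one_pos.trans_le m1) (div_pos c0 n0).le (hk.1.1.trans_le kk)
      (hk.1.2.trans_le kk) ⟨c₁.1, c₁.2, (vx_zero hZ).1 hc₁, hk.2.trans_le kk⟩
      (fun c' hc h => ?_) (mul_div_cancel_left₀ _ n0.ne').ge⟩
  have := hat ⟨c', hc⟩ ((vx_zero hZ).2 h)
  rw [sum_vx (o := fun b => (o b : ℝ)), Nat.cast_div hqn q0.ne'] at this
  refine le_of_mul_le_mul_left ?_ n0
  have e2 : (n : ℝ) * ((∑ j, (c' j : ℝ) * ((o (some (some j)) : ℝ) - o none)) / n + c / n * μ) =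
      ∑ j, (c' j : ℝ) * ((o (some (some j)) : ℝ) - o none) + c * μ := by field_simp
  have e3 : (n : ℝ) * (a - ((o (some none) : ℝ) - o none) / q) =
      n * a - n / q * ((o (some none) : ℝ) - o none) := by ring
  linarith

theorem LD.Out.scale {L : LD d N q} {n r : ℕ} (hq : q ∣ n) (hr : 0 < r) (h : L.Out n) :
    L.Out (n * r) := by
  classical
  obtain ⟨C, c₀, k, h1, h2, h3, E, μ, h4, h5, h6, h7, ⟨c, hc, h8⟩, h9⟩ := h
  have r0 : (r : ℝ) ≠ 0 := by exact_mod_cast hr.ne'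
  have e : ∀ (R : Pl L.F) (c : Fin N → ℕ),
      om L.z R (fun j => c j * r) / (n * r : ℕ) = om L.z R c / n := fun R c => by
    have : om L.z R (fun j => c j * r) = om L.z R c * r := by
      simp only [om, Finset.sum_mul]
      exact Finset.sum_congr rfl fun j _ => by push_cast; ring
    rw [this, Nat.cast_mul, mul_div_mul_right _ _ r0]
  refine ⟨C.image fun c j => c j * r, c₀, k, h1, Finset.forall_mem_image.2 fun c hc σ hσ => ?_,
    fun R μ β a1 a2 a3 a4 a5 a6 => h3 R μ β a1 a2 a3 a4 a5 fun c hc =>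
      e R c ▸ a6 _ (Finset.mem_image_of_mem _ hc),
    E, μ, h4, h5, h6, h7, ⟨_, Finset.mem_image_of_mem _ hc, (e E c).symm ▸ h8⟩,
    Finset.forall_mem_image.2 fun c hc => (e E c).symm ▸ h9 c hc⟩
  have : L.h ^ (n * r / q) * ∏ j, L.z j ^ (c j * r) = (L.h ^ (n / q) * ∏ j, L.z j ^ c j) ^ r := by
    rw [mul_pow, ← pow_mul, ← Finset.prod_pow, Nat.div_mul_right_comm hq]
    simp only [pow_mul]
  rw [this, map_pow, h2 c hc σ hσ]

/-- **CRR** -/
theorem crr : CRR := by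
  intro twh pay dny exa eul apy flo arc d N q k₀ B ε hd hq hε
  by_contra hn
  have key : ∀ i : ℕ, ∃ (n : ℕ) (L : LD d N q), 0 < n ∧ i.factorial ∣ n ∧ (∀ j, |L.κv j| ≤ B) ∧
      Finite L.A ∧ Hyp ε L.A L.S L.p L.y q L.h ∧ (∃ R μ, Cen L.S L.p R ∧ Mu L.t L.w R μ ∧
        (R.ord L.g : ℝ) ≤ k₀ * μ ∧ (R.ord L.f : ℝ) ≤ k₀ * μ) ∧ ¬ L.Out n := fun i => by
    by_contra e
    refine hn ⟨i.factorial, i.factorial_pos,
      fun n h1 h2 _ F _ _ κv A S p z y D h t w Φ h3 h4 h5 h6 h7 h8 => by_contra fun h9 =>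
        e ⟨n, ⟨F, κv, A, S, p, z, y, D, h, t, w, Φ, h3, h5⟩, h1, h2, h4, h6, h7, h8, h9⟩⟩
  choose n L n0 nd hb fin hyp sk no using key
  let 𝒰 : Ultrafilter ℕ := hyperfilter ℕ
  have fi : {m : Fin N → ℤ | ∀ j, |m j| ≤ B}.Finite :=
    (Set.Finite.pi' fun _ => Set.finite_Icc (-(B : ℤ)) B).subset fun m hm j => abs_le.1 (hm j)
  obtain ⟨κv, -, hκ⟩ := (Ultrafilter.eventually_exists_mem_iff (f := 𝒰) fi
    (P := fun m i => (L i).κv = m)).1 (Eventually.of_forall fun i => ⟨_, hb i, rfl⟩)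
  obtain ⟨n₁, h1, h2, h3⟩ := lim twh pay dny exa eul apy flo arc hd hq hε hκ fin hyp sk
  have big : ∀ᶠ i in (𝒰 : Filter ℕ), n₁ ≤ i :=
    hyperfilter_le_cofinite (Nat.cofinite_eq_atTop ▸ eventually_ge_atTop n₁)
  obtain ⟨i, a1, a3⟩ := (h3.and big).exists
  obtain ⟨r, hr⟩ : n₁ ∣ n i := (Nat.dvd_factorial h1 a3).trans (nd i)
  have r0 : 0 < r := Nat.pos_of_ne_zero fun e => (n0 i).ne' (by rw [hr, e, mul_zero])
  exact no i (hr ▸ a1.scale h2 r0)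

end Vale.Agent.P283R.Be2
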