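import Vale.Agent.P283R.Be2.Cs
import Vale.Agent.P283R.Tp.A0r

/-!
# P283R, block BE: the core, one level
-/

attribute [-instance] HahnSeries.powerSeriesAlgebra

open Filter MvPolynomial
open Vale.Agent.P285N.Brep (jac Fr)
open Vale.Agent.P287D
open Vale.Agent.P297Z (Pl.ord_mul Pl.ord_unit Pl.ord_nonneg_of_mem)

noncomputable section

namespace Vale.Agent.P283R.Be2

open Co (Ge thl)
open Tx

variable {d N q : ℕ}

theorem ev2_fin {R : Type} [CommRing R] [Algebra ℂ R] (t : Fin d → R) (w : R)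
    (p : MvPolynomial (Fin (d + 1)) ℂ) :
    ev2 t w (finSuccEquiv ℂ d p) = aeval (Fin.cons w t : Fin (d + 1) → R) p := by
  induction p using MvPolynomial.induction_on with
  | C a => simp [ev2, finSuccEquiv_apply]
  | add p r hp hr => rw [map_add, map_add, map_add, hp, hr]
  | mul_X p i hp =>
    rw [map_mul, map_mul, map_mul, hp, aeval_X]
    refine Fin.cases ?_ (fun j => ?_) i
    · simp [ev2, finSuccEquiv_X_zero]
    · simp [ev2, finSuccEquiv_X_succ]

theorem fin_der (p : MvPolynomial (Fin (d + 1)) ℂ) :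
    finSuccEquiv ℂ d (pderiv 0 p) = Polynomial.derivative (finSuccEquiv ℂ d p) := by
  induction p using MvPolynomial.induction_on with
  | C a => simp [finSuccEquiv_apply]
  | add p r hp hr => rw [map_add, map_add, map_add, map_add, hp, hr]
  | mul_X p i hp =>
    rw [Derivation.leibniz, smul_eq_mul, smul_eq_mul, map_add, map_mul, map_mul, map_mul, hp,
      Polynomial.derivative_mul]
    refine Fin.cases ?_ (fun j => ?_) i
    · simp [finSuccEquiv_X_zero, mul_comm, add_comm]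
    · simp [finSuccEquiv_X_succ, pderiv_X_of_ne (Fin.succ_ne_zero j), mul_comm]

/-- the indices of the polynomials -/
abbrev Ix (N : ℕ) : Type := Option (Option (Fin N))

/-- the data of one level -/
structure LD (d N q : ℕ) where
  F : Type
  [fi : Field F]
  [al : Algebra ℂ F]
  κv : Fin N → ℤ
  A : Subgroup (F ≃ₐ[ℂ] F)
  S : Subalgebra ℂ F
  p : Ideal S
  z : Fin N → F
  y : Fin d → F
  D : Fin d → Derivation ℂ F F
  h : F
  t : Fin d → F
  w : F
  Φ : Polynomial (MvPolynomial (Fin d) ℂ)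
  lev : Lev q κv A S p z y D h t w Φ
  sep : Sep S p t w

attribute [instance] LD.fi LD.al

namespace LD

variable (L : LD d N q)

/-- the different -/
def g : L.F := ev2 L.t L.w L.Φ.derivative

/-- the form in the frame `t` -/
def f : L.F := jac L.D L.t ^ q * L.h

/-- the coordinates -/
def u : Fin (d + 1) → L.F := Fin.cons L.w L.t

/-- the equation -/
def P : MvPolynomial (Fin (d + 1)) ℂ := (finSuccEquiv ℂ d).symm L.Φ

/-- the invariant monomials -/
def M : AddSubgroup (Fin N → ℤ) where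
  carrier := {m | Fix L.A (∏ j, L.z j ^ m j)}
  zero_mem' := fun σ _ => by simp
  add_mem' := fun {a b} ha hb σ hσ => by
    have e : ∏ j, L.z j ^ (a + b) j = (∏ j, L.z j ^ a j) * ∏ j, L.z j ^ b j := by
      rw [← Finset.prod_mul_distrib]
      exact Finset.prod_congr rfl fun j _ => zpow_add₀ (L.lev.pt.ne j) _ _
    rw [e, map_mul, ha σ hσ, hb σ hσ]
  neg_mem' := fun {a} ha σ hσ => by
    have e : ∏ j, L.z j ^ (-a) j = (∏ j, L.z j ^ a j)⁻¹ := by
      rw [← Finset.prod_inv_distrib]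
      exact Finset.prod_congr rfl fun j _ => zpow_neg _ _
    rw [e, map_inv₀, ha σ hσ]

/-- the polynomials which represent the functions -/
structure Pol (G : Ix N → MvPolynomial (Fin (d + 1)) ℂ) : Prop where
  der : G none = pderiv 0 L.P
  del : ∃ s : L.S, s ∉ L.p ∧ aeval L.u (G (some none)) = L.g * L.f * s
  co : ∀ j, aeval L.u (G (some (some j))) = L.g * L.z j

theorem aeval_P : aeval L.u L.P = 0 := by
  rw [u, ← ev2_fin, P, AlgEquiv.apply_symm_apply]
  exact (L.lev.prj.ker _).2 dvd_rfl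

theorem aeval_der : aeval L.u (pderiv 0 L.P) = L.g := by
  rw [u, ← ev2_fin, fin_der, P, AlgEquiv.apply_symm_apply, g]

theorem z_mem (j : Fin N) : L.z j ∈ L.S := by
  obtain ⟨s, -, e⟩ := L.lev.pt.mem j
  exact e ▸ s.2

theorem fl (flo : FLO) (hq : 0 < q) : AlgebraicIndependent ℂ L.t ∧ L.g ≠ 0 ∧ L.f ≠ 0 ∧
    L.f ∈ Lo L.S L.p ∧ ∀ R : Pl L.F, ld L.y q L.h R = 1 + kap L.t R - (R.ord L.f : ℝ) / q :=
  flo _ _ _ _ _ _ _ _ _ _ _ _ _ _ _ hq L.lev

theorem exists_pol (eul : EUL) (flo : FLO) (hq : 0 < q) : ∃ G, L.Pol G := by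
  obtain ⟨-, -, -, ⟨s, s', hs, e⟩, -⟩ := L.fl flo hq
  obtain ⟨G₀, h₀⟩ := eul _ _ _ _ _ _ _ L.lev.prj s s.2
  choose G hG using fun j => eul _ _ _ _ _ _ _ L.lev.prj _ (L.z_mem j)
  have s0 : (s' : L.F) ≠ 0 := fun h => hs (by rw [show s' = 0 from Subtype.ext h]; exact zero_mem _)
  refine ⟨fun b => b.elim (pderiv 0 L.P) fun b => (finSuccEquiv ℂ d).symm (b.elim G₀ G), rfl,
    ⟨s', hs, ?_⟩, fun j => ?_⟩
  · simp only [Option.elim]
    rw [u, ← ev2_fin, AlgEquiv.apply_symm_apply, ← h₀, e, mul_assoc, div_mul_cancel₀ _ s0, g]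
  · simp only [Option.elim]
    rw [u, ← ev2_fin, AlgEquiv.apply_symm_apply, ← hG, g]

/-- the orders of the polynomials at a place -/
def oo (R : Pl L.F) (b : Ix N) : ℝ :=
  R.ord L.g + b.elim 0 fun b => b.elim (R.ord L.f) fun j => R.ord (L.z j)

theorem ha (pay : PAY) (flo : FLO) (hq : 0 < q) {G} (hG : L.Pol G) {R : Pl L.F} {μ η : ℝ}
    (hR : Cen L.S L.p R) (hμ : Mu L.t L.w R μ) (hη : 0 < η) :
    HA (L.P : MvPowerSeries (Fin (d + 1)) ℂ) Fin.succ
      (fun b => (G b : MvPowerSeries (Fin (d + 1)) ℂ)) (1 + kap L.t R + η) ∅ (L.oo R) μ := by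
  obtain ⟨h1, h2, h3, -, -⟩ := L.fl flo hq
  have := pay d L.F L.u _ L.P G R μ η L.lev.pt.aff.ff h1 L.aeval_P hμ.1
    (Fin.cases hμ.2.2 fun l _ => hμ.2.1 l) hη
  have key : ∀ b, aeval L.u (G b) ≠ 0 ∧ (R.ord (aeval L.u (G b)) : ℝ) = L.oo R b := by
    rintro (_ | _ | j)
    · rw [hG.der, aeval_der]
      exact ⟨h2, by simp [oo]⟩
    · obtain ⟨s, hs, e⟩ := hG.del
      have s0 : (s : L.F) ≠ 0 := fun h => hs (by
        rw [show s = 0 from Subtype.ext h]; exact zero_mem _)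
      have s1 : R.ord (s : L.F) = 0 := Pl.ord_unit _ (hR s).1 (A0r.lo_ring hR ⟨1, s, hs, by simp⟩)
      rw [e, Pl.ord_mul _ (mul_ne_zero h2 h3) s0, Pl.ord_mul _ h2 h3, s1]
      exact ⟨mul_ne_zero (mul_ne_zero h2 h3) s0, by simp [oo]⟩
    · rw [hG.co, Pl.ord_mul _ h2 (L.lev.pt.ne j)]
      exact ⟨mul_ne_zero h2 (L.lev.pt.ne j), by simp [oo]⟩
  have e1 : {b | aeval L.u (G b) = 0} = ∅ := Set.eq_empty_of_forall_notMem fun b => (key b).1
  have e2 : (fun b => (R.ord (aeval L.u (G b)) : ℝ)) = L.oo R := funext fun b => (key b).2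
  rw [e1, e2] at this
  exact this

/-- an exact arc with prescribed orders -/
def Ar (a og of : ℝ) (J : Set (Fin N)) (w : Fin N → ℝ) (μ K : ℝ) : Prop :=
  ∃ (κ : Type) (_ : Field κ) (_ : Algebra ℂ κ) (x : L.F →ₐ[ℂ] HahnSeries ℝ κ)
    (δ : Fin d → Derivation ℂ κ κ), Arc L.S L.p x ∧ (∀ l, Zs (x (L.t l))) ∧ Zs (x L.w) ∧
    (∀ l, Ge μ (x (L.t l))) ∧ Ge μ (x L.w) ∧
    (Jx δ fun l => x (L.t l)).orderTop ≤ (a : WithTop ℝ) ∧ (x L.g).orderTop = og ∧
    (x L.f).orderTop = of ∧ (∀ j ∈ J, Ge K (x (L.z j))) ∧ ∀ j ∉ J, (x (L.z j)).orderTop = w j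

theorem ord_cancel {a b : WithTop ℝ} {r s : ℝ} (ha : a = r) (h : a + b = s) :
    b = ((s - r : ℝ) : WithTop ℝ) := by
  subst ha
  induction b using WithTop.recTopCoe with
  | top => simp at h
  | coe b =>
    rw [← WithTop.coe_add, WithTop.coe_inj] at h
    rw [← h, add_sub_cancel_left]

theorem ge_cancel {a b : WithTop ℝ} {r s : ℝ} (ha : a = r) (h : (s : WithTop ℝ) ≤ a + b) :
    ((s - r : ℝ) : WithTop ℝ) ≤ b := by
  subst ha
  induction b using WithTop.recTopCoe with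
  | top => exact le_top
  | coe b =>
    rw [← WithTop.coe_add, WithTop.coe_le_coe] at h
    exact WithTop.coe_le_coe.2 (by linarith)

theorem ar (exa : EXA) (arc : ARC) {G} (hG : L.Pol G) {κ : Type} [Field κ] [Algebra ℂ κ]
    {x : Fin (d + 1) → HahnSeries ℝ κ} {δ : Fin d → Derivation ℂ κ κ} {a μ K : ℝ} {Z : Set (Ix N)}
    {o : Ix N → ℝ} (hμ : 0 < μ) (h1 : ∀ j, Zs (x j) ∧ Ge μ (x j)) (h2 : aeval x L.P = 0)
    (h3 : (Jx δ fun l => x l.succ).orderTop ≤ (a : WithTop ℝ))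
    (h4 : ∀ b ∈ Z, Ge K (aeval x (G b))) (h5 : ∀ b ∉ Z, (aeval x (G b)).orderTop = o b)
    (z0 : none ∉ Z) (z1 : some none ∉ Z) :
    L.Ar a (o none) (o (some none) - o none) {j | some (some j) ∈ Z}
      (fun j => o (some (some j)) - o none) μ (K - o none) := by
  have ex : x = Fin.cons (x 0) fun l => x l.succ := (Fin.cons_self_tail x).symm
  obtain ⟨φ, p1, p2⟩ := exa d L.F κ L.S L.p L.t L.w L.Φ δ (fun l => x l.succ) (x 0) L.lev.prj
    (fun e => by simp [e] at h3) (by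
      rw [ex, ← ev2_fin, P, AlgEquiv.apply_symm_apply] at h2
      exact h2)
  have hφ : ∀ H, φ (aeval L.u H) = aeval x H := fun H => by
    rw [← AlgHom.comp_apply, comp_aeval]
    congr 2
    funext j
    exact Fin.cases p2 p1 j
  obtain ⟨a1, a2⟩ := arc d L.F κ L.S L.p L.t L.w L.Φ φ μ L.lev.prj L.sep L.lev.pt.res L.lev.pt.pri
    hμ (fun l => p1 l ▸ (h1 _).2) (p2 ▸ (h1 _).2)
  have og : (φ L.g).orderTop = o none := by rw [← aeval_der, ← hG.der, hφ, h5 _ z0]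
  refine ⟨κ, inferInstance, inferInstance, φ, δ, a1, fun l => p1 l ▸ (h1 _).1, p2 ▸ (h1 _).1,
    fun l => p1 l ▸ (h1 _).2, p2 ▸ (h1 _).2, by simpa only [p1] using h3, og, ?_,
    fun j hj => ?_, fun j hj => ?_⟩
  · obtain ⟨s, hs, e⟩ := hG.del
    have := h5 _ z1
    rw [← hφ, e, map_mul, map_mul, HahnSeries.orderTop_mul, HahnSeries.orderTop_mul, a2 s hs,
      add_zero] at this
    exact ord_cancel og this
  · have := h4 _ hj
    rw [← hφ, hG.co, map_mul, Ge, HahnSeries.orderTop_mul] at this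
    exact ge_cancel og this
  · have := h5 _ hj
    rw [← hφ, hG.co, map_mul, HahnSeries.orderTop_mul] at this
    exact ord_cancel og this

theorem z_nonneg {R : Pl L.F} (hR : Cen L.S L.p R) (j : Fin N) : (0 : ℝ) ≤ R.ord (L.z j) := by
  exact_mod_cast Pl.ord_nonneg_of_mem _ (hR ⟨_, L.z_mem j⟩).1

/-- clause (b) from an exact arc -/
theorem outB (apy : APY) (flo : FLO) (hd : 0 < d) (hq : 0 < q) {n k : ℕ} (hn : 0 < n)
    {c₀ a og of μ K : ℝ} {C : Finset (Fin N → ℕ)} {J : Set (Fin N)} {w : Fin N → ℝ}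
    (h : L.Ar a og of J w μ K) (hμ : 0 < μ) (hc : 0 ≤ c₀) (k1 : og < k * μ) (k2 : of < k * μ)
    (k3 : ∃ c ∈ C, (∀ j ∈ J, c j = 0) ∧ (∑ j, (c j : ℝ) * w j) / n < k * μ)
    (k4 : ∀ c ∈ C, (∀ j ∈ J, c j = 0) → a - of / q ≤ (∑ j, (c j : ℝ) * w j) / n + c₀ * μ)
    (k5 : a - of / q ≤ K / n) :
    OutB q n k c₀ C L.S L.p L.z L.y L.h L.t L.w L.g L.f := by
  obtain ⟨κ, _, _, x, δ, a1, a2, a3, a4, a5, a6, a7, a8, a9, a10⟩ := h
  obtain ⟨h1, h2, h3, -, h5⟩ := L.fl flo hq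
  obtain ⟨E, e, e0, hE, ho, hk⟩ := apy d L.F κ L.S L.p L.t L.w L.Φ δ x a hd L.lev.pt.aff.ff
    L.lev.prj L.lev.pt.res a1 a2 a3 a6
  have n0 : (0 : ℝ) < n := by exact_mod_cast hn
  have eq : ∀ {g : L.F} {r : ℝ}, g ≠ 0 → (x g).orderTop = r → (E.ord g : ℝ) = r / e :=
    fun {g r} g0 hg => by
      rw [ho g g0, WithTop.coe_inj] at hg
      rw [← hg, mul_div_cancel_left₀ _ e0.ne']
  have ge : ∀ {g : L.F} {r : ℝ}, g ≠ 0 → Ge r (x g) → r / e ≤ E.ord g := fun {g r} g0 hg => by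
    rw [Ge, ho g g0, WithTop.coe_le_coe] at hg
    rwa [div_le_iff₀' e0]
  have liv : ∀ c : Fin N → ℕ, (∀ j ∈ J, c j = 0) →
      om L.z E c = (∑ j, (c j : ℝ) * w j) / e := fun c hc => by
    rw [om, Finset.sum_div]
    refine Finset.sum_congr rfl fun j _ => ?_
    by_cases hj : j ∈ J
    · simp [hc j hj]
    · rw [eq (L.lev.pt.ne j) (a10 j hj), mul_div_assoc]
  have hl : ld L.y q L.h E ≤ (a - of / q) / e := by
    rw [h5, eq h3 a8, le_div_iff₀ e0]
    have : (1 + kap L.t E - of / e / q) * e = e * (1 + kap L.t E) - of / q := by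
      field_simp
    linarith
  refine ⟨E, μ / e, hE, ⟨div_pos hμ e0, fun l => ge (h1.ne_zero l) (a4 l), fun w0 => ge w0 a5⟩,
    ?_, ?_, ?_, fun c hC => hl.trans ?_⟩
  · rw [eq h2 a7, ← mul_div_assoc]
    exact div_lt_div_of_pos_right k1 e0
  · rw [eq h3 a8, ← mul_div_assoc]
    exact div_lt_div_of_pos_right k2 e0
  · obtain ⟨c, hC, c1, c2⟩ := k3
    refine ⟨c, hC, ?_⟩
    rw [liv c c1, div_right_comm, ← mul_div_assoc]
    exact div_lt_div_of_pos_right c2 e0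
  · by_cases c1 : ∀ j ∈ J, c j = 0
    · rw [liv c c1, div_right_comm, ← mul_div_assoc, ← add_div]
      exact div_le_div_of_nonneg_right (k4 c hC c1) e0.le
    · push Not at c1
      obtain ⟨j, hj, cj⟩ := c1
      have b1 : K / e ≤ om L.z E c := by
        refine (ge (L.lev.pt.ne j) (a9 j hj)).trans (le_trans ?_ (Finset.single_le_sum
          (f := fun j => (c j : ℝ) * E.ord (L.z j))
          (fun j _ => mul_nonneg (Nat.cast_nonneg _) (L.z_nonneg hE j)) (Finset.mem_univ j)))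
        exact le_mul_of_one_le_left (L.z_nonneg hE j) (by exact_mod_cast Nat.pos_of_ne_zero cj)
      have b2 : 0 ≤ c₀ * (μ / e) := by positivity
      have b3 : (a - of / q) / e ≤ K / e / n := by
        rw [div_right_comm]
        exact div_le_div_of_nonneg_right k5 e0.le
      linarith [div_le_div_of_nonneg_right b1 n0.le]

end LD

/-- the linear form of a monomial -/
def vx (r : ℕ) (c : Fin N → ℕ) (b : Ix N) : ℤ :=
  b.elim (-(r + ∑ j, c j)) fun b => b.elim r fun j => c j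

theorem sum_vx (r : ℕ) (c : Fin N → ℕ) (o : Ix N → ℝ) : ∑ b, (vx r c b : ℝ) * o b =
    r * (o (some none) - o none) + ∑ j, (c j : ℝ) * (o (some (some j)) - o none) := by
  simp only [Fintype.sum_option, vx, Option.elim, mul_sub, Finset.sum_sub_distrib,
    ← Finset.sum_mul]
  push_cast
  ring

theorem min_sum (c : Fin N → ℕ) {w : Fin N → ℝ} (hw : ∀ j, 0 ≤ w j) {K β : ℝ} (hK : 0 ≤ K)
    (h1 : β ≤ K) (h2 : β ≤ ∑ j, (c j : ℝ) * w j) : β ≤ ∑ j, (c j : ℝ) * min (w j) K := by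
  by_cases h : ∀ j, c j ≠ 0 → w j ≤ K
  · refine h2.trans_eq (Finset.sum_congr rfl fun j _ => ?_)
    by_cases e : c j = 0
    · simp [e]
    · rw [min_eq_left (h j e)]
  · push Not at h
    obtain ⟨j, cj, hj⟩ := h
    refine h1.trans (le_trans ?_ (Finset.single_le_sum (f := fun j => (c j : ℝ) * min (w j) K)
      (fun j _ => mul_nonneg (Nat.cast_nonneg _) (le_min (hw j) hK)) (Finset.mem_univ j)))
    rw [min_eq_right hj.le]
    exact le_mul_of_one_le_left hK (by exact_mod_cast Nat.pos_of_ne_zero cj)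

open Classical in
/-- clause (a) from the lower bound for the arcs of the level -/
theorem LD.outA (L : LD d N q) (pay : PAY) (flo : FLO) (hq : 0 < q) {G} (hG : L.Pol G) {n k : ℕ}
    (hn : 0 < n) (hd : q ∣ n) {c : ℝ} {C : Finset (Fin N → ℕ)}
    (h : ∀ a Z o μ, HA (L.P : MvPowerSeries (Fin (d + 1)) ℂ) Fin.succ
      (fun b => (G b : MvPowerSeries (Fin (d + 1)) ℂ)) a Z o μ →
      (∀ b ∈ ({none, some none} : Set (Ix N)), b ∉ Z ∧ o b ≤ (2 * k : ℕ) * μ) →
      ∃ j : C, ∑ b, vx (n / q) j b * (if b ∈ Z then ((n + 2) * k + 1 : ℕ) * μ else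
        min (o b) (((n + 2) * k + 1 : ℕ) * μ)) + c * μ ≤ (n : ℝ) * a) :
    OutA q n k (c / n) C L.S L.p L.z L.y L.h L.t L.w L.g L.f := by
  intro R μ β hR hμ b1 b2 b3 b4
  obtain ⟨-, -, h3, h4, h5⟩ := L.fl flo hq
  have n0 : (0 : ℝ) < n := by exact_mod_cast hn
  have q0 : (0 : ℝ) < q := by exact_mod_cast hq
  have f0 : (0 : ℝ) ≤ R.ord L.f := by exact_mod_cast Pl.ord_nonneg_of_mem _ (A0r.lo_ring hR h4)
  have m0 := hμ.1
  have k0 : (0 : ℝ) ≤ k * μ := by positivity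
  have k1 : (0 : ℝ) ≤ n * (k * μ) := by positivity
  rw [h5]
  refine le_of_forall_pos_le_add fun η hη => ?_
  obtain ⟨j, hj⟩ := h _ _ _ _ (L.ha pay flo hq hG hR hμ hη) (by
    rintro b (rfl | rfl) <;> refine ⟨id, ?_⟩ <;> simp only [LD.oo, Option.elim] <;> push_cast <;>
      linarith)
  simp only [Set.mem_empty_iff_false, if_false] at hj
  rw [sum_vx (o := fun b => min (L.oo R b) (((n + 2) * k + 1 : ℕ) * μ))] at hj
  simp only [LD.oo, Option.elim] at hj
  push_cast at hj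
  rw [add_zero, min_eq_left (a := (R.ord L.g : ℝ)) (by nlinarith),
    min_eq_left (a := (R.ord L.g : ℝ) + R.ord L.f) (by nlinarith)] at hj
  have e1 : n * β ≤ ∑ i, (j.1 i : ℝ) * min (R.ord (L.z i) : ℝ) (n * (k * μ)) :=
    min_sum _ (L.z_nonneg hR) k1 (mul_le_mul_of_nonneg_left b3 n0.le) (by
      have := b4 _ j.2
      rwa [le_div_iff₀' n0] at this)
  have e2 : ∑ i, (j.1 i : ℝ) * min (R.ord (L.z i) : ℝ) (n * (k * μ)) ≤ ∑ i, (j.1 i : ℝ) *
      (min ((R.ord L.g : ℝ) + R.ord (L.z i)) (((n + 2) * k + 1) * μ) - R.ord L.g) :=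
    Finset.sum_le_sum fun i _ => mul_le_mul_of_nonneg_left (by
      rw [le_sub_iff_add_le, le_min_iff]
      constructor
      · linarith [min_le_left (R.ord (L.z i) : ℝ) (n * (k * μ))]
      · nlinarith [min_le_right (R.ord (L.z i) : ℝ) (n * (k * μ))]) (Nat.cast_nonneg _)
  rw [Nat.cast_div hd q0.ne'] at hj
  refine le_of_mul_le_mul_left ?_ n0
  have e3 : (n : ℝ) * (β + c / n * μ) = n * β + c * μ := by field_simp
  have e4 : (n : ℝ) * (1 + kap L.t R - R.ord L.f / q + η) =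
      n * (1 + kap L.t R + η) - n / q * (R.ord L.g + R.ord L.f - R.ord L.g) := by
    ring
  linarith

end Vale.Agent.P283R.Be2
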