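import Mathlib.RingTheory.DedekindDomain.Different
import Vale.Agent.P283R.Be2.Flo

/-!
# P283R, block BE: the lemma of Euler
-/

open Polynomial

noncomputable section

namespace Vale.Agent.P283R.Be2

open Tx

/-- **EUL** -/
theorem eul : EUL := fun d F _ _ S p t w Φ h a ha => by
  let A := MvPolynomial (Fin d) ℂ
  let K := FractionRing A
  let _ : Algebra A F := (MvPolynomial.aeval t : A →ₐ[ℂ] F).toRingHom.toAlgebra
  have : FaithfulSMul A F := (faithfulSMul_iff_algebraMap_injective A F).2 (Flo.ind h)
  let _ : Algebra K F := FractionRing.liftAlgebra A F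
  have : IsScalarTower A K F := FractionRing.isScalarTower_liftAlgebra A F
  have ev : ∀ (x : F) (G : A[X]), ev2 t x G = aeval x G := fun _ _ => rfl
  have int : ∀ b ∈ S, IsIntegral A b := h.int
  have iw := int w h.wm
  have kw : IsIntegral K w := iw.tower_top
  have mp : minpoly A w = Φ := eq_of_monic_of_associated (minpoly.monic iw) h.mon
    (associated_of_dvd_dvd (minpoly.isIntegrallyClosed_dvd iw ((h.ker Φ).2 dvd_rfl))
      ((h.ker _).1 (minpoly.aeval A w)))
  have top : IntermediateField.adjoin K {w} = ⊤ := eq_top_iff.2 fun b _ => by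
    obtain ⟨G, H, rfl⟩ := h.top b
    have m : ∀ G : A[X], ev2 t w G ∈ IntermediateField.adjoin K {w} := fun G => by
      rw [ev, ← aeval_map_algebraMap K]
      exact IntermediateField.algebra_adjoin_le_adjoin K _ (aeval_mem_adjoin_singleton K w)
    exact div_mem (m G) (m H)
  have : FiniteDimensional K F := by
    have := IntermediateField.adjoin.finiteDimensional kw
    rw [top] at this
    exact IntermediateField.topEquiv.toLinearEquiv.finiteDimensional
  have e := traceForm_dualSubmodule_adjoin A K
    (Algebra.adjoin_eq_top_of_primitive_element kw.isAlgebraic top) iw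
  have m : a ∈ (Algebra.traceForm K F).dualSubmodule
      (Subalgebra.toSubmodule (Algebra.adjoin A {w})) :=
    (LinearMap.BilinForm.mem_dualSubmodule _).2 fun y hy => by
      have iy : IsIntegral A y := adjoin_le_integralClosure iw hy
      rw [Algebra.traceForm_apply, Submodule.mem_one]
      exact IsIntegrallyClosed.isIntegral_iff.1 (Algebra.isIntegral_trace ((int a ha).mul iy))
  rw [e, minpoly.isIntegrallyClosed_eq_field_fractions' K iw, mp, derivative_map,
    aeval_map_algebraMap] at m
  obtain ⟨b, hb, rfl⟩ := (Submodule.mem_smul_pointwise_iff_exists _ _ _).1 m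
  have hb : b ∈ Algebra.adjoin A {w} := hb
  rw [Algebra.adjoin_singleton_eq_range_aeval] at hb
  obtain ⟨G, rfl⟩ := hb
  exact ⟨G, mul_inv_cancel_left₀ (Flo.der_ne h) _⟩

end Vale.Agent.P283R.Be2
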