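import Vale.Agent.P283R.Be2.Lc
import Vale.Agent.P283R.Be2.Cs
import Vale.Agent.P283R.Be2.Cc
import Vale.Agent.P283R.Kw.Kw

/-!
# P283R, block BE: from the two clauses of the core to all places centred at the point
-/

open Set
open Vale.Agent.P297Z

noncomputable section

namespace Vale.Agent.P283R.Be2

open Vale.Agent.P287D Vale.Agent.P287D.Cb

theorem kaw : KAW := fun _ _ _ _ _ _ hA hN res _ a b c _ d e _ f g h _ i =>
  Kw.kaw hA hN res a b c d e f g h i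

variable {F : Type} [Field F] [Algebra ℂ F] {n N : ℕ} {S : Subalgebra ℂ F} {p : Ideal S}

/-- `lc_gen` over any klt pair at the point -/
theorem lc_kl (hA : Aff (n + 1) S) (hN : IsIntegrallyClosed S)
    (res : ∀ a : S, ∃ c : ℂ, a - algebraMap ℂ S c ∈ p) {y : Fin (n + 1) → F} (hy : Frm y) {q : ℕ}
    {h : F} (kl : Bc.KL S p y)
    (bd : ∀ R, PDat S p R → ld y q h R ≤ 1) {M : BD F} (nM : Nef (-M))
    (pM : ∀ R, PDat S p R → 0 ≤ M R) {T : Set (BD F)} (hT : T.Finite) (hc : T ⊆ Car F) {E : Pl F}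
    (hE : Cen S p E) (pos : ∀ β ∈ T, 0 < β E) (att : ld y q h E ≤ M E)
    (low : ∀ R, Cen S p R → (∀ β ∈ T, 0 < β R) → M R ≤ ld y q h R) {v : Pl F} (hv : Cen S p v) :
    M v ≤ ld y q h v := by
  obtain ⟨m, g, -, -, bd0, klt⟩ := kl
  obtain ⟨G₀, gP₀, e₀⟩ := Lc.exists_bd hy m g
  obtain ⟨G, gP, e⟩ := Lc.exists_bd hy q h
  have e' : ∀ P, dsc (n + 1) (G + M) P = ld y q h P - 1 - M P := fun P => by
    rw [← e]; simp only [dsc, Pi.sub_apply, Pi.add_apply]; ring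
  have nG : Nef (-(G + M)) := by
    rw [neg_add, add_comm]; exact nM.add_prn (neg_mem gP)
  have gE : dsc (n + 1) (G + M) E = -1 := by
    have := low E hE pos
    rw [e']; linarith
  have := Kw.kaw hA hN res (Nef.of_prn (neg_mem gP₀))
    (fun q₀ le P c => by have := klt q₀ le P c; rw [e₀]; linarith)
    (fun R r => by have := bd0 R r; rw [e₀]; linarith) nG
    (fun R r => by have := bd R r; have := pM R r; rw [e']; linarith) hE gE
    (adj_lc' hA res hE (neg_mem_iff.1 nG.car) gE hT hc pos fun R c r => by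
      have := low R c r
      rw [e']; linarith) hv
  rw [e'] at this
  linarith

theorem ord_mon {z : Fin N → F} (h : ∀ j, z j ≠ 0) (P : Pl F) (c : Fin N → ℕ) :
    (P.ord (∏ j, z j ^ c j) : ℝ) = om z P c := by
  rw [P.ord_prod _ fun j _ => pow_ne_zero _ (h j)]
  simp [Pl.ord_pow, om]

/-- **LCI** in the words of the core -/
theorem out_all {A : Subgroup (F ≃ₐ[ℂ] F)} {z : Fin N → F} (pt : Tx.Pt (n + 1) A S p z)
    {y : Fin (n + 1) → F} (hy : Frm y) {q : ℕ} {h : F} (bd : ∀ R, PDat S p R → ld y q h R ≤ 1)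
    (kl : Bc.KL S p y) {t : Fin (n + 1) → F} {w g f : F} (ht : ∀ l, ∃ s ∈ p, (s : F) = t l)
    (hw : ∃ s ∈ p, (s : F) = w) {m k : ℕ} (hm : 0 < m) {c₀ : ℝ} (hc : 0 < c₀)
    {C : Finset (Fin N → ℕ)} (ha : OutA q m k c₀ C S p z y h t w g f)
    (hb : OutB q m k c₀ C S p z y h t w g f) {v : Pl F} (hv : Cen S p v) :
    ∃ c ∈ C, (∑ j, (c j : ℝ) * v.ord (z j)) / m < ld y q h v := by
  classical
  obtain ⟨E, μ, hE, mu, g1, f1, ⟨c₁, hc₁, b1⟩, att⟩ := hb
  have m0 : (0 : ℝ) < m := by exact_mod_cast hm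
  have h1 : (1 : S) ∉ p := (Ideal.ne_top_iff_one p).1 pt.pri.ne_top
  have t0 : ∀ l, t l ≠ 0 := fun l e => by
    have := mu.1.trans_le (mu.2.1 l)
    simp [e] at this
  set τ := insert w (Finset.univ.image t)
  set U := C.image fun c => ∏ j, z j ^ c j
  have tm : ∀ l, t l ∈ τ := fun l =>
    Finset.mem_insert_of_mem (Finset.mem_image_of_mem _ (Finset.mem_univ l))
  have t1 : Nz τ := ⟨t 0, tm 0, t0 0⟩
  have t2 : ∀ x ∈ τ, ∃ s ∈ p, (s : F) = x := fun x hx => by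
    rcases Finset.mem_insert.1 hx with rfl | hx
    · exact hw
    · obtain ⟨j, -, rfl⟩ := Finset.mem_image.1 hx
      exact ht j
  have z0 : ∀ c : Fin N → ℕ, ∏ j, z j ^ c j ≠ 0 := fun c =>
    Finset.prod_ne_zero_iff.2 fun j _ => pow_ne_zero _ (pt.ne j)
  have u1 : Nz U := ⟨_, Finset.mem_image_of_mem _ hc₁, z0 c₁⟩
  have u2 : ∀ P, ∀ c ∈ C, -mx U P ≤ om z P c := fun P c hc =>
    (Lc.mx_le (Finset.mem_image_of_mem _ hc) (z0 c) P).trans_eq (ord_mon pt.ne P c)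
  have u3 : ∀ P : Pl F, ∃ c ∈ C, -mx U P = om z P c := fun P => by
    obtain ⟨x, hx, -, e⟩ := Lc.exists_mx u1 P
    obtain ⟨i, hi, rfl⟩ := Finset.mem_image.1 hx
    exact ⟨i, hi, e.trans (ord_mon pt.ne P i)⟩
  have uS : ∀ u ∈ U, u ∈ S := fun u hu => by
    obtain ⟨c, -, rfl⟩ := Finset.mem_image.1 hu
    refine prod_mem fun j _ => pow_mem ?_ _
    obtain ⟨s, -, e⟩ := pt.mem j
    exact e ▸ s.2
  have mE : μ ≤ -mx τ E := by
    obtain ⟨x, hx, x0, e⟩ := Lc.exists_mx t1 E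
    rw [e]
    rcases Finset.mem_insert.1 hx with rfl | hx
    · exact mu.2.2 x0
    · obtain ⟨j, -, rfl⟩ := Finset.mem_image.1 hx
      exact mu.2.1 j
  have kE : (k : ℝ) * μ ≤ k * -mx τ E := mul_le_mul_of_nonneg_left mE (Nat.cast_nonneg k)
  have ap : ∀ P, ((m : ℝ)⁻¹ • -mx U + c₀ • -mx τ) P = -mx U P / m + c₀ * -mx τ P := fun P => by
    rw [div_eq_inv_mul]; rfl
  have a1 : ∀ (β : BD F) P, ((k : ℝ) • -mx τ - β) P = k * -mx τ P - β P := fun _ _ => rfl
  have a2 : ∀ P, ((m : ℝ)⁻¹ • -mx U) P = -mx U P / m := fun P => by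
    rw [div_eq_inv_mul]; rfl
  have cτ : ∀ β ∈ Car F, (k : ℝ) • -mx τ - β ∈ Car F := fun β hβ =>
    sub_mem (Submodule.smul_mem _ _ (neg_mem (mx_mem_Car _))) hβ
  have key := lc_kl pt.aff pt.nor pt.res hy kl bd (M := (m : ℝ)⁻¹ • -mx U + c₀ • -mx τ)
    (by simpa [add_comm] using ((nef_mx U).smul (inv_pos.2 m0).le).add ((nef_mx τ).smul hc.le))
    (fun R r => by
      rw [ap]
      exact add_nonneg (div_nonneg (Lc.mx_nn u1 fun u hu =>
          Lc.pd_lo r ⟨⟨u, uS u hu⟩, 1, h1, by simp⟩) m0.le)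
        (mul_nonneg hc.le (Lc.mx_nn t1 fun u hu => Lc.pd_lo r <| by
          obtain ⟨s, -, rfl⟩ := t2 u hu
          exact ⟨s, 1, h1, by simp⟩)))
    (T := {(k : ℝ) • -mx τ - dv g, (k : ℝ) • -mx τ - dv f, (k : ℝ) • -mx τ - (m : ℝ)⁻¹ • -mx U})
    (toFinite _)
    (insert_subset (cτ _ (dv_mem_Car _)) (insert_subset (cτ _ (dv_mem_Car _))
      (singleton_subset_iff.2 (cτ _ (Submodule.smul_mem _ _ (neg_mem (mx_mem_Car _)))))))
    hE (by
      rintro β (rfl | rfl | rfl) <;> rw [a1]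
      · rw [dv_apply]; linarith
      · rw [dv_apply]; linarith
      · have := div_le_div_of_nonneg_right (u2 E c₁ hc₁) m0.le
        rw [a2]; linarith)
    (by
      obtain ⟨c, hc', e⟩ := u3 E
      have := att c hc'
      have := mul_le_mul_of_nonneg_left mE hc.le
      rw [ap, e]; linarith)
    (fun R r a => by
      have k1 := a _ (.inl rfl)
      have k2 := a _ (.inr (.inl rfl))
      have k3 := a _ (.inr (.inr rfl))
      rw [a1] at k1 k2 k3
      rw [dv_apply] at k1 k2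
      rw [a2] at k3
      rw [ap]
      exact ha R _ _ r ⟨Lc.mx_pos t1 t2 r, fun l => Lc.mx_le (tm l) (t0 l) R,
        fun w0 => Lc.mx_le (Finset.mem_insert_self _ _) w0 R⟩ (by linarith) (by linarith)
        (by linarith) fun c hc' => div_le_div_of_nonneg_right (u2 R c hc') m0.le) hv
  obtain ⟨c, hc', e⟩ := u3 v
  have := mul_pos hc (Lc.mx_pos t1 t2 hv)
  rw [ap, e] at key
  exact ⟨c, hc', by change om z v c / m < _; linarith⟩

end Vale.Agent.P283R.Be2
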