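import Vale.Agent.P283R.Be2.TwS

/-!
# P283R, bounded embedding dimension: the statements at a closed point
-/

noncomputable section

namespace Vale.Agent.P283R.Bgl

open Vale.Agent.P287D

/-- every place centred at `p` is separated by a monomial of the right character -/
def Mne {F : Type} [Field F] [Algebra ℂ F] {d N : ℕ} (n q : ℕ) (A : Subgroup (F ≃ₐ[ℂ] F))
    (S : Subalgebra ℂ F) (p : Ideal S) (z : Fin N → F) (y : Fin d → F) (h : F) : Prop :=
  ∀ P, Cen S p P → ∃ c : Fin N → ℕ, Fix A ((∏ j, z j ^ c j) * h ^ (n / q)) ∧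
    (∑ j, (c j : ℝ) * P.ord (z j)) / n < ld y q h P

/-- a statement at closed points; `H` is the hypothesis on the singularities -/
def LTx (H : ∀ (d _ : ℕ) (_ : ℝ) (F : Type) [Field F] [Algebra ℂ F] (_ : Subgroup (F ≃ₐ[ℂ] F))
    (S : Subalgebra ℂ F) (_ : Ideal S) (_ : Fin d → F) (_ : F), Prop) : Prop :=
  ∀ (d N q : ℕ) (ε : ℝ), 0 < q → 0 < ε → Unif q fun n =>
    ∀ (F : Type) [Field F] [Algebra ℂ F] (A : Subgroup (F ≃ₐ[ℂ] F)) (S : Subalgebra ℂ F)
      (p : Ideal S) (z : Fin N → F) (y : Fin d → F) (h : F), Tx.Pt d A S p z → Finite A →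
      Stab A S → Frm y → (∀ i, Fix A (y i)) → h ≠ 0 → Eig A h →
      (∀ R, PDat S p R → ld y q h R ≤ 1) → H d q ε F A S p y h → Mne n q A S p z y h

/-- **LTe**: the hypothesis (H) at all points which specialise to `p` -/
def LTe : Prop := LTx fun _ q ε _ _ _ A S p y h => ∀ p₀ : Ideal S, p₀ ≤ p → Hyp ε A S p₀ y q h

/-- **LTp**: the hypothesis (H) at `p`, klt near `p` -/
def LTp : Prop := LTx fun _ q ε _ _ _ A S p y h => Hyp ε A S p y q h ∧
  ∀ p₀ : Ideal S, p₀ ≤ p → ∀ P, Cen S p₀ P → 0 < ld y q h P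

theorem LTp.lte (h : LTp) : LTe := fun d N q ε q0 e0 =>
  (h d N q ε q0 e0).imp fun _ k => ⟨k.1, fun n a b c F _ _ A S p z y g h1 h2 h3 h4 h5 h6 h7 h8 H =>
    k.2 n a b c F A S p z y g h1 h2 h3 h4 h5 h6 h7 h8 ⟨H p le_rfl, fun p₀ l P hP =>
      e0.trans_le (by simpa using H p₀ l P hP 1 one_pos fun _ _ _ => one_dvd _)⟩⟩

end Vale.Agent.P283R.Bgl
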