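import Vale.Agent.P283R.Be2.Fo

/-!
# P283R, block BE: from the region to all places centred at the point
-/

open Set
open Vale.Agent.P297Z

noncomputable section

namespace Vale.Agent.P283R.Be2

open Vale.Agent.P287D Vale.Agent.P287D.Cb

/-- **KAW**: inversion of adjunction at a place of log discrepancy `0` over a klt germ -/
def KAW : Prop := ∀ (n : ℕ) (F : Type) [Field F] [Algebra ℂ F] (S : Subalgebra ℂ F) (p : Ideal S),
  Aff (n + 1) S → IsIntegrallyClosed S → (∀ a : S, ∃ c : ℂ, a - algebraMap ℂ S c ∈ p) →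
  ∀ G₀ : BD F, Nef (-G₀) → (∀ q ≤ p, ∀ P, Cen S q P → -1 < dsc (n + 1) G₀ P) →
  (∀ R, PDat S p R → dsc (n + 1) G₀ R ≤ 0) →
  ∀ G : BD F, Nef (-G) → (∀ R, PDat S p R → dsc (n + 1) G R ≤ 0) →
  ∀ E, Cen S p E → dsc (n + 1) G E = -1 → (∀ Q, -1 ≤ dsc n (adj n E G) Q) →
  ∀ v, Cen S p v → -1 ≤ dsc (n + 1) G v

variable {F : Type} [Field F] [Algebra ℂ F] {n : ℕ} {S : Subalgebra ℂ F} {p : Ideal S}

namespace Lc

/-- the log canonical b-divisor of the pair `ld y q h` -/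
theorem exists_bd {N : ℕ} {y : Fin N → F} (hy : Frm y) (q : ℕ) (h : F) :
    ∃ G ∈ Prn F, ∀ P, dsc N G P = ld y q h P - 1 := by
  obtain ⟨D, hD⟩ := hy
  obtain ⟨j, -, e⟩ := Aj.kap_cn hD
  refine ⟨(q : ℝ)⁻¹ • dv h - dv j,
    sub_mem (Submodule.smul_mem _ _ (dv_mem_Prn h)) (dv_mem_Prn j), fun P => ?_⟩
  simp only [dsc, ld, e, Pi.sub_apply, Pi.add_apply, Pi.smul_apply, smul_eq_mul, dv]
  ring

theorem pd_lo {R : Pl F} (h : PDat S p R) {a : F} (ha : a ∈ Lo S p) : a ∈ R.ring := by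
  obtain ⟨q, le, c, -⟩ := h
  obtain ⟨s, t, ht, rfl⟩ := ha
  exact Hr.cen_lo c ⟨s, t, fun k => ht (le k), rfl⟩

theorem exists_mx {U : Finset F} (h : Nz U) (P : Pl F) :
    ∃ u ∈ U, u ≠ 0 ∧ -mx U P = P.ord u := by
  obtain ⟨u, hu, u0, e⟩ := P.exists_mz h
  exact ⟨u, hu, u0, by rw [mx_apply, e]; simp⟩

theorem mx_le {U : Finset F} {u : F} (hu : u ∈ U) (u0 : u ≠ 0) (P : Pl F) :
    -mx U P ≤ P.ord u := by
  have : ((-P.ord u : ℤ) : ℝ) ≤ P.mz U := Int.cast_le.2 (P.le_mz hu u0)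
  rw [mx_apply]
  push_cast at this
  linarith

theorem mx_nn {U : Finset F} (h : Nz U) {P : Pl F} (hU : ∀ u ∈ U, u ∈ P.ring) : 0 ≤ -mx U P := by
  obtain ⟨u, hu, -, e⟩ := exists_mx h P
  rw [e]
  exact_mod_cast Pl.ord_nonneg_of_mem P.toPlace (hU u hu)

theorem mx_pos {U : Finset F} (h : Nz U) (hU : ∀ u ∈ U, ∃ s ∈ p, (s : F) = u) {P : Pl F}
    (c : Cen S p P) : 0 < -mx U P := by
  obtain ⟨u, hu, u0, e⟩ := exists_mx h P
  obtain ⟨s, hs, rfl⟩ := hU u hu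
  rw [e]
  exact_mod_cast ((Hr.cen_iff c s).1 hs).resolve_left u0

end Lc

/-- an anti-nef effective `M` which is attained at `E` and is a lower bound in an open polyhedral
region around `E` is a lower bound at all places centred at `p` -/
theorem lc_gen (kaw : KAW) (hA : Aff (n + 1) S) (hN : IsIntegrallyClosed S)
    (res : ∀ a : S, ∃ c : ℂ, a - algebraMap ℂ S c ∈ p) {y : Fin (n + 1) → F} (hy : Frm y) {q : ℕ}
    {h : F} (klt : ∀ q₀ ≤ p, ∀ P, Cen S q₀ P → 0 < ld y q h P)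
    (bd : ∀ R, PDat S p R → ld y q h R ≤ 1) {M : BD F} (nM : Nef (-M))
    (pM : ∀ R, PDat S p R → 0 ≤ M R) {T : Set (BD F)} (hT : T.Finite) (hc : T ⊆ Car F) {E : Pl F}
    (hE : Cen S p E) (pos : ∀ β ∈ T, 0 < β E) (att : ld y q h E ≤ M E)
    (low : ∀ R, Cen S p R → (∀ β ∈ T, 0 < β R) → M R ≤ ld y q h R) {v : Pl F} (hv : Cen S p v) :
    M v ≤ ld y q h v := by
  obtain ⟨G, gP, e⟩ := Lc.exists_bd hy q h
  have e' : ∀ P, dsc (n + 1) (G + M) P = ld y q h P - 1 - M P := fun P => by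
    rw [← e]; simp only [dsc, Pi.sub_apply, Pi.add_apply]; ring
  have nG : Nef (-(G + M)) := by
    rw [neg_add, add_comm]; exact nM.add_prn (neg_mem gP)
  have gE : dsc (n + 1) (G + M) E = -1 := by
    have := low E hE pos
    rw [e']; linarith
  have := kaw n F S p hA hN res G (Nef.of_prn (neg_mem gP))
    (fun q₀ le P c => by have := klt q₀ le P c; rw [e]; linarith)
    (fun R r => by have := bd R r; rw [e]; linarith) (G + M) nG
    (fun R r => by have := bd R r; have := pM R r; rw [e']; linarith) E hE gE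
    (adj_lc' hA res hE (neg_mem_iff.1 nG.car) gE hT hc pos fun R c r => by
      have := low R c r
      rw [e']; linarith) v hv
  rw [e'] at this
  linarith

/-- **LCI**: the form with a system `U` of regular functions and a system `t` in `p` -/
theorem lc_of (kaw : KAW) (hA : Aff (n + 1) S) (hN : IsIntegrallyClosed S)
    (res : ∀ a : S, ∃ c : ℂ, a - algebraMap ℂ S c ∈ p) {y : Fin (n + 1) → F} (hy : Frm y) {q : ℕ}
    {h : F} (klt : ∀ q₀ ≤ p, ∀ P, Cen S q₀ P → 0 < ld y q h P)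
    (bd : ∀ R, PDat S p R → ld y q h R ≤ 1) {U t : Finset F} (U0 : Nz U) (t0 : Nz t)
    (hU : ∀ u ∈ U, u ∈ Lo S p) (ht : ∀ u ∈ t, ∃ s ∈ p, (s : F) = u) {b c : ℝ} (hb : 0 ≤ b)
    (hc0 : 0 ≤ c) {T : Set (BD F)} (hT : T.Finite) (hc : T ⊆ Car F) {E : Pl F}
    (hE : Cen S p E) (pos : ∀ β ∈ T, 0 < β E)
    (att : ld y q h E ≤ b * -mx U E + c * -mx t E)
    (low : ∀ R, Cen S p R → (∀ β ∈ T, 0 < β R) → b * -mx U R + c * -mx t R ≤ ld y q h R)
    {v : Pl F} (hv : Cen S p v) : b * -mx U v + c * -mx t v ≤ ld y q h v := by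
  have h1 : (1 : S) ∉ p := fun k => by simpa using (Hr.cen_iff hE 1).1 k
  have ap : ∀ P, (b • -mx U + c • -mx t) P = b * -mx U P + c * -mx t P := fun P => rfl
  refine (ap v).symm.trans_le (lc_gen kaw hA hN res hy klt bd ?_ (fun R r => ?_) hT hc hE pos
    (att.trans_eq (ap E).symm) (fun R k r => (ap R).trans_le (low R k r)) hv)
  · have := ((nef_mx U).smul hb).add ((nef_mx t).smul hc0)
    simpa [add_comm] using this
  · rw [ap]
    exact add_nonneg (mul_nonneg hb (Lc.mx_nn U0 fun u hu => Lc.pd_lo r (hU u hu)))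
      (mul_nonneg hc0 (Lc.mx_nn t0 fun u hu => Lc.pd_lo r <| by
        obtain ⟨s, -, rfl⟩ := ht u hu
        exact ⟨s, 1, h1, by simp⟩))

/-- **LCI**, elementwise: indexed families, the region `ord π < k · min ord t` -/
theorem lc_el (kaw : KAW) (hA : Aff (n + 1) S) (hN : IsIntegrallyClosed S)
    (res : ∀ a : S, ∃ c : ℂ, a - algebraMap ℂ S c ∈ p) {y : Fin (n + 1) → F} (hy : Frm y) {q : ℕ}
    {h : F} (klt : ∀ q₀ ≤ p, ∀ P, Cen S q₀ P → 0 < ld y q h P)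
    (bd : ∀ R, PDat S p R → ld y q h R ≤ 1) {ι τ : Type} {C : Finset ι} {u : ι → F}
    [Fintype τ] {t : τ → F} (hU : ∀ i ∈ C, u i ∈ Lo S p) (ht : ∀ j, ∃ s ∈ p, (s : F) = t j)
    (t0 : ∃ j, t j ≠ 0) {b c k : ℝ} (hb : 0 ≤ b) (hc : 0 < c) {π : F} {E : Pl F}
    (hE : Cen S p E) (pos : ∀ j, t j ≠ 0 → E.ord π < k * E.ord (t j))
    (att : ∀ i ∈ C, u i ≠ 0 → ∀ j, t j ≠ 0 → ld y q h E ≤ b * E.ord (u i) + c * E.ord (t j))
    (low : ∀ R, Cen S p R → ∀ μ : ℝ, 0 < μ → (∀ j, t j ≠ 0 → μ ≤ R.ord (t j)) →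
      R.ord π ≤ k * μ → ∃ i ∈ C, u i ≠ 0 ∧ b * R.ord (u i) + c * μ ≤ ld y q h R)
    {v : Pl F} (hv : Cen S p v) : ∃ i ∈ C, u i ≠ 0 ∧ b * v.ord (u i) < ld y q h v := by
  classical
  have t1 : Nz (Finset.univ.image t) :=
    let ⟨j, hj⟩ := t0; ⟨t j, Finset.mem_image_of_mem _ (Finset.mem_univ j), hj⟩
  have t2 : ∀ x ∈ Finset.univ.image t, ∃ s ∈ p, (s : F) = x := fun x hx => by
    obtain ⟨j, -, rfl⟩ := Finset.mem_image.1 hx
    exact ht j
  have t3 : ∀ P : Pl F, ∃ j, t j ≠ 0 ∧ -mx (Finset.univ.image t) P = P.ord (t j) := fun P => by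
    obtain ⟨x, hx, x0, e⟩ := Lc.exists_mx t1 P
    obtain ⟨j, -, rfl⟩ := Finset.mem_image.1 hx
    exact ⟨j, x0, e⟩
  have ap : ∀ P, (k • -mx (Finset.univ.image t) - dv π) P =
      k * -mx (Finset.univ.image t) P - P.ord π := fun P => rfl
  have lw : ∀ R, Cen S p R → 0 < (k • -mx (Finset.univ.image t) - dv π) R → ∃ i ∈ C, u i ≠ 0 ∧
      b * R.ord (u i) + c * -mx (Finset.univ.image t) R ≤ ld y q h R := fun R r a =>
    low R r _ (Lc.mx_pos t1 t2 r)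
      (fun j hj => Lc.mx_le (Finset.mem_image_of_mem _ (Finset.mem_univ j)) hj R)
      (by rw [ap] at a; linarith)
  have pE : 0 < (k • -mx (Finset.univ.image t) - dv π) E := by
    obtain ⟨j, hj, e⟩ := t3 E
    rw [ap, e]
    exact sub_pos.2 (pos j hj)
  have u1 : Nz (C.image u) :=
    let ⟨i, hi, i0, _⟩ := lw E hE pE; ⟨u i, Finset.mem_image_of_mem _ hi, i0⟩
  have u3 : ∀ P : Pl F, ∃ i ∈ C, u i ≠ 0 ∧ -mx (C.image u) P = P.ord (u i) := fun P => by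
    obtain ⟨x, hx, x0, e⟩ := Lc.exists_mx u1 P
    obtain ⟨i, hi, rfl⟩ := Finset.mem_image.1 hx
    exact ⟨i, hi, x0, e⟩
  have key := lc_of kaw hA hN res hy klt bd u1 t1 (fun x hx => by
      obtain ⟨i, hi, rfl⟩ := Finset.mem_image.1 hx
      exact hU i hi) t2 hb hc.le (finite_singleton (k • -mx (Finset.univ.image t) - dv π))
    (singleton_subset_iff.2 (sub_mem (Submodule.smul_mem _ _ (neg_mem (mx_mem_Car _)))
      (dv_mem_Car _))) hE (fun β hβ => hβ ▸ pE) (by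
      obtain ⟨i, hi, i0, e⟩ := u3 E
      obtain ⟨j, hj, e'⟩ := t3 E
      rw [e, e']
      exact att i hi i0 j hj) (fun R r a => by
      obtain ⟨i, hi, i0, e⟩ := lw R r (a _ rfl)
      have := mul_le_mul_of_nonneg_left (Lc.mx_le (Finset.mem_image_of_mem u hi) i0 R) hb
      linarith) hv
  obtain ⟨i, hi, i0, e⟩ := u3 v
  have := mul_pos hc (Lc.mx_pos t1 t2 hv)
  exact ⟨i, hi, i0, by rw [← e]; linarith⟩

end Vale.Agent.P283R.Be2
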