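import Vale.Agent.P283R.Be2.Cc
import Vale.Agent.P283R.Be2.Cs
import Vale.Agent.P283R.Be2.Lc
import Vale.Agent.P283R.Be2.GlS

/-!
# P283R, block BE: from the core to the statement at a closed point
-/

open Set
open Vale.Agent.P297Z
open Vale.Agent.P285N.Brep (jac Fr)

noncomputable section

namespace Vale.Agent.P283R.Bc

open Vale.Agent.P287D Vale.Agent.P287D.Cb Tx Be2

variable {F : Type} [Field F] [Algebra ℂ F] {n N : ℕ} {S : Subalgebra ℂ F} {p : Ideal S}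

theorem lc_kl (kaw : KAW) (hA : Aff (n + 1) S) (hN : IsIntegrallyClosed S)
    (res : ∀ a : S, ∃ c : ℂ, a - algebraMap ℂ S c ∈ p) {y : Fin (n + 1) → F} (hy : Frm y) {q : ℕ}
    {h : F} (kl : KL S p y) (bd : ∀ R, PDat S p R → ld y q h R ≤ 1) {M : BD F} (nM : Nef (-M))
    (pM : ∀ R, PDat S p R → 0 ≤ M R) {T : Set (BD F)} (hT : T.Finite) (hc : T ⊆ Car F) {E : Pl F}
    (hE : Cen S p E) (pos : ∀ β ∈ T, 0 < β E) (att : ld y q h E ≤ M E)
    (low : ∀ R, Cen S p R → (∀ β ∈ T, 0 < β R) → M R ≤ ld y q h R) {v : Pl F} (hv : Cen S p v) :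
    M v ≤ ld y q h v := by
  obtain ⟨G, gP, e⟩ := Lc.exists_bd hy q h
  obtain ⟨m, g, -, -, k1, k2⟩ := kl
  obtain ⟨G₀, gP₀, e₀⟩ := Lc.exists_bd hy m g
  have e' : ∀ P, dsc (n + 1) (G + M) P = ld y q h P - 1 - M P := fun P => by
    rw [← e]; simp only [dsc, Pi.sub_apply, Pi.add_apply]; ring
  have nG : Nef (-(G + M)) := by
    rw [neg_add, add_comm]; exact nM.add_prn (neg_mem gP)
  have gE : dsc (n + 1) (G + M) E = -1 := by
    have := low E hE pos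
    rw [e']; linarith
  have := kaw n F S p hA hN res G₀ (Nef.of_prn (neg_mem gP₀))
    (fun q₀ le P c => by have := k2 q₀ le P c; rw [e₀]; linarith)
    (fun R r => by have := k1 R r; rw [e₀]; linarith) (G + M) nG
    (fun R r => by have := bd R r; have := pM R r; rw [e']; linarith) E hE gE
    (adj_lc' hA res hE (neg_mem_iff.1 nG.car) gE hT hc pos fun R c r => by
      have := low R c r
      rw [e']; linarith) v hv
  rw [e'] at this
  linarith

theorem ord_om {z : Fin N → F} (h : ∀ j, z j ≠ 0) (P : Pl F) (c : Fin N → ℕ) :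
    (P.ord (∏ j, z j ^ c j) : ℝ) = om z P c := by
  rw [P.ord_prod _ fun j _ => pow_ne_zero _ (h j)]
  simp [Pl.ord_pow, om]

/-- from the region to all places -/
theorem lco (kaw : KAW) {A : Subgroup (F ≃ₐ[ℂ] F)} {z : Fin N → F} (pt : Pt (n + 1) A S p z)
    {y : Fin (n + 1) → F} (hy : Frm y) {q m k : ℕ} {h : F} (kl : KL S p y)
    (bd : ∀ R, PDat S p R → ld y q h R ≤ 1) {t : Fin (n + 1) → F} {w g f : F}
    (t0 : ∀ l, t l ≠ 0) (tp : ∀ l, ∃ s ∈ p, (s : F) = t l) (wp : ∃ s ∈ p, (s : F) = w)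
    {C : Finset (Fin N → ℕ)} {c₀ : ℝ} (hc : 0 < c₀) (ha : OutA q m k c₀ C S p z y h t w g f)
    (hb : OutB q m k c₀ C S p z y h t w g f) {v : Pl F} (hv : Cen S p v) :
    ∃ c ∈ C, om z v c / m < ld y q h v := by
  classical
  obtain ⟨E, μ, hE, mu, b1, b2, ⟨c₁, hc₁, b3⟩, b4⟩ := hb
  let V : Finset F := insert w (Finset.univ.image t)
  let U : Finset F := C.image fun c => ∏ j, z j ^ c j
  have tV : ∀ l, t l ∈ V := fun l =>
    Finset.mem_insert_of_mem (Finset.mem_image_of_mem _ (Finset.mem_univ l))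
  have V0 : Nz V := ⟨t 0, tV 0, t0 0⟩
  have Vp : ∀ x ∈ V, ∃ s ∈ p, (s : F) = x := fun x hx => by
    rcases Finset.mem_insert.1 hx with rfl | hx
    · exact wp
    · obtain ⟨l, -, rfl⟩ := Finset.mem_image.1 hx
      exact tp l
  have m0 : ∀ c : Fin N → ℕ, ∏ j, z j ^ c j ≠ 0 := fun c =>
    Finset.prod_ne_zero_iff.2 fun j _ => pow_ne_zero _ (pt.ne j)
  have U0 : Nz U := ⟨_, Finset.mem_image_of_mem _ hc₁, m0 c₁⟩
  have U1 : ∀ P : Pl F, ∀ c ∈ C, -mx U P ≤ om z P c := fun P c a =>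
    ord_om pt.ne P c ▸ Lc.mx_le (Finset.mem_image_of_mem _ a) (m0 c) P
  have U2 : ∀ P : Pl F, ∃ c ∈ C, -mx U P = om z P c := fun P => by
    obtain ⟨x, hx, -, e⟩ := Lc.exists_mx U0 P
    obtain ⟨c, a, rfl⟩ := Finset.mem_image.1 hx
    exact ⟨c, a, e.trans (ord_om pt.ne P c)⟩
  have mE : μ ≤ -mx V E := by
    obtain ⟨x, hx, x0, e⟩ := Lc.exists_mx V0 E
    rw [e]
    rcases Finset.mem_insert.1 hx with rfl | hx
    · exact mu.2.2 x0
    · obtain ⟨l, -, rfl⟩ := Finset.mem_image.1 hx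
      exact mu.2.1 l
  have kE := mul_le_mul_of_nonneg_left mE (Nat.cast_nonneg (α := ℝ) k)
  have mi : (0 : ℝ) ≤ (m : ℝ)⁻¹ := by positivity
  have h1 : (1 : S) ∉ p := fun k => by simpa using (Hr.cen_iff hE 1).1 k
  have lo : ∀ x : F, (∃ s : S, (s : F) = x) → ∀ R, PDat S p R → x ∈ R.ring := by
    rintro x ⟨s, rfl⟩ R r
    exact Lc.pd_lo r ⟨s, 1, h1, by simp⟩
  have ap : ∀ P, ((m : ℝ)⁻¹ • -mx U + c₀ • -mx V) P = (m : ℝ)⁻¹ * -mx U P + c₀ * -mx V P :=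
    fun P => rfl
  have a1 : ∀ (x : F) P, ((k : ℝ) • -mx V - dv x) P = k * -mx V P - P.ord x := fun _ _ => rfl
  have a2 : ∀ P, ((k : ℝ) • -mx V - (m : ℝ)⁻¹ • -mx U) P = k * -mx V P - (m : ℝ)⁻¹ * -mx U P :=
    fun _ => rfl
  have cV : (k : ℝ) • -mx V ∈ Car F := Submodule.smul_mem _ _ (neg_mem (mx_mem_Car _))
  have key := lc_kl kaw pt.aff pt.nor pt.res hy kl bd (M := (m : ℝ)⁻¹ • -mx U + c₀ • -mx V)
    (T := {(k : ℝ) • -mx V - dv g, (k : ℝ) • -mx V - dv f, (k : ℝ) • -mx V - (m : ℝ)⁻¹ • -mx U})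
    (by simpa [add_comm] using ((nef_mx U).smul mi).add ((nef_mx V).smul hc.le))
    (fun R r => by
      rw [ap]
      refine add_nonneg (mul_nonneg mi (Lc.mx_nn U0 fun u hu => ?_))
        (mul_nonneg hc.le (Lc.mx_nn V0 fun u hu => lo u ((Vp u hu).imp fun _ a => a.2) R r))
      obtain ⟨c, -, rfl⟩ := Finset.mem_image.1 hu
      exact prod_mem fun j _ => pow_mem (lo _ ((pt.mem j).imp fun _ a => a.2) R r) _)
    (toFinite _) (by
      rintro β (rfl | rfl | rfl)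
      · exact sub_mem cV (dv_mem_Car _)
      · exact sub_mem cV (dv_mem_Car _)
      · exact sub_mem cV (Submodule.smul_mem _ _ (neg_mem (mx_mem_Car _)))) hE (by
      rintro β (rfl | rfl | rfl)
      · rw [a1]; linarith
      · rw [a1]; linarith
      · have := mul_le_mul_of_nonneg_left (U1 E c₁ hc₁) mi
        rw [div_eq_inv_mul] at b3
        rw [a2]; linarith) (by
      obtain ⟨c, a, e⟩ := U2 E
      have := b4 c a
      have := mul_le_mul_of_nonneg_left mE hc.le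
      rw [ap, e, ← div_eq_inv_mul]; linarith) (fun R r a => by
      have q1 := a _ (Or.inl rfl)
      have q2 := a _ (Or.inr (Or.inl rfl))
      have q3 := a _ (Or.inr (Or.inr rfl))
      rw [a1] at q1 q2
      rw [a2] at q3
      rw [ap]
      exact ha R _ _ r ⟨Lc.mx_pos V0 Vp r, fun l => Lc.mx_le (tV l) (t0 l) R,
        fun w0 => Lc.mx_le (Finset.mem_insert_self _ _) w0 R⟩ (by linarith) (by linarith)
        (by linarith) fun c a => by
          rw [div_eq_inv_mul]; exact mul_le_mul_of_nonneg_left (U1 R c a) mi) hv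
  obtain ⟨c, a, e⟩ := U2 v
  have := mul_pos hc (Lc.mx_pos V0 Vp hv)
  rw [ap, e, ← div_eq_inv_mul] at key
  exact ⟨c, a, by linarith⟩

/-- **the statement at a closed point** -/
theorem lte_of (tte : TTe) (flo : FLO) (sk : SK) (kab : KAB) (kaw : KAW) : LTE := by
  intro d N Q ε hd hQ hε
  obtain ⟨k₀, hk⟩ := sk d N hd
  obtain ⟨B, hB⟩ := kab d N Q k₀ hQ
  obtain ⟨n₀, n0, hn⟩ := tte d N Q (Q * k₀) B ε hd hQ hε
  refine ⟨n₀, n0, fun n a b c F _ _ A S p z y h hp fin hy v hv => ?_⟩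
  obtain ⟨d, rfl⟩ : ∃ e, d = e + 1 := ⟨d - 1, by omega⟩
  have lc : ∀ R, Cen S p R → 0 ≤ ld y Q h R := fun R r =>
    hε.le.trans (by simpa using hy R r 1 one_pos fun _ _ _ => one_dvd _)
  obtain ⟨t, w, Φ, s⟩ := hk F A S p z y hp.pt hp.fr hp.kl
  obtain ⟨κv, k1, k2⟩ := hB F A S p z y h t w Φ hp lc s
  obtain ⟨D, hD⟩ := hp.fr
  have lev : Lev Q κv A S p z y D h t w Φ := ⟨hp.pt, s.prj, hD, hp.fy, hp.h0, k2, hp.bd⟩
  have t0 : ∀ l, t l ≠ 0 := s.ind.ne_zero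
  obtain ⟨C, c₀, k, h0, h1, h2, h3⟩ := hn n a b c F κv A S p z y D h t w Φ lev k1
    ⟨s.wp, fun q hq e => (s.only q hq fun a a' => e a a'.symm).ge⟩ fin hy (by
      obtain ⟨R, r, e⟩ := s.pl
      obtain ⟨l, hl⟩ := Finite.exists_min fun l => R.ord (t l)
      have l0 : 0 < R.ord (t l) := by
        obtain ⟨x, hx, e'⟩ := s.prj.mem l
        rw [← e']
        exact ((Hr.cen_iff r x).1 hx).resolve_left (e' ▸ t0 l)
      have l1 : (0 : ℝ) < R.ord (t l) := by exact_mod_cast l0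
      have q1 : (1 : ℝ) ≤ Q := by exact_mod_cast hQ
      have e1 : (R.ord (ev2 t w Φ.derivative) : ℝ) ≤ k₀ * R.ord (t l) := by exact_mod_cast (e l).1
      have e2 := (e l).2
      have e3 := (flo _ N Q F κv A S p z y D h t w Φ hQ lev).2.2.2.2 R
      have e4 := lc R r
      have e5 : (0 : ℝ) ≤ k₀ * R.ord (t l) := by positivity
      refine ⟨R, R.ord (t l), r, ⟨l1, fun l' => by exact_mod_cast hl l', fun w0 => ?_⟩, ?_, ?_⟩
      · obtain ⟨x, hx, rfl⟩ := s.wp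
        obtain ⟨l', e'⟩ := s.red R r x hx w0
        exact_mod_cast (hl l').trans e'
      · push_cast
        nlinarith
      · have : (R.ord (jac D t ^ Q * h) : ℝ) / Q ≤ k₀ * R.ord (t l) := by linarith
        rw [div_le_iff₀ (by linarith)] at this
        push_cast
        linarith)
  obtain ⟨c', a', e⟩ := lco kaw hp.pt ⟨D, hD⟩ hp.kl hp.bd t0 s.prj.mem s.wp h0 h2 h3 hv
  exact ⟨c', mul_comm (h ^ (n / Q)) _ ▸ h1 c' a', e⟩

/-- any form of the hypothesis which gives (H) at `p` and a klt pair at `p` -/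
theorem ltx_of (h : LTE) {H} (hH : ∀ (d q : ℕ) (ε : ℝ) (F : Type) [Field F] [Algebra ℂ F]
    (A : Subgroup (F ≃ₐ[ℂ] F)) (S : Subalgebra ℂ F) (p : Ideal S) (y : Fin d → F) (g : F), 0 < q →
    g ≠ 0 → (∀ R, PDat S p R → ld y q g R ≤ 1) → H d q ε F A S p y g →
    Hyp ε A S p y q g ∧ KL S p y) : Bgl.LTx H := by
  intro d N q ε q0 e0
  rcases d with _ | d
  · exact ⟨1, one_pos, fun n _ _ _ F _ _ A S p z y g pt _ _ _ _ _ _ _ _ P _ =>
      (Cb.no_pl pt.aff.ff P).elim⟩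
  refine (h (d + 1) N q ε d.succ_pos q0 e0).imp fun _ k => ⟨k.1,
    fun n a b c F _ _ A S p z y g h1 h2 _ h4 h5 h6 h7 h8 h9 => ?_⟩
  obtain ⟨a1, a2⟩ := hH _ q ε F A S p y g q0 h6 h8 h9
  exact k.2 n a b c F A S p z y g ⟨h1, h4, h5, h6, h7, h8, a2⟩ h2 a1

theorem ltp_of (h : LTE) : Bgl.LTp :=
  ltx_of h fun _ q _ _ _ _ _ _ _ _ g q0 g0 b a => ⟨a.1, q, g, q0, g0, b, a.2⟩

end Vale.Agent.P283R.Bc
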