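import Vale.Agent.P283R.Be2.Pa
import Vale.Agent.P283R.Be2.Cs

/-!
# P283R, block BE: the row PAY
-/

namespace Vale.Agent.P283R.Be2

theorem payR : PAY := fun _ _ _ _ u _ P G R _ _ hF hz hP hμ hu hη =>
  paH hF u Fin.succ hz R hμ (fun j => (em (u j = 0)).imp_right (hu j)) hη P hP G

end Vale.Agent.P283R.Be2
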