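import Vale.Agent.P283R.Be2.Cr
import Vale.Agent.P283R.Be2.Pay
import Vale.Agent.P283R.Be2.Dny
import Vale.Agent.P283R.Be2.Exa
import Vale.Agent.P283R.Be2.Eul
import Vale.Agent.P283R.Be2.Apz
import Vale.Agent.P283R.Be2.Arr
import Vale.Agent.P283R.Be2.Lo
import Vale.Agent.P283R.Be2.Ltp
import Vale.Agent.P283R.Be2.RKab
import Vale.Agent.P283R.Be2.TwH

/-!
# P283R, block BE: the core modulo the twist and the projection
-/

namespace Vale.Agent.P283R.Be2

theorem tte_of (tw : Tx.TW) : TTe := crr (Tx.twh_of tw) payR dny exa eul apy flo arc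

theorem lte_of' (tw : Tx.TW) (sk : Bc.SK) : Bc.LTE :=
  Bc.lte_of (tte_of tw) flo sk Bc.kab kaw

end Vale.Agent.P283R.Be2
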