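import Vale.Agent.P283R.Tp.Hrt
import Vale.Agent.P287D.Api.All

/-!
# P283R, block BE: followers of a place centred at a closed point
-/

open Set
open Vale.Agent.P297Z

noncomputable section

namespace Vale.Agent.P283R.Be2

open Vale.Agent.P287D Vale.Agent.P287D.Cb

variable {F : Type} [Field F] [Algebra ℂ F] {n : ℕ} {S : Subalgebra ℂ F} {p : Ideal S}

namespace Fo

theorem mx_const {P : Pl F} {a : F} {c : ℂ} (h : Mx P (a - algebraMap ℂ F c)) :
    Mx P a ↔ c = 0 := by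
  refine ⟨fun k => by_contra fun c0 => not_mx_one (P := P) ?_, fun e => by simpa [e] using h⟩
  have := (k.sub h).mul (P.con c⁻¹)
  rwa [sub_sub_cancel, ← map_mul, inv_mul_cancel₀ c0, map_one] at this

theorem mem_const {P : Pl F} {a : F} {c : ℂ} (h : Mx P (a - algebraMap ℂ F c)) : a ∈ P.ring := by
  simpa using add_mem h.mem (P.con c)

/-- finitely many functions detect the places centred at a closed point -/
theorem exists_gen (hS : S.FG) (res : ∀ a : S, ∃ c : ℂ, a - algebraMap ℂ S c ∈ p) {E : Pl F}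
    (hE : Cen S p E) : ∃ u : Finset F, (∀ x ∈ u, x ≠ 0 ∧ x ∈ S ∧ 0 < E.ord x) ∧
      ∀ R : Pl F, (∀ x ∈ u, 0 < R.ord x) → Cen S p R := by
  classical
  obtain ⟨s, hs⟩ := hS
  choose c hc using res
  have sS : ∀ x ∈ s, x ∈ S := fun x hx => hs ▸ Algebra.subset_adjoin hx
  have mE : ∀ a : S, a ∈ p ↔ Mx E a := fun a => (Hr.cen_iff hE a).trans mx_iff.symm
  let g : s → F := fun x => x - algebraMap ℂ F (c ⟨x, sS x x.2⟩)
  have gE : ∀ x, Mx E (g x) := fun x => (mE _).1 (hc ⟨x, sS x x.2⟩)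
  refine ⟨(Finset.univ.image g).erase 0, fun x hx => ?_, fun R hR => ?_⟩
  · obtain ⟨x0, hx⟩ := Finset.mem_erase.1 hx
    obtain ⟨y, -, rfl⟩ := Finset.mem_image.1 hx
    exact ⟨x0, sub_mem (sS _ y.2) (S.algebraMap_mem _), (mx_iff.1 (gE y)).resolve_left x0⟩
  have gR : ∀ x, Mx R (g x) := fun x => mx_iff.2 (or_iff_not_imp_left.2 fun x0 =>
    hR _ (Finset.mem_erase.2 ⟨x0, Finset.mem_image_of_mem _ (Finset.mem_univ _)⟩))
  have key : ∀ a ∈ Algebra.adjoin ℂ (s : Set F),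
      ∃ d : ℂ, Mx R (a - algebraMap ℂ F d) ∧ Mx E (a - algebraMap ℂ F d) := by
    intro a ha
    induction ha using Algebra.adjoin_induction with
    | mem x hx => exact ⟨_, gR ⟨x, hx⟩, gE ⟨x, hx⟩⟩
    | algebraMap r => exact ⟨r, by simpa using mx_zero, by simpa using mx_zero⟩
    | add x y _ _ hx hy =>
      obtain ⟨a, a1, a2⟩ := hx
      obtain ⟨b, b1, b2⟩ := hy
      have e : x + y - algebraMap ℂ F (a + b) = x - algebraMap ℂ F a + (y - algebraMap ℂ F b) := by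
        rw [map_add]; ring
      exact ⟨a + b, e ▸ a1.add b1, e ▸ a2.add b2⟩
    | mul x y _ _ hx hy =>
      obtain ⟨a, a1, a2⟩ := hx
      obtain ⟨b, b1, b2⟩ := hy
      have e : x * y - algebraMap ℂ F (a * b) =
          x * (y - algebraMap ℂ F b) + algebraMap ℂ F b * (x - algebraMap ℂ F a) := by
        rw [map_mul]; ring
      exact ⟨a * b, e ▸ (b1.mul (mem_const a1)).add (a1.mul (R.con b)),
        e ▸ (b2.mul (mem_const a2)).add (a2.mul (E.con b))⟩
  intro a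
  obtain ⟨d, d1, d2⟩ := key a (hs.symm ▸ a.2)
  exact ⟨mem_const d1, by rw [mE, rd_eq_zero (mem_const d1), mx_const d1, mx_const d2]⟩

end Fo

/-- **followers**: every place of the residue field of `E` is followed, far out, by a place
centred at the closed point `p` -/
theorem fol (hA : Aff (n + 1) S) (res : ∀ a : S, ∃ c : ℂ, a - algebraMap ℂ S c ∈ p) {E : Pl F}
    (hE : Cen S p E) (Q : Pl E.κ) {T : Set (BD F)} (hT : T.Finite) (hc : T ⊆ Car F) (a : ℤ) :
    ∃ R, Cen S p R ∧ Fol E Q T R ∧ a ≤ R.ord E.t ∧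
      ∀ Γ ∈ T, dsc n (adj n E Γ) Q + (dsc (n + 1) Γ E + 1) * R.ord E.t = dsc (n + 1) Γ R := by
  classical
  obtain ⟨u, hu, cen⟩ := Fo.exists_gen hA.fg res hE
  obtain ⟨b, hb⟩ := (insert a (insert 0
    (u.image fun x => 1 - ⌊P287D.res E (dv x) Q⌋))).exists_le
  obtain ⟨R, ⟨ne, fo⟩, bR, -, -, ds⟩ := a2 n F hA.ff E Q (T ∪ dv '' u) 0 b
    (hT.union (u.finite_toSet.image _))
    (union_subset hc (forall_mem_image.2 fun s _ => dv_mem_Car _)) (zero_mem _)
  refine ⟨R, cen R fun x hx => ?_, ⟨ne, fun β h => fo β (.inl h)⟩,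
    (hb a (Finset.mem_insert_self _ _)).trans bR, fun Γ h => ds Γ (.inl h)⟩
  have k1 := fo _ (.inr ⟨x, hx, rfl⟩)
  simp only [dv] at k1
  have a0 := hb 0 (Finset.mem_insert_of_mem (Finset.mem_insert_self _ _))
  have a1 := hb _ (Finset.mem_insert_of_mem (Finset.mem_insert_of_mem
    (Finset.mem_image_of_mem _ hx)))
  have a2 : R.ord E.t ≤ E.ord x * R.ord E.t := le_mul_of_one_le_left (a0.trans bR) (hu x hx).2.2
  have a3 := Int.cast_le (R := ℝ).2 (a1.trans (bR.trans a2))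
  have a4 := Int.floor_le (P287D.res E (dv x) Q)
  push_cast at a3
  refine Int.cast_pos (R := ℝ).1 ?_
  change _ = P287D.res E (dv x) Q + _ at k1
  linarith

/-- followers with the ratios of `E` up to `δ` -/
theorem fol_near (hA : Aff (n + 1) S) (res : ∀ a : S, ∃ c : ℂ, a - algebraMap ℂ S c ∈ p)
    {E : Pl F} (hE : Cen S p E) (Q : Pl E.κ) {T : Set (BD F)} (hT : T.Finite) (hc : T ⊆ Car F)
    (a : ℤ) {δ : ℝ} (hδ : 0 < δ) :
    ∃ R, Cen S p R ∧ Fol E Q T R ∧ a ≤ R.ord E.t ∧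
      (∀ β ∈ T, |β R - β E * R.ord E.t| ≤ δ * R.ord E.t) ∧
      ∀ Γ ∈ T, dsc n (adj n E Γ) Q + (dsc (n + 1) Γ E + 1) * R.ord E.t = dsc (n + 1) Γ R := by
  classical
  obtain ⟨b, hb⟩ := (insert a (hT.toFinset.image
    fun β => ⌈|P287D.res E β Q| / δ⌉)).exists_le
  obtain ⟨R, c, fo, bR, ds⟩ := fol hA res hE Q hT hc b
  refine ⟨R, c, fo, (hb a (Finset.mem_insert_self _ _)).trans bR, fun β h => ?_, ds⟩
  have a1 := Int.ceil_le.1 ((hb _ (Finset.mem_insert_of_mem
    (Finset.mem_image_of_mem _ (hT.mem_toFinset.2 h)))).trans bR)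
  rw [fo.2 β h, add_sub_cancel_right, mul_comm]
  exact (div_le_iff₀ hδ).1 a1

/-- the adjoint of `G` to a place of log discrepancy `0` is sub-lc as soon as `G` is sub-lc at the
places centred at `p` whose ratios are near those of `E` -/
theorem adj_lc (hA : Aff (n + 1) S) (res : ∀ a : S, ∃ c : ℂ, a - algebraMap ℂ S c ∈ p)
    {E : Pl F} (hE : Cen S p E) {G : BD F} (hG : G ∈ Car F) (gE : dsc (n + 1) G E = -1)
    {T : Set (BD F)} (hT : T.Finite) (hc : T ⊆ Car F) (a : ℤ) {δ : ℝ} (hδ : 0 < δ)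
    (h : ∀ R, Cen S p R → a ≤ R.ord E.t →
      (∀ β ∈ T, |β R - β E * R.ord E.t| ≤ δ * R.ord E.t) → -1 ≤ dsc (n + 1) G R)
    (Q : Pl E.κ) : -1 ≤ dsc n (adj n E G) Q := by
  obtain ⟨R, c, -, aR, nr, ds⟩ :=
    fol_near hA res hE Q (hT.insert G) (insert_subset hG hc) a hδ
  have := ds G (mem_insert _ _)
  rw [gE] at this
  have k := h R c aR fun β hβ => nr β (mem_insert_of_mem _ hβ)
  simpa [← this] using k

/-- region form: finitely many strict linear inequalities at `E` hold at its far followers -/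
theorem adj_lc' (hA : Aff (n + 1) S) (res : ∀ a : S, ∃ c : ℂ, a - algebraMap ℂ S c ∈ p)
    {E : Pl F} (hE : Cen S p E) {G : BD F} (hG : G ∈ Car F) (gE : dsc (n + 1) G E = -1)
    {T : Set (BD F)} (hT : T.Finite) (hc : T ⊆ Car F) (pos : ∀ β ∈ T, 0 < β E)
    (h : ∀ R, Cen S p R → (∀ β ∈ T, 0 < β R) → -1 ≤ dsc (n + 1) G R)
    (Q : Pl E.κ) : -1 ≤ dsc n (adj n E G) Q := by
  classical
  obtain ⟨b, hb⟩ := (hT.toFinset.image fun β => ⌊-P287D.res E β Q / β E⌋ + 1).exists_le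
  obtain ⟨R, c, fo, bR, ds⟩ := fol hA res hE Q (hT.insert G) (insert_subset hG hc) b
  have := ds G (mem_insert _ _)
  rw [gE] at this
  have k := h R c fun β hβ => by
    have a1 := Int.cast_le (R := ℝ).2 ((hb _
      (Finset.mem_image_of_mem _ (hT.mem_toFinset.2 hβ))).trans bR)
    have a2 := Int.lt_floor_add_one (-P287D.res E β Q / β E)
    push_cast at a1
    have a3 := (div_lt_iff₀ (pos β hβ)).1 (a2.trans_le a1)
    rw [fo.2 β (mem_insert_of_mem _ hβ)]
    linarith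
  simpa [← this] using k

end Vale.Agent.P283R.Be2
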