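import Vale.Agent.P283R.Bx.St
import Vale.Agent.P283R.Tp.Eig

/-!
# P283R, bounded embedding dimension: generators which diagonalise a subgroup of bounded index
-/

open Set IsLocalRing TensorProduct Module

noncomputable section

namespace Vale.Agent.P283R.Bgl

open Vale.Agent.P287D Eg Bx

/-- a derivation which kills the generators of a closed point vanishes near the point -/
theorem der_zero {T W ι : Type} [CommRing T] [Algebra ℂ T] [Algebra.FiniteType ℂ T]
    [AddCommGroup W] [Module T W] [Module ℂ W] [IsScalarTower ℂ T W] (q : Ideal T)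
    (res : ∀ a, ∃ c : ℂ, a - algebraMap ℂ T c ∈ q) (z : ι → T) (hz : ∀ j, z j ∈ q)
    (gen : q ≤ q * q ⊔ Ideal.span (range z)) (D : Derivation ℂ T W) (h0 : ∀ j, D (z j) = 0) :
    ∃ s, s - 1 ∈ q ∧ ∀ a, s • D a = 0 := by
  let M : Submodule T W := LinearMap.range D.liftKaehlerDifferential
  have m : ∀ a, D a ∈ M := fun a => ⟨_, D.liftKaehlerDifferential_comp_D a⟩
  have k : ∀ a ∈ q, D a ∈ q • M := fun a ha => by
    obtain ⟨b, hb, c, hc, rfl⟩ := Submodule.mem_sup.1 (gen ha)
    rw [map_add]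
    refine add_mem (Submodule.mul_induction_on (C := fun b => D b ∈ q • M) hb
      (fun u hu v hv => D.leibniz u v ▸
        add_mem (Submodule.smul_mem_smul hu (m _)) (Submodule.smul_mem_smul hv (m _)))
      fun u v a b => map_add D u v ▸ add_mem a b) ?_
    · have : c ∈ q ∧ D c ∈ q • M := by
        refine Submodule.span_induction ?_ (by simp) (fun u v _ _ a b => ?_) (fun u v _ a => ?_) hc
        · rintro _ ⟨j, rfl⟩
          exact ⟨hz j, h0 j ▸ zero_mem _⟩
        · exact ⟨add_mem a.1 b.1, map_add D u v ▸ add_mem a.2 b.2⟩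
        · refine ⟨q.mul_mem_left _ a.1, ?_⟩
          rw [smul_eq_mul, D.leibniz]
          exact add_mem (Submodule.smul_mem _ _ a.2) (Submodule.smul_mem_smul a.1 (m _))
      exact this.2
  have le : M ≤ q • M := by
    rintro _ ⟨w, rfl⟩
    have hw : w ∈ Submodule.span T (range (KaehlerDifferential.D ℂ T)) :=
      KaehlerDifferential.span_range_derivation ℂ T ▸ Submodule.mem_top
    refine Submodule.span_induction ?_ (by simp) (fun u v _ _ a b => ?_) (fun u v _ a => ?_) hw
    · rintro _ ⟨a, rfl⟩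
      obtain ⟨c, hc⟩ := res a
      have := k _ hc
      rwa [map_sub, D.map_algebraMap, sub_zero, ← D.liftKaehlerDifferential_comp_D] at this
    · rw [map_add]
      exact add_mem a b
    · rw [map_smul]
      exact Submodule.smul_mem _ _ a
  obtain ⟨s, hs, h⟩ := Submodule.exists_sub_one_mem_and_smul_eq_zero_of_fg_of_le_smul q M
    (Submodule.fg_range _) le
  exact ⟨s, hs, fun a => h _ (m a)⟩

/-- independent cotangent vectors: at most as many as functions which determine a derivation -/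
theorem cnt {O : Type} [CommRing O] [IsLocalRing O] [Algebra ℂ O] [Algebra.EssFiniteType ℂ O]
    {e E : ℕ} (x : Fin e → O) (hx : ∀ j, x j ∈ maximalIdeal O)
    (hi : ∀ c : Fin e → O, ∑ j, c j * x j ∈ maximalIdeal O ^ 2 → ∀ j, c j ∈ maximalIdeal O)
    (w : Fin E → O) (hw : ∀ D : Derivation ℂ O (ResidueField O), (∀ j, D (w j) = 0) →
      ∀ a, D a = 0) : e ≤ E := by
  classical
  have hs : Function.Surjective (algebraMap O (ResidueField O)) := residue_surjective
  have : Algebra.EssFiniteType ℂ (ResidueField O) :=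
    .of_surjective (IsScalarTower.toAlgHom ℂ O (ResidueField O)) hs
  have hsm : Algebra.FormallySmooth ℂ (ResidueField O) := inferInstance
  obtain ⟨L, hL⟩ := (retractionKerCotangentToTensorEquivSection (R := ℂ) hs).symm
    ⟨_, Algebra.FormallySmooth.comp_liftOfSurjective (AlgHom.id ℂ _)
      (IsScalarTower.toAlgHom ℂ O (ResidueField O)).kerSquareLift
      (Function.Surjective.of_comp (g := Ideal.Quotient.mk _) hs)
      ⟨2, (congrArg (· ^ 2) (AlgHom.ker_kerSquareLift _)).trans (Ideal.cotangentIdeal_square _)⟩⟩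
  have hinj : Function.Injective (KaehlerDifferential.kerCotangentToTensor ℂ O (ResidueField O)) :=
    Function.LeftInverse.injective (g := L) fun u => LinearMap.congr_fun hL u
  have hk : RingHom.ker (algebraMap O (ResidueField O)) = maximalIdeal O := ker_residue
  let v : Fin e → ResidueField O ⊗[O] Ω[O⁄ℂ] := fun i => 1 ⊗ₜ KaehlerDifferential.D ℂ O (x i)
  have hv : LinearIndependent (ResidueField O) v := by
    rw [Fintype.linearIndependent_iff]
    intro g hg
    choose c hc using fun j => hs (g j)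
    have h5 : ∑ j, c j * x j ∈ RingHom.ker (algebraMap O (ResidueField O)) :=
      hk ▸ Ideal.sum_mem _ fun j _ => Ideal.mul_mem_left _ _ (hx j)
    have h6 : KaehlerDifferential.kerCotangentToTensor ℂ O (ResidueField O)
        (Ideal.toCotangent _ ⟨_, h5⟩) = 0 := by
      rw [KaehlerDifferential.kerCotangentToTensor_toCotangent, ← hg, map_sum, tmul_sum]
      refine Finset.sum_congr rfl fun j _ => ?_
      have h7 : x j • (1 : ResidueField O) = 0 := by
        rw [Algebra.smul_def, mul_one]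
        exact (residue_eq_zero_iff _).2 (hx j)
      rw [Derivation.leibniz, tmul_add, ← smul_tmul, ← smul_tmul, h7, zero_tmul, add_zero, ← hc,
        algebraMap_smul]
      rfl
    have h8 : ∑ j, c j * x j ∈ RingHom.ker (algebraMap O (ResidueField O)) ^ 2 :=
      (Ideal.toCotangent_eq_zero _ _).1 (hinj (h6.trans (map_zero _).symm))
    rw [hk] at h8
    intro j
    rw [← hc]
    exact (residue_eq_zero_iff _).2 (hi c h8 j)
  let Φ : Module.Dual (ResidueField O) (ResidueField O ⊗[O] Ω[O⁄ℂ]) →ₗ[ResidueField O]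
      (Fin E → ResidueField O) := LinearMap.pi fun j =>
    Module.Dual.eval _ _ (1 ⊗ₜ KaehlerDifferential.D ℂ O (w j))
  have hΦ : Function.Injective Φ := by
    rw [injective_iff_map_eq_zero]
    intro l hl
    let l' : Ω[O⁄ℂ] →ₗ[O] ResidueField O :=
      l.restrictScalars O ∘ₗ TensorProduct.mk O (ResidueField O) _ 1
    have h1 := hw (l'.compDer (KaehlerDifferential.D ℂ O)) fun j => congrFun hl j
    have h2 : l' = 0 := LinearMap.ext_on (KaehlerDifferential.span_range_derivation ℂ O) (by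
      rintro _ ⟨a, rfl⟩
      exact h1 a)
    refine LinearMap.ext fun u => ?_
    induction u with
    | zero => simp
    | tmul a b =>
      have : a ⊗ₜ[O] b = a • ((1 : ResidueField O) ⊗ₜ[O] b) := by rw [smul_tmul', smul_eq_mul, mul_one]
      rw [this, map_smul, show l (1 ⊗ₜ[O] b) = 0 from LinearMap.congr_fun h2 b]
      simp
    | add a b u v => rw [map_add, u, v, map_add]
  have h9 := hv.fintype_card_le_finrank
  have h10 := LinearMap.finrank_le_finrank_of_injective hΦ
  rw [Subspace.dual_finrank_eq] at h10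
  simpa using h9.trans h10

variable {F : Type} [Field F] [Algebra ℂ F] {N E : ℕ} {S : Subalgebra ℂ F}

/-- `x` generate the maximal ideal of the local ring at `p`, the residues of `t` are a
transcendence basis of the residue field -/
structure Pae (N : ℕ) {k r : ℕ} (S : Subalgebra ℂ F) (p : Ideal S) (x : Fin k → F)
    (t : Fin r → S) : Prop where
  aff : Aff N S
  pri : p.IsPrime
  mem : ∀ j, ∃ s ∈ p, (s : F) = x j
  gen : ∀ a ∈ p, ∃ c : Fin k → F, (∀ j, c j ∈ Lo S p) ∧ (a : F) = ∑ j, c j * x j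
  ind : ∀ q : MvPolynomial (Fin r) ℂ, MvPolynomial.aeval t q ∈ p → q = 0
  alg : ∀ a : S, ∃ q : Polynomial (MvPolynomial (Fin r) ℂ), q ≠ 0 ∧
    q.eval₂ (MvPolynomial.aeval t : MvPolynomial (Fin r) ℂ →ₐ[ℂ] S).toRingHom a ∈ p

theorem emd_sup {q : Ideal S} (hq : q.IsMaximal) (h : Emd E S q) :
    ∃ z : Fin E → S, (∀ j, z j ∈ q) ∧ q ≤ q * q ⊔ Ideal.span (range z) := by
  obtain ⟨z, hz, hg⟩ := h
  refine ⟨z, hz, fun a ha => ?_⟩
  obtain ⟨c, hc, e⟩ := hg a ha
  choose s u hu e' using hc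
  have u0 : ∀ j, (u j : F) ≠ 0 := fun j k => hu j ((Subtype.ext k : u j = 0) ▸ q.zero_mem)
  have h1 : (∏ j, u j) * a ∈ Ideal.span (range z) := by
    have : (∏ j, u j) * a = ∑ j, (s j * ∏ i ∈ Finset.univ.erase j, u i) * z j := Subtype.ext (by
      push_cast
      rw [e, Finset.mul_sum]
      refine Finset.sum_congr rfl fun j _ => ?_
      rw [e', ← Finset.mul_prod_erase _ _ (Finset.mem_univ j)]
      field_simp [u0 j])
    rw [this]
    exact Ideal.sum_mem _ fun j _ => Ideal.mul_mem_left _ _ (Ideal.subset_span ⟨j, rfl⟩)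
  obtain ⟨v, w, hw, e⟩ := hq.exists_inv (x := ∏ j, u j) fun k => by
    obtain ⟨j, -, hj⟩ := (Ideal.IsPrime.prod_mem_iff (hp := hq.isPrime)).1 k
    exact hu j hj
  have e' : a = w * a + v * ((∏ j, u j) * a) := by rw [← mul_assoc, ← add_mul, add_comm, e, one_mul]
  rw [e']
  exact Submodule.add_mem_sup (Ideal.mul_mem_mul hw ha) (Ideal.mul_mem_left _ _ h1)

/-- generators of the maximal ideal of the local ring, taken from a generating set -/
theorem gens [IsFractionRing S F] (hS : Aff N S) {p q : Ideal S} [p.IsPrime] (hq : q.IsMaximal)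
    (le : p ≤ q) (h : Emd E S q) (T : Set S) (hT : Ideal.span T = p) (h0 : (0 : S) ∈ T) :
    ∃ x : Fin E → S, (∀ j, x j ∈ T) ∧ ∀ a ∈ p, ∃ u ∉ p, u * a ∈ Ideal.span (range x) := by
  classical
  have := ft hS
  have := ess hS p
  have := Algebra.FiniteType.isNoetherianRing ℂ S
  have : IsNoetherianRing (Lr p) := IsLocalization.isNoetherianRing p.primeCompl _ this
  have hE' : Ideal.span (algebraMap S (Lr p) '' T) = maximalIdeal (Lr p) := by
    rw [← Ideal.map_span, hT]
    exact IsLocalization.AtPrime.map_eq_maximalIdeal p (Lr p)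
  obtain ⟨e, x, h1, h2, h3⟩ := Gr.pick_basis _ hE'
  obtain ⟨z, hz, hg⟩ := emd_sup hq h
  have hek : e ≤ E := cnt x (fun j => h2 ▸ Ideal.subset_span ⟨j, rfl⟩) h3
    (fun j => algebraMap S (Lr p) (z j)) fun D hD b => by
      obtain ⟨s, hs, k⟩ := der_zero q (res_max hS q) z hz hg (D.compAlgebraMap S) hD
      have s0 : rs p s ≠ 0 := fun e => hq.ne_top ((Ideal.eq_top_iff_one q).2 (by
        simpa using sub_mem (le ((rs_zero p s).1 e)) hs))
      have k' : ∀ a, D (algebraMap S (Lr p) a) = 0 := fun a => by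
        have := k a
        rw [Algebra.smul_def] at this
        exact (mul_eq_zero.1 this).resolve_left s0
      obtain ⟨a, u, rfl⟩ := IsLocalization.exists_mk'_eq p.primeCompl b
      have := congrArg D (IsLocalization.mk'_spec (Lr p) a u)
      rw [D.leibniz, k', k', smul_zero, zero_add, Algebra.smul_def] at this
      exact (mul_eq_zero.1 this).resolve_left fun e => u.2 ((rs_zero p _).1 e)
  choose y hy1 hy2 using h1
  let ι := Fin.castLEEmb hek
  refine ⟨Function.extend ι y 0, fun i => ?_, fun a ha => ?_⟩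
  · by_cases hi : ∃ x, ι x = i
    · obtain ⟨x, rfl⟩ := hi
      rw [ι.injective.extend_apply]
      exact hy1 x
    · rw [Function.extend_apply' _ _ _ hi]
      exact h0
  · have h5 : algebraMap S (Lr p) a ∈ (Ideal.span (range y)).map (algebraMap S (Lr p)) := by
      rw [Ideal.map_span, ← range_comp, show algebraMap S (Lr p) ∘ y = x from funext hy2, h2]
      exact (IsLocalization.AtPrime.to_map_mem_maximal_iff (Lr p) p a).2 ha
    obtain ⟨u, hu, h6⟩ := (IsLocalization.algebraMap_mem_map_algebraMap_iff p.primeCompl _ _ _).1 h5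
    refine ⟨u, hu, Ideal.span_mono ?_ h6⟩
    rintro _ ⟨j, rfl⟩
    exact ⟨ι j, ι.injective.extend_apply _ _ _⟩

/-- a commutative subgroup of bounded index of the inertia group -/
theorem comm (E : ℕ) : ∃ J : ℕ, ∀ (N : ℕ) (F : Type) [Field F] [Algebra ℂ F] (S : Subalgebra ℂ F)
    (G : Subgroup (F ≃ₐ[ℂ] F)) (p q : Ideal S) (h : Stab G S), Aff N S → Finite G → q.IsMaximal →
      p ≤ q → Emd E S q → ∃ A : Subgroup (ine h p), A.index ≤ J ∧ ∀ a b : A, a * b = b * a := by
  obtain ⟨J, -, key⟩ := Gr.eig_ideal E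
  refine ⟨J, fun N F _ _ S G p q h hS _ hq hpq he => ?_⟩
  have := frac hS
  have := ft hS
  have := Algebra.FiniteType.isNoetherianRing ℂ S
  obtain ⟨y, hy, hy'⟩ := emd_sup hq he
  have hres := res_max hS q
  let α := (resG h).comp (ine h p).subtype
  have hm : ∀ g, ∀ a ∈ q, α g a ∈ q := fun g a ha => by
    have h1 : α g a - a ∈ q := hpq (g.2 a)
    simpa using add_mem h1 ha
  obtain ⟨A, z, χ, h1, h2, h3, h4⟩ := key (ine h p) S α q q y hres hm hm hy hy'
  refine ⟨A, h1, fun a b => ?_⟩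
  have h8 : ∀ s, α (a * b * (b * a)⁻¹ : A) s = s := by
    intro s
    have h5 := fun k => (Gr.fix_mod (α (a * b * (b * a)⁻¹ : A) : S →ₐ[ℂ] S) q ⊥ hres z h2
      (by rwa [sup_bot_eq]) (hm _) (fun a ha => by rw [Ideal.mem_bot.1 ha, map_zero]; rfl)
      (fun i => by
        have h9 : χ i (a * b * (b * a)⁻¹) = 1 := by
          rw [map_mul, map_mul, mul_comm (χ i a), ← map_mul, ← map_mul, mul_inv_cancel, map_one]
        have h10 := h4 i (a * b * (b * a)⁻¹)
        rw [h9, one_smul] at h10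
        exact Ideal.mem_bot.2 (sub_eq_zero.2 h10)) k).1 s
    rw [← sub_eq_zero, ← Ideal.mem_bot, ← Ideal.iInf_pow_eq_bot_of_isDomain q hq.ne_top,
      Ideal.mem_iInf]
    intro k
    have h6 := h5 k
    rw [bot_sup_eq] at h6
    exact Ideal.pow_le_pow_right k.le_succ h6
  refine mul_inv_eq_one.1 (Subtype.ext (Subtype.ext (Subtype.ext (AlgEquiv.ext fun c => ?_))))
  obtain ⟨s, u, rfl⟩ := hS.fr c
  rw [map_div₀]
  exact congrArg₂ (· / ·) (congrArg Subtype.val (h8 s)) (congrArg Subtype.val (h8 u))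

/-- **eigen-generators** -/
theorem eige (E : ℕ) : ∃ J : ℕ, ∀ (N : ℕ) (F : Type) [Field F] [Algebra ℂ F] (S : Subalgebra ℂ F)
    (G : Subgroup (F ≃ₐ[ℂ] F)) (p q : Ideal S), Aff N S → Finite G → Stab G S → p.IsPrime →
    q.IsMaximal → p ≤ q → Emd E S q →
    ∃ (A : Subgroup (F ≃ₐ[ℂ] F)) (r : ℕ) (x : Fin E → F) (t : Fin r → S),
      Idx J G A S p ∧ (∀ σ ∈ A, ∀ τ ∈ A, σ * τ = τ * σ) ∧ Pae N S p x t ∧ (∀ j, Eig A (x j)) ∧
      ∀ i, Fix G (t i) := by
  classical
  obtain ⟨J, key⟩ := comm E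
  refine ⟨J, fun N F _ _ S G p q hS hG h hp hq le he => ?_⟩
  have := frac hS
  obtain ⟨A, hA, hc⟩ := key N F S G p q h hS hG hq le he
  let ι : ine h p →* (F ≃ₐ[ℂ] F) := G.subtype.comp (ine h p).subtype
  let α := (resG h).comp ((ine h p).subtype.comp A.subtype)
  let T : Set S := {v | v ∈ p.restrictScalars ℂ ∧ ∃ χ : A →* ℂ, ∀ g, Gr.rep α g v = χ g • v}
  have hE : Ideal.span T = p := by
    refine le_antisymm (Ideal.span_le.2 fun v hv => hv.1) fun a ha => ?_
    refine Submodule.span_le_restrictScalars ℂ S T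
      (Gr.le_span_eig hc (Gr.rep α) (p.restrictScalars ℂ) (fun g u hu => ?_) ha)
    have h1 : α g u - u ∈ p := g.1.2 u
    have h2 : α g u ∈ p := by simpa using add_mem h1 hu
    exact h2
  obtain ⟨r, t, ht1, ht⟩ := exists_tb hS h p
  obtain ⟨x, hx, hg⟩ := gens hS hq le he T hE ⟨p.zero_mem, 1, fun g => by simp⟩
  refine ⟨A.map ι, r, fun j => x j, t, ⟨?_, ?_, ?_⟩, ?_, ⟨hS, hp, fun j => ⟨_, (hx j).1, rfl⟩,
    fun a ha => ?_, fun q hq => ?_, fun a => ?_⟩, fun j => ?_, ht1⟩
  · rintro _ ⟨σ, -, rfl⟩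
    exact σ.1.2
  · rintro _ ⟨σ, -, rfl⟩
    exact (inr_iff h p σ.1).2 σ.2
  · have := Fintype.ofFinite (ine h p ⧸ A)
    refine ⟨Finset.univ.image fun c : ine h p ⧸ A => ι c.out, Finset.card_image_le.trans ?_,
      fun σ hσ hi => ?_⟩
    · rwa [Finset.card_univ, ← Nat.card_eq_fintype_card]
    · let s : ine h p := ⟨⟨σ, hσ⟩, (inr_iff h p ⟨σ, hσ⟩).1 hi⟩
      refine ⟨_, Finset.mem_image_of_mem _ (Finset.mem_univ (s : ine h p ⧸ A)),
        _, QuotientGroup.eq.1 (QuotientGroup.out_eq' (s : ine h p ⧸ A)), ?_⟩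
      rw [map_mul, map_inv]
      rfl
  · rintro _ ⟨σ, hσ, rfl⟩ _ ⟨τ, hτ, rfl⟩
    rw [← map_mul, ← map_mul]
    exact congrArg (fun a : A => ι a) (hc ⟨σ, hσ⟩ ⟨τ, hτ⟩)
  · obtain ⟨u, hu, h1⟩ := hg a ha
    obtain ⟨c, e⟩ := Ideal.mem_span_range_iff_exists_fun.1 h1
    have hu0 : (u : F) ≠ 0 := fun k => hu ((Subtype.ext k : u = 0) ▸ p.zero_mem)
    refine ⟨fun j => c j / u, fun j => ⟨_, _, hu, rfl⟩, ?_⟩
    have e2 : ∑ j, (c j : F) * x j = u * a := by exact_mod_cast congrArg Subtype.val e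
    simp only [div_mul_eq_mul_div, ← Finset.sum_div, e2]
    field_simp
  · refine algebraicIndependent_iff.1 ht.1 q ?_
    rw [← MvPolynomial.comp_aeval, AlgHom.comp_apply]
    exact (rs_zero p _).2 hq
  · obtain ⟨Q, q1, q2⟩ := ht.isAlgebraic.isAlgebraic (rs p a)
    let e := ht.1.aevalEquiv
    refine ⟨Q.map (e.symm : _ →+* _), (Polynomial.map_ne_zero_iff e.symm.injective).2 q1, ?_⟩
    rw [← rs_zero, ← q2, Polynomial.aeval_def, Polynomial.eval₂_map]
    refine (Polynomial.hom_eval₂ Q _ (rs p).toRingHom a).trans ?_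
    congr 1
    refine RingHom.ext fun b => ?_
    obtain ⟨c, rfl⟩ := e.surjective b
    have e5 := ht.1.algebraMap_aevalEquiv c
    rw [← MvPolynomial.comp_aeval, AlgHom.comp_apply] at e5
    have e6 : (e.symm : _ →+* _) (e c) = c := e.symm_apply_apply c
    rw [RingHom.comp_apply, RingHom.comp_apply, e6]
    exact e5.symm
  · rintro _ ⟨σ, hσ, rfl⟩
    obtain ⟨χ, hχ⟩ := (hx j).2
    exact ⟨χ ⟨σ, hσ⟩, congrArg Subtype.val (hχ ⟨σ, hσ⟩)⟩

end Vale.Agent.P283R.Bgl
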