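import Vale.Agent.P283R.Gf.Up
import Vale.Agent.P287D.Gf.St
import Mathlib.RingTheory.Discriminant
import Mathlib.RingTheory.Localization.Integral

/-!
# P283R, block BE: the geometric generic fibre of a normal variety is normal
-/

set_option linter.all false

open Set Polynomial
open Vale.Agent.P287D Vale.Agent.P287D.Gf

noncomputable section

namespace Vale.Agent.P283R.Bn

section abs

variable {L K C K' : Type} [Field L] [Field K] [Field C] [Field K'] [Algebra L K] [Algebra L C]
  [Algebra K K'] [Algebra C K'] [Algebra L K'] [IsScalarTower L K K'] [IsScalarTower L C K']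
  [Algebra.IsAlgebraic L C] [CharZero L]

/-- an algebraic extension of the constants keeps normality -/
theorem nor_abs (h : BE L K C K') (R : Subalgebra L K) [IsIntegrallyClosed R] [IsFractionRing R K]
    {z : K'} (hz : IsIntegral (Algebra.adjoin C (algebraMap K K' '' R)) z) :
    z ∈ Algebra.adjoin C (algebraMap K K' '' R) := by
  classical
  set R' := Algebra.adjoin C (algebraMap K K' '' R)
  have : CharZero K := charZero_of_injective_algebraMap (algebraMap L K).injective
  have iC : ∀ c : C, IsIntegral L (algebraMap C K' c) := fun c =>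
    (Algebra.IsIntegral.isIntegral (R := L) c).algebraMap
  have mR : ∀ a : R, algebraMap R K' a ∈ R' := fun a => Algebra.subset_adjoin ⟨a, a.2, rfl⟩
  have iR : ∀ a ∈ R', IsIntegral R a := fun a ha => by
    induction ha using Algebra.adjoin_induction with
    | mem a ha =>
      obtain ⟨b, hb, rfl⟩ := ha
      exact isIntegral_algebraMap (R := R) (A := K') (x := ⟨b, hb⟩)
    | algebraMap c => exact (iC c).tower_top
    | add a b _ _ ha hb => exact ha.add hb
    | mul a b _ _ ha hb => exact ha.mul hb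
  have hz' : IsIntegral R z := by
    let _ : Algebra R R' := ((algebraMap R K').codRestrict R' mR).toAlgebra
    have : IsScalarTower R R' K' := IsScalarTower.of_algebraMap_eq fun _ => rfl
    have : Algebra.IsIntegral R R' := ⟨fun a =>
      (isIntegral_algHom_iff (IsScalarTower.toAlgHom R R' K') Subtype.val_injective).1 (iR a a.2)⟩
    exact isIntegral_trans z hz
  obtain ⟨n, c, f, e⟩ := Submodule.mem_span_set'.1 (h.span z)
  obtain ⟨α, hα, hc⟩ := prim (L := L) (Finset.univ.image c) fun c _ =>
    Algebra.IsIntegral.isIntegral c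
  set a := algebraMap C K' α
  have ha : IsIntegral K a := (iC α).tower_top
  let E := IntermediateField.adjoin K {a}
  have aE : a ∈ E := IntermediateField.mem_adjoin_simple_self K a
  have zE : z ∈ E := by
    rw [← e]
    refine sum_mem fun i _ => ?_
    obtain ⟨g, -, hg⟩ := hc (c i) (Finset.mem_image_of_mem c (Finset.mem_univ i))
    obtain ⟨u, hu⟩ := (f i).2
    rw [Algebra.smul_def, ← hu, ← hg, ← aeval_algebraMap_apply, ← aeval_map_algebraMap K]
    exact mul_mem (IntermediateField.algebra_adjoin_le_adjoin K _ (aeval_mem_adjoin_singleton K a))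
      (E.algebraMap_mem u)
  let B := IntermediateField.adjoin.powerBasis ha
  have : FiniteDimensional K E := IntermediateField.adjoin.finiteDimensional ha
  have gL : IsIntegral L B.gen :=
    (isIntegral_algHom_iff (E.val.restrictScalars L) Subtype.val_injective).1 (iC α)
  have k := Algebra.discr_mul_isIntegral_mem_adjoin K (R := R) (B := B) gL.tower_top
    (z := ⟨z, zE⟩)
    ((isIntegral_algHom_iff (IsScalarTower.toAlgHom R E K') Subtype.val_injective).1 hz')
  have d0 := Algebra.discr_not_zero_of_basis K B.basis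
  have dL : IsIntegral L (Algebra.discr K B.basis) := Algebra.discr_isIntegral K fun i => by
    rw [B.basis_eq_pow]
    exact gL.pow _
  obtain ⟨w, hw⟩ := IsIntegrallyClosed.isIntegral_iff.1 (dL.inv.tower_top (A := R))
  have le : ∀ b ∈ Algebra.adjoin R ({B.gen} : Set E), (b : K') ∈ R' := fun b hb => by
    induction hb using Algebra.adjoin_induction with
    | mem b hb => exact hb ▸ R'.algebraMap_mem α
    | algebraMap r => exact mR r
    | add a b _ _ ha hb => exact add_mem ha hb
    | mul a b _ _ ha hb => exact mul_mem ha hb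
  have e2 : z = algebraMap R K' w * algebraMap K K' (Algebra.discr K B.basis) * z := by
    rw [IsScalarTower.algebraMap_apply R K K', hw, ← map_mul, inv_mul_cancel₀ d0, map_one, one_mul]
  rw [e2, mul_assoc, ← Algebra.smul_def (Algebra.discr K B.basis)]
  exact mul_mem (mR w) (le _ k)

end abs

variable {F F' : Type} [Field F] [Algebra ℂ F] [Field F'] [Algebra ℂ F'] {n r : ℕ}
  {S : Subalgebra ℂ F}

/-- an element which is algebraic over `ℂ(t)` becomes regular after multiplication by a
polynomial in `t` -/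
theorem cl_den (hS : Aff n S) (nor : IsIntegrallyClosed S) (t : Fin r → S) {a : F}
    (ha : a ∈ cl (IntermediateField.adjoin ℂ (range fun i => (t i : F)))) :
    ∃ u : MvPolynomial (Fin r) ℂ, (MvPolynomial.aeval t u : S) ≠ 0 ∧
      ((MvPolynomial.aeval t u : S) : F) * a ∈ S := by
  have : IsFractionRing S F := IsFractionRing.of_field S F hS.fr
  set K := IntermediateField.adjoin ℂ (range fun i => (t i : F))
  let A := Algebra.adjoin ℂ (range fun i => (t i : F))
  have AS : A ≤ S := Algebra.adjoin_le (by rintro _ ⟨i, rfl⟩; exact (t i).2)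
  have h1 : IsAlgebraic A a :=
    (IntermediateField.isAlgebraic_adjoin_iff).1 (mem_algebraicClosure_iff.1 ha)
  obtain ⟨u, u0, hu⟩ := h1.exists_integral_multiple
  obtain ⟨q, hq⟩ : (u : F) ∈ (MvPolynomial.aeval fun i => (t i : F) : _ →ₐ[ℂ] F).range :=
    Algebra.adjoin_range_eq_range_aeval ℂ (fun i => (t i : F)) ▸ u.2
  have e : ((MvPolynomial.aeval t q : S) : F) = u := by
    rw [← hq]
    exact MvPolynomial.aeval_algebraMap_apply F t q |>.symm
  refine ⟨q, fun k => u0 (Subtype.ext (e.symm.trans (congrArg Subtype.val k))), ?_⟩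
  let _ : Algebra A S := (Subalgebra.inclusion AS).toRingHom.toAlgebra
  have : IsScalarTower A S F := IsScalarTower.of_algebraMap_eq fun _ => rfl
  obtain ⟨w, hw⟩ := IsIntegrallyClosed.isIntegral_iff.1 (hu.tower_top (A := S))
  rw [e]
  have hw' : (w : F) = u * a := hw
  exact hw' ▸ w.2

/-- the algebraic closure of `ℂ(t)` lies in the local ring -/
theorem cl_lo' (hS : Aff n S) (nor : IsIntegrallyClosed S) {p : Ideal S} {t : Fin r → S}
    (ind : ∀ q : MvPolynomial (Fin r) ℂ, MvPolynomial.aeval t q ∈ p → q = 0) {a : F}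
    (ha : a ∈ cl (IntermediateField.adjoin ℂ (range fun i => (t i : F)))) : a ∈ Lo S p := by
  obtain ⟨u, u0, hu⟩ := cl_den hS nor t ha
  refine ⟨⟨_, hu⟩, MvPolynomial.aeval t u, fun k => u0 (by rw [ind u k, map_zero]), ?_⟩
  have : ((MvPolynomial.aeval t u : S) : F) ≠ 0 := fun k => u0 (Subtype.ext k)
  field_simp

/-- the inertia group fixes the algebraic closure of `ℂ(t)` -/
theorem fixL' (hS : Aff n S) (nor : IsIntegrallyClosed S) {p : Ideal S} (hp : p.IsPrime)
    {t : Fin r → S} (ind : ∀ q : MvPolynomial (Fin r) ℂ, MvPolynomial.aeval t q ∈ p → q = 0)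
    (σ : F ≃ₐ[ℂ] F) (hi : Inr S p σ) (ht : ∀ i, σ (t i) = t i) {a : F}
    (ha : a ∈ cl (IntermediateField.adjoin ℂ (range fun i => (t i : F)))) : σ a = a := by
  set K := IntermediateField.adjoin ℂ (range fun i => (t i : F))
  have fx : ∀ c : K, σ c = c := fun c =>
    (Subfield.closure_le (t := RingHom.eqLocusField (σ : F →+* F) (RingHom.id F))).2 (by
      rintro _ (⟨b, rfl⟩ | ⟨i, rfl⟩)
      · exact σ.commutes b
      · exact ht i) c.2
  have ha' : σ a ∈ cl K := mem_algebraicClosure_iff.2
    ((mem_algebraicClosure_iff.1 ha).ringHom_of_comp_eq (RingHom.id K) (σ : F →+* F)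
      Function.injective_id (RingHom.ext fun c => (fx c).symm))
  by_contra ne
  obtain ⟨s, u, hu, e⟩ := cl_lo' hS nor ind ha
  obtain ⟨s', u', hu', e'⟩ := cl_lo' hS nor ind (inv_mem (sub_mem ha' ha))
  obtain ⟨b, hb, eb⟩ := hi s
  obtain ⟨c, hc, ec⟩ := hi u
  have nz : ∀ w : S, w ∉ p → (w : F) ≠ 0 := fun w hw w0 =>
    hw ((Subtype.ext w0 : w = 0) ▸ p.zero_mem)
  have huc : u + c ∉ p := fun k => hu ((Ideal.add_mem_iff_left p hc).1 k)
  have k1 : σ a - a = (b * u - s * c) / (u * (u + c)) := by
    have u0 := nz u hu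
    have u1 : (u : F) + c ≠ 0 := nz _ huc
    rw [e, map_div₀, sub_eq_iff_eq_add'.1 eb, sub_eq_iff_eq_add'.1 ec]
    field_simp
    ring
  have k2 : u * (u + c) * u' = (b * u - s * c) * s' := Subtype.ext (by
    have d0 := sub_ne_zero.2 ne
    have u0 := nz u hu
    have u1 : (u : F) + c ≠ 0 := nz _ huc
    have u2 := nz u' hu'
    push_cast
    rw [(eq_div_iff (mul_ne_zero u0 u1)).1 k1 |>.symm, (eq_div_iff u2).1 e' |>.symm]
    field_simp)
  have k3 : u * (u + c) * u' ∈ p :=
    k2 ▸ p.mul_mem_right _ (sub_mem (p.mul_mem_right _ hb) (p.mul_mem_left _ hc))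
  rcases hp.mem_or_mem k3 with k | k
  · exact (hp.mem_or_mem k).elim hu huc
  · exact hu' k

/-- adjoining a field of constants all of whose elements have a denominator which is a constant
keeps normality -/
theorem nor_loc (hS : Aff n S) (nor : IsIntegrallyClosed S) (L : IntermediateField ℂ F)
    (den : ∀ a ∈ L, ∃ u ∈ S, u ∈ L ∧ u ≠ 0 ∧ u * a ∈ S) :
    IsFractionRing (Algebra.adjoin L (S : Set F)) F ∧
      IsIntegrallyClosed (Algebra.adjoin L (S : Set F)) := by
  have : IsFractionRing S F := IsFractionRing.of_field S F hS.fr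
  set R := Algebra.adjoin L (S : Set F)
  have SR : ∀ a : S, (a : F) ∈ R := fun a => Algebra.subset_adjoin a.2
  have fr : IsFractionRing R F := IsFractionRing.of_field R F fun a =>
    let ⟨s, t, e⟩ := hS.fr a
    ⟨⟨s, SR s⟩, ⟨t, SR t⟩, e⟩
  have dR : ∀ a ∈ R, ∃ u ∈ S, u ∈ L ∧ u ≠ 0 ∧ u * a ∈ S := fun a ha => by
    induction ha using Algebra.adjoin_induction with
    | mem a ha => exact ⟨1, one_mem _, one_mem _, one_ne_zero, by rwa [one_mul]⟩
    | algebraMap c => exact den c c.2
    | add a b _ _ ha hb =>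
      obtain ⟨u, uS, uL, u0, hu⟩ := ha
      obtain ⟨v, vS, vL, v0, hv⟩ := hb
      refine ⟨u * v, mul_mem uS vS, mul_mem uL vL, mul_ne_zero u0 v0, ?_⟩
      have : u * v * (a + b) = v * (u * a) + u * (v * b) := by ring
      exact this ▸ add_mem (mul_mem vS hu) (mul_mem uS hv)
    | mul a b _ _ ha hb =>
      obtain ⟨u, uS, uL, u0, hu⟩ := ha
      obtain ⟨v, vS, vL, v0, hv⟩ := hb
      refine ⟨u * v, mul_mem uS vS, mul_mem uL vL, mul_ne_zero u0 v0, ?_⟩
      have : u * v * (a * b) = u * a * (v * b) := by ring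
      exact this ▸ mul_mem hu hv
  let M : Submonoid S :=
    { carrier := {u | (u : F) ∈ L ∧ (u : F) ≠ 0}
      one_mem' := ⟨one_mem L, one_ne_zero⟩
      mul_mem' := fun ha hb => ⟨mul_mem ha.1 hb.1, mul_ne_zero ha.2 hb.2⟩ }
  let _ : Algebra S R := (S.val.toRingHom.codRestrict R SR).toAlgebra
  have hM : M ≤ nonZeroDivisors S := fun u hu =>
    mem_nonZeroDivisors_of_ne_zero fun k => hu.2 (congrArg Subtype.val k)
  have : IsLocalization M R := (isLocalization_iff M R).2 ⟨fun u =>
      IsUnit.of_mul_eq_one ⟨(u.1 : F)⁻¹, R.algebraMap_mem ⟨_, inv_mem u.2.1⟩⟩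
        (Subtype.ext (mul_inv_cancel₀ u.2.2)),
    fun a =>
      let ⟨u, uS, uL, u0, hu⟩ := dR a a.2
      ⟨(⟨_, hu⟩, ⟨⟨u, uS⟩, uL, u0⟩), Subtype.ext (mul_comm _ _)⟩,
    fun {a b} e => ⟨1, congrArg (_ * ·) (Subtype.ext (congrArg (fun c : R => (c : F)) e))⟩⟩
  exact ⟨fr, isIntegrallyClosed_of_isLocalization R M hM⟩

/-- **nor_up**: the geometric generic fibre of a normal variety is normal -/
theorem nor_up {φ : F →+* F'} (hS : Aff n S) (nor : IsIntegrallyClosed S) (t : Fin r → S)
    (h : GF (cl (IntermediateField.adjoin ℂ (range fun i => (t i : F)))) φ) :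
    IsIntegrallyClosed (Algebra.adjoin ℂ (φ '' S)) := by
  set L := cl (IntermediateField.adjoin ℂ (range fun i => (t i : F))) with hL
  have tL : ∀ u : MvPolynomial (Fin r) ℂ, ((MvPolynomial.aeval t u : S) : F) ∈ L := fun u => by
    induction u using MvPolynomial.induction_on with
    | C c => simpa using L.algebraMap_mem c
    | add a b ha hb => rw [map_add]; exact add_mem ha hb
    | mul_X a i ha =>
      rw [map_mul, MvPolynomial.aeval_X]
      exact mul_mem ha (mem_algebraicClosure_iff.2 (isAlgebraic_algebraMap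
        (⟨t i, IntermediateField.subset_adjoin ℂ _ ⟨i, rfl⟩⟩ :
          IntermediateField.adjoin ℂ (range fun i => (t i : F)))))
  have den : ∀ a ∈ L, ∃ u ∈ S, u ∈ L ∧ u ≠ 0 ∧ u * a ∈ S := fun a ha =>
    let ⟨u, u0, hu⟩ := cl_den hS nor t ha
    ⟨_, (MvPolynomial.aeval t u).2, tL u, fun k => u0 (Subtype.ext k), hu⟩
  obtain ⟨fr, nr⟩ := nor_loc hS nor L den
  refine h.elim fun e b => ?_
  subst e
  have : CharZero L := charZero_of L
  have eq : Algebra.adjoin ℂ (algebraMap F F' '' S) =
      Algebra.adjoin ℂ (algebraMap F F' '' Algebra.adjoin L (S : Set F)) := by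
    refine le_antisymm (Algebra.adjoin_mono (image_mono Algebra.subset_adjoin))
      (Algebra.adjoin_le ?_)
    rintro _ ⟨a, ha, rfl⟩
    induction ha using Algebra.adjoin_induction with
    | mem a ha => exact Algebra.subset_adjoin ⟨a, ha, rfl⟩
    | algebraMap c =>
      obtain ⟨d, hd⟩ := h.cst c c.2
      exact (hd : _ = algebraMap F F' (algebraMap L F c)) ▸ Subalgebra.algebraMap_mem _ d
    | add a b _ _ ha hb => rw [map_add]; exact add_mem ha hb
    | mul a b _ _ ha hb => rw [map_mul]; exact mul_mem ha hb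
  rw [eq]
  have : IsIntegrallyClosedIn
      (Algebra.adjoin ℂ (algebraMap F F' '' Algebra.adjoin L (S : Set F))) F' :=
    isIntegrallyClosedIn_iff.2 ⟨Subtype.val_injective, fun hz => ⟨⟨_, nor_abs b _ hz⟩, rfl⟩⟩
  exact IsIntegrallyClosed.of_isIntegrallyClosedIn _ F'

end Vale.Agent.P283R.Bn
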