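import Vale.Agent.P283R.Be2.GlE
import Vale.Agent.P283R.Be2.GlS
import Vale.Agent.P283R.Be2.Nor
import Vale.Agent.P283R.Gf.Tr
import Vale.Agent.P287D.Gf.Des

/-!
# P283R, bounded embedding dimension: the geometric generic point
-/

set_option linter.all false

open Set Polynomial

noncomputable section

namespace Vale.Agent.P283R.Bgl

open Vale.Agent.P287D Vale.Agent.P287D.Cb Gf

variable {F F' : Type} [Field F] [Algebra ℂ F] [Field F'] [Algebra ℂ F'] {k r d N : ℕ}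
  {L : IntermediateField ℂ F} {φ : F →+* F'}

/-- the closed point of the generic fibre -/
theorem up (h : GF L φ) (hF : FF F' d) {S : Subalgebra ℂ F} {p : Ideal S} {x : Fin k → F}
    {t : Fin r → S} (hp : Pae N S p x t) (ht : ∀ i, (t i : F) ∈ L) {P : Pl F'} {Q : Pl F}
    (l : Lies φ P Q) (hQ : Cen S p Q) : ∃ (S' : Subalgebra ℂ F') (p' : Ideal S') (ψ : S →+* S'),
      (∀ a, (ψ a : F') = φ a) ∧ S' = Algebra.adjoin ℂ (φ '' S) ∧ (∀ a, a ∈ p ↔ ψ a ∈ p') ∧
      Cen S' p' P ∧ Aff d S' ∧ p'.IsPrime ∧ (∀ j, ∃ s ∈ p', (s : F') = φ (x j)) ∧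
      (∀ a ∈ p', Cm S' p' (fun j => φ (x j)) a) ∧
      ∀ a : S', ∃ c : ℂ, a - algebraMap ℂ S' c ∈ p' := by
  classical
  obtain ⟨s, hs⟩ := hp.aff.fg
  have hc : ∀ c, φ (algebraMap ℂ F c) ∈ range (algebraMap ℂ F') :=
    fun c => h.cst _ (L.algebraMap_mem c)
  let S' := Algebra.adjoin ℂ (φ '' s)
  have sS : (s : Set F) ⊆ S := hs ▸ Algebra.subset_adjoin
  have m1 : ∀ a ∈ S, φ a ∈ S' := fun a ha => by
    rw [← hs] at ha
    induction ha using Algebra.adjoin_induction with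
    | mem a ha => exact Algebra.subset_adjoin ⟨a, ha, rfl⟩
    | algebraMap c => obtain ⟨d, hd⟩ := hc c; exact hd ▸ S'.algebraMap_mem d
    | add a b _ _ ha hb => rw [map_add]; exact add_mem ha hb
    | mul a b _ _ ha hb => rw [map_mul]; exact mul_mem ha hb
  have m2 : ∀ a ∈ S', a ∈ P.ring := fun a ha => adj_mem (by
    rintro _ ⟨b, hb, rfl⟩
    exact (l b).1 (hQ ⟨b, sS hb⟩).1) ha
  let ψ : S →+* S' := (φ.comp S.val.toRingHom).codRestrict S' fun a => m1 a a.2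
  let ρ := rdA S' m2
  let p' : Ideal S' := RingHom.ker ρ.toRingHom
  have pr : p'.IsPrime := RingHom.ker_isPrime _
  have cn : Cen S' p' P := fun a => ⟨m2 a a.2, Iff.rfl⟩
  have key : ∀ a, a ∈ p ↔ ρ (ψ a) = 0 := fun a => (hQ a).2.trans (rd_iff h l (hQ a).1).symm
  have lo : ∀ a ∈ Lo S p, φ a ∈ Lo S' p' := by
    rintro _ ⟨a, b, hb, rfl⟩
    exact ⟨ψ a, ψ b, fun e => hb ((key b).2 e), map_div₀ φ _ _⟩
  let ev : MvPolynomial (Fin r) ℂ →+* S := (MvPolynomial.aeval t : _ →ₐ[ℂ] S).toRingHom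
  obtain ⟨j, hj⟩ := Gf.exists_j ((φ.comp S.val.toRingHom).comp ev) fun a => h.cst _ (by
    change ((MvPolynomial.aeval t a : S) : F) ∈ L
    induction a using MvPolynomial.induction_on with
    | C c => simpa using L.algebraMap_mem c
    | add a b ha hb => rw [map_add]; exact add_mem ha hb
    | mul_X a i ha => rw [map_mul, MvPolynomial.aeval_X]; exact mul_mem ha (ht i))
  have A : ∀ a : S, ∃ c : ℂ, Cm S' p' (fun j => φ (x j)) (φ a - algebraMap ℂ F' c) := fun a => by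
    obtain ⟨c, u, hu, b, hb, e⟩ := unram ψ ρ p key ev j (fun a => Subtype.ext (hj a).symm) hp.ind
      a (hp.alg a)
    obtain ⟨d, hd, e'⟩ := hp.gen b hb
    have e2 : (φ a - algebraMap ℂ F' c) * u = φ b := congrArg Subtype.val e
    refine ⟨c, ?_⟩
    rw [(eq_div_iff (ne_of (p := p') hu)).2 e2, div_eq_inv_mul]
    refine Cm.mul pr ⟨1, u, hu, by simp⟩ ⟨fun j => φ (d j), fun j => lo _ (hd j), ?_⟩
    rw [e', map_sum]
    simp only [map_mul]
  have B : ∀ a ∈ S', ∃ c : ℂ, Cm S' p' (fun j => φ (x j)) (a - algebraMap ℂ F' c) := fun a ha => by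
    induction ha using Algebra.adjoin_induction with
    | mem a ha => obtain ⟨b, hb, rfl⟩ := ha; exact A ⟨b, sS hb⟩
    | algebraMap c => exact ⟨c, by rw [sub_self]; exact cm_zero pr⟩
    | add a b _ _ ha hb =>
      obtain ⟨c, hc⟩ := ha
      obtain ⟨d, hd⟩ := hb
      have e : a + b - algebraMap ℂ F' (c + d) =
          a - algebraMap ℂ F' c + (b - algebraMap ℂ F' d) := by rw [map_add]; ring
      exact ⟨c + d, e ▸ hc.add pr hd⟩
    | mul a b ha' _ ha hb =>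
      obtain ⟨c, hc⟩ := ha
      obtain ⟨d, hd⟩ := hb
      have e : a * b - algebraMap ℂ F' (c * d) = a * (b - algebraMap ℂ F' d) +
          algebraMap ℂ F' d * (a - algebraMap ℂ F' c) := by rw [map_mul]; ring
      exact ⟨c * d, e ▸ (Cm.mul pr (lo_of pr ⟨a, ha'⟩) hd).add pr
        (Cm.mul pr (lo_of pr (algebraMap ℂ S' d)) hc)⟩
  have xm : ∀ j, ∃ s ∈ p', (s : F') = φ (x j) := fun j =>
    let ⟨a, ha, e⟩ := hp.mem j
    ⟨ψ a, (key a).1 ha, congrArg φ e⟩
  have xx : ∀ j, Mx P (φ (x j)) := fun j =>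
    let ⟨a, ha, e⟩ := xm j
    e ▸ (rd_eq_zero (m2 a a.2)).1 ha
  have C : ∀ (a : S') (c : ℂ), Cm S' p' (fun j => φ (x j)) (a - algebraMap ℂ F' c) →
      a - algebraMap ℂ S' c ∈ p' := fun a c hc =>
    (rd_eq_zero (m2 _ (a - algebraMap ℂ S' c).2)).2 (hc.mx cn xx)
  refine ⟨S', p', ψ, fun _ => rfl, le_antisymm (Algebra.adjoin_mono (image_mono sS))
    (Algebra.adjoin_le (by rintro _ ⟨a, ha, rfl⟩; exact m1 a ha)), key, cn,
    ⟨hF, Subalgebra.fg_def.2 ⟨_, s.finite_toSet.image φ, rfl⟩, fun a => ?_⟩, pr, xm,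
    fun a ha => ?_, fun a => (B a a.2).imp (C a)⟩
  · have le : Subfield.closure (range φ ∪ range (algebraMap ℂ F')) ≤
        Subfield.closure (S' : Set F') := Subfield.closure_le.2 (by
      rintro _ (⟨f, rfl⟩ | ⟨c, rfl⟩)
      · obtain ⟨b, d, rfl⟩ := hp.aff.fr f
        rw [map_div₀]
        exact div_mem (Subfield.subset_closure (m1 b b.2)) (Subfield.subset_closure (m1 d d.2))
      · exact Subfield.subset_closure (S'.algebraMap_mem c))
    obtain ⟨b, hb, d, hd, e⟩ := Subfield.mem_closure_iff.1 (le (h.gen ▸ Subfield.mem_top a))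
    have le2 : Subring.closure (S' : Set F') ≤ S'.toSubring := Subring.closure_le.2 fun _ z => z
    exact ⟨⟨b, le2 hb⟩, ⟨d, le2 hd⟩, e.symm⟩
  · obtain ⟨c, hc⟩ := B a a.2
    have h1 : algebraMap ℂ S' c ∈ p' := by simpa using sub_mem ha (C a c hc)
    have h2 : c = 0 := by
      by_contra c0
      exact pr.ne_top (Ideal.eq_top_of_isUnit_mem _ h1 ((IsUnit.mk0 c c0).map _))
    rwa [h2, map_zero, sub_zero] at hc

/-- functions which become regular on the generic fibre -/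
theorem span_down (h : GF L φ) {S : Subalgebra ℂ F} {f : F}
    (hf : φ f ∈ Algebra.adjoin ℂ (φ '' S)) : f ∈ Submodule.span L (S : Set F) := by
  by_contra hn
  obtain ⟨b, bS, e, li⟩ := exists_linearIndependent L (S : Set F)
  have l2 : LinearIndepOn L id (insert f b) := LinearIndepOn.id_insert li (e ▸ hn)
  have fb : f ∉ b := fun k => hn (Submodule.subset_span (bS k))
  have l3 : LinearIndepOn ℂ φ (insert f b) := h.elim fun e b => e ▸ b.dis' l2
  refine ((linearIndepOn_insert fb).1 l3).2 ?_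
  have k : ∀ a ∈ Submodule.span L b, φ a ∈ Submodule.span ℂ (φ '' b) := fun a ha => by
    refine Submodule.span_induction (fun a ha => Submodule.subset_span ⟨a, ha, rfl⟩) (by simp)
      (fun u v _ _ a b => map_add φ u v ▸ add_mem a b) (fun c u _ a => ?_) ha
    obtain ⟨c', hc⟩ := h.cst _ c.2
    have : φ (c • u) = c' • φ u := by rw [Algebra.smul_def, Algebra.smul_def, map_mul, hc]; rfl
    exact this ▸ Submodule.smul_mem _ _ a
  have e2 : (Submonoid.closure (φ '' S) : Set F') = φ '' S :=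
    congrArg _ (Submonoid.closure_eq (S.toSubsemiring.toSubmonoid.map φ))
  have h2 : φ f ∈ Submodule.span ℂ (φ '' S) := by
    rw [← e2, ← Algebra.adjoin_eq_span]
    exact hf
  refine Submodule.span_le.2 ?_ h2
  rintro _ ⟨a, ha, rfl⟩
  exact k a (e ▸ Submodule.subset_span ha)

/-- prime divisors of the generic fibre come from prime divisors -/
theorem pdat_down (h : GF L φ) {S : Subalgebra ℂ F} {p : Ideal S} (hp : p.IsPrime)
    (hL : ∀ a ∈ L, a ∈ Lo S p) {S' : Subalgebra ℂ F'} {p' : Ideal S'} (ψ : S →+* S')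
    (e : ∀ a, (ψ a : F') = φ a) (eS : S' = Algebra.adjoin ℂ (φ '' S))
    (key : ∀ a, a ∈ p ↔ ψ a ∈ p') {R' : Pl F'} {R : Pl F} (l : Lies φ R' R)
    (hR : PDat S' p' R') : PDat S p R := by
  obtain ⟨q', le, cn, lo⟩ := hR
  have mem : ∀ a : S, (a : F) ∈ R.ring := fun a => (l a).2 (e a ▸ (cn (ψ a)).1)
  have kq : ∀ a : S, ψ a ∈ q' ↔ R.rd a = 0 := fun a => by rw [(cn _).2, e, rd_iff h l (mem a)]
  have sp : ∀ f, φ f ∈ S' → f ∈ Lo S p := fun f hf =>
    Submodule.span_induction (p := fun f _ => f ∈ Lo S p) (fun a ha => lo_of hp ⟨a, ha⟩)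
      (lo_of hp 0)
      (fun _ _ _ _ => lo_add hp) (fun (c : L) _ _ a => lo_mul hp (hL c.1 c.2) a)
      (span_down h (eS ▸ hf))
  refine ⟨q'.comap ψ, fun a ha => (key a).2 (le ha), fun a => ⟨mem a, kq a⟩, fun a ha => ?_⟩
  obtain ⟨s', t', ht', e'⟩ := lo _ ((l a).1 ha)
  let W : Submodule ℂ F' := S'.toSubmodule ⊓ S'.toSubmodule.comap (LinearMap.mulLeft ℂ (φ a))
  have st : ∀ σ ∈ Gal φ, ∀ g ∈ S', σ g ∈ S' := fun σ hσ g hg => by
    rw [eS] at hg ⊢
    induction hg using Algebra.adjoin_induction with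
    | mem g hg =>
      obtain ⟨g, hg, rfl⟩ := hg
      rw [hσ g]
      exact Algebra.subset_adjoin ⟨g, hg, rfl⟩
    | algebraMap c =>
      rw [show σ (algebraMap ℂ F' c) = _ from (h.semi hσ).map_cst c]
      exact Subalgebra.algebraMap_mem _ _
    | add a b _ _ u v => rw [map_add]; exact add_mem u v
    | mul a b _ _ u v => rw [map_mul]; exact mul_mem u v
  have tW : (t' : F') ∈ W := ⟨t'.2, show φ a * t' ∈ S' by
    rw [e', div_mul_cancel₀ _ (ne_of ht')]; exact s'.2⟩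
  have ds := h.desc W (fun σ hσ g hg => ⟨st σ hσ g hg.1, show φ a * σ g ∈ S' by
    rw [← hσ a, ← map_mul]; exact st σ hσ _ hg.2⟩) tW
  obtain ⟨f, fW, fq⟩ : ∃ f, φ f ∈ W ∧ ¬ Mx R' (φ f) := by
    by_contra hn
    push Not at hn
    refine ht' ((cn t').2.2 ((rd_eq_zero (cn t').1).2 ?_))
    refine Submodule.span_induction ?_ mx_zero (fun _ _ _ _ => Mx.add) (fun c u _ a => ?_) ds
    · rintro _ ⟨f, hf, rfl⟩
      exact hn f hf
    · rw [Algebra.smul_def]
      exact a.mul (R'.con c)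
  obtain ⟨s, t, ht, e1⟩ := sp f fW.1
  obtain ⟨s2, t2, ht2, e2⟩ := sp (a * f) (map_mul φ a f ▸ fW.2)
  have f0 : f ≠ 0 := fun z => fq (by rw [z, map_zero]; exact mx_zero)
  have s0 : (s : F) ≠ 0 := fun z => f0 (by rw [e1, z, zero_div])
  have pq : q'.IsPrime := ⟨fun z => ht' (z ▸ Submodule.mem_top), fun {u v} z => by
    rw [(cn _).2, Subalgebra.coe_mul, rd_mul (cn u).1 (cn v).1, mul_eq_zero] at z
    rwa [(cn _).2, (cn _).2]⟩
  refine ⟨s2 * t, t2 * s, fun z => ?_, ?_⟩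
  · rcases pq.mem_or_mem (map_mul ψ t2 s ▸ Ideal.mem_comap.1 z) with z | z
    · exact ht2 ((key _).2 (le z))
    · refine fq ?_
      rw [e1, map_div₀, ← e, ← e, div_eq_inv_mul]
      exact ((rd_eq_zero (cn _).1).1 ((cn _).2.1 z)).mul (inv_mem_of fun m =>
        ht ((key _).2 (le ((cn _).2.2 ((rd_eq_zero (cn _).1).2 m)))))
  · have t0 := ne_of ht
    have t1 := ne_of ht2
    rw [Subalgebra.coe_mul, Subalgebra.coe_mul, eq_div_iff (mul_ne_zero t1 s0)]
    rw [e1, eq_div_iff t1] at e2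
    rw [← e2]
    field_simp

variable {A : Subgroup (F ≃ₐ[ℂ] F)}

/-- the dictionary between the places near `p` and the places near `p'` -/
def Dic (φ : F →+* F') (A : Subgroup (F ≃ₐ[ℂ] F)) (S : Subalgebra ℂ F) (p : Ideal S)
    (y : Fin N → F) (A' : Subgroup (F' ≃ₐ[ℂ] F')) (S' : Subalgebra ℂ F') (p' : Ideal S')
    (y' : Fin d → F') : Prop :=
  ∀ p₀' : Ideal S', p₀' ≤ p' → ∀ P', Cen S' p₀' P' → ∃ p₀ ≤ p, ∃ P, Cen S p₀ P ∧
    (p₀' = p' → p₀ = p) ∧ (∀ m g, ld y' m (φ g) P' = ld y m g P) ∧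
    (PDat S' p' P' → PDat S p P) ∧ ∀ e, Dv A' P' e → Dv A P e

/-- the transfer -/
theorem tr {n q : ℕ} {S : Subalgebra ℂ F} {p : Ideal S} {x : Fin k → F} {t : Fin r → S}
    {w : Fin d → F} {f : F}
    (H : ∀ (F' : Type) [Field F'] [Algebra ℂ F'] (A' : Subgroup (F' ≃ₐ[ℂ] F'))
      (S' : Subalgebra ℂ F') (p' : Ideal S') (z : Fin k → F') (y : Fin d → F') (φ : F →+* F'),
      Tx.Pt d A' S' p' z → Finite A' → Stab A' S' → Frm y → (∀ i, Fix A' (y i)) → φ f ≠ 0 →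
      Eig A' (φ f) → (∀ R, PDat S' p' R → ld y q (φ f) R ≤ 1) →
      Dic φ A S p (Fin.append w fun i => (t i : F)) A' S' p' y → Mne n q A' S' p' z y (φ f))
    (hp : Pae (d + r) S p x t) (nor : IsIntegrallyClosed S) (x0 : ∀ j, x j ≠ 0)
    (hi : AlgebraicIndependent ℂ (Fin.append w fun i => (t i : F))) (hA : Finite A)
    (hI : ∀ σ ∈ A, Inr S p σ) (hx : ∀ j, Eig A (x j)) (ft : ∀ i, Fix A (t i : F))
    (fw : ∀ i, Fix A (w i)) (f0 : f ≠ 0) (he : Eig A f)
    (bd : ∀ R, PDat S p R → ld (Fin.append w fun i => (t i : F)) q f R ≤ 1) :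
    Mne n q A S p x (Fin.append w fun i => (t i : F)) f := by
  intro Q hQ
  have it : AlgebraicIndependent ℂ fun i => (t i : F) := by
    have e : (Fin.append w fun i => (t i : F)) ∘ Fin.natAdd d = fun i => (t i : F) :=
      funext fun i => by simp
    exact e ▸ hi.comp (Fin.natAdd d) (Fin.natAdd_injective _ _)
  have fl := ff_cl hp.aff.ff it
  obtain ⟨F', _, _, φ, h⟩ := g1 F _ (Gf.cld_cl _) ⟨r, fl⟩
  have hF := h.toExt.ff fl hp.aff.ff
  have ht : ∀ i, (t i : F) ∈ cl (IntermediateField.adjoin ℂ (range fun i => (t i : F))) :=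
    fun i => (algebraicClosure _ F).algebraMap_mem
      (⟨t i, IntermediateField.subset_adjoin _ _ ⟨i, rfl⟩⟩ :
        IntermediateField.adjoin ℂ (range fun i => (t i : F)))
  have hLo := fun a ha => Bn.cl_lo' hp.aff nor hp.ind (a := a) ha
  have hL := fun σ hσ a ha =>
    Bn.fixL' hp.aff nor hp.pri hp.ind σ (hI σ hσ) (fun i => ft i σ hσ) (a := a) ha
  obtain ⟨P, l⟩ := h.above fl fun a ha => lo_ring hQ (hLo a ha)
  obtain ⟨S', p', ψ, e, eS, key, cn, af, pr, xm, gn, rs⟩ := up h hF hp ht l hQ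
  have st : ∀ τ ∈ lift φ A, ∀ a ∈ S', ∃ b ∈ p', τ a - a = (b : F') := by
    rintro τ ⟨σ, hσ, eτ⟩ a ha
    have : a ∈ S' ∧ ∃ b ∈ p', τ a - a = (b : F') := by
      have := eS.le ha
      clear ha
      induction this using Algebra.adjoin_induction with
      | mem a ha =>
        obtain ⟨a, ha, rfl⟩ := ha
        obtain ⟨b, hb, eb⟩ := hI σ hσ ⟨a, ha⟩
        exact ⟨e ⟨a, ha⟩ ▸ (ψ _).2, ψ b, (key b).1 hb, by rw [eτ, e, ← eb, map_sub]⟩
      | algebraMap c => exact ⟨S'.algebraMap_mem c, 0, zero_mem _, by simp⟩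
      | add a b _ _ ha hb =>
        obtain ⟨ha, c, hc, ec⟩ := ha
        obtain ⟨hb, d, hd, ed⟩ := hb
        exact ⟨add_mem ha hb, c + d, add_mem hc hd, by
          rw [map_add, Subalgebra.coe_add, ← ec, ← ed]; ring⟩
      | mul a b _ _ ha hb =>
        obtain ⟨ha, c, hc, ec⟩ := ha
        obtain ⟨hb, d, hd, ed⟩ := hb
        refine ⟨mul_mem ha hb, c * (⟨b, hb⟩ + d) + ⟨a, ha⟩ * d,
          add_mem (p'.mul_mem_right _ hc) (p'.mul_mem_left _ hd), ?_⟩
        rw [map_mul, Subalgebra.coe_add, Subalgebra.coe_mul, Subalgebra.coe_mul,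
          Subalgebra.coe_add, ← ec, ← ed]
        ring
    exact this.2
  have fx : ∀ g, Fix A g → Fix (lift φ A) (φ g) := by
    rintro g hg τ ⟨σ, hσ, eτ⟩
    rw [eτ, hg σ hσ]
  obtain ⟨D, hD⟩ := fr_of hp.aff.ff hi
  obtain ⟨c, c1, c2⟩ := H F' (lift φ A) S' p' (fun j => φ (x j)) (fun j => φ (w j)) φ
    ⟨af, eS ▸ Bn.nor_up hp.aff nor t h, pr, xm, fun j => (map_ne_zero φ).2 (x0 j), gn, rs,
      fun τ hτ a => st τ hτ a a.2, fun j => lift_eig h (hx j)⟩ (lift_fin h hA)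
    (fun τ hτ a ha => by
      obtain ⟨b, -, eb⟩ := st τ hτ a ha
      rw [sub_eq_iff_eq_add.1 eb]
      exact add_mem b.2 ha)
    (fr_of hF (ind_map (fun c => h.cst _ (IntermediateField.algebraMap_mem _ c))
      (fun j => h.cst _ (ht j)) hD hF (alg_of_gf h).alc))
    (fun i => fx _ (fw i)) ((map_ne_zero φ).2 f0) (lift_eig h he)
    (fun R' hR => by
      obtain ⟨R, l'⟩ := h.below hF R'
      rw [ld_eq h hp.aff.ff hF ht hi l']
      exact bd R (pdat_down h hp.pri hLo ψ e eS key l' hR))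
    (fun p₀' le P' hP' => by
      obtain ⟨Q', l'⟩ := h.below hF P'
      have mem : ∀ a : S, (a : F) ∈ Q'.ring := fun a => (l' a).2 (e a ▸ (hP' (ψ a)).1)
      refine ⟨p₀'.comap ψ, fun a ha => (key a).2 (le ha), Q', fun a => ⟨mem a, ?_⟩,
        fun z => Ideal.ext fun a => by rw [z, key, Ideal.mem_comap],
        ld_eq h hp.aff.ff hF ht hi l', pdat_down h hp.pri hLo ψ e eS key l',
        fun n hn g g0 hg => ?_⟩
      · rw [Ideal.mem_comap, (hP' _).2, e, rd_iff h l' (mem a)]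
      · rw [← h.ord_eq l']
        exact hn _ ((map_ne_zero φ).2 g0) (fx g hg)) P cn
  refine ⟨c, fun σ hσ => φ.injective ?_, ?_⟩
  · obtain ⟨τ, hτ, eτ⟩ := lift_ex h hσ (hL σ hσ)
    rw [← eτ]
    simp only [map_mul φ, map_pow φ, map_prod φ]
    exact c1 τ hτ
  · rw [← ld_eq h hp.aff.ff hF ht hi l]
    simpa only [h.ord_eq l] using c2

end Vale.Agent.P283R.Bgl
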