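import Vale.Agent.P283R.Be2.TwS

/-!
# P283R, block BE: Cramer and Taylor along an arc with a Jacobian of bounded order
-/

attribute [-instance] HahnSeries.powerSeriesAlgebra

open MvPolynomial

noncomputable section

namespace Vale.Agent.P283R.Jt

open Co (Ge thl Ctr)

variable {k κ σ : Type*} [Field k] [Field κ] [Algebra k (HahnSeries ℝ κ)] [Fintype σ]
  [DecidableEq σ] {θ : σ → Derivation k (HahnSeries ℝ κ) (HahnSeries ℝ κ)}
  {x x' : σ → HahnSeries ℝ κ} {a M v : ℝ}

theorem ge_of_mul {D u : HahnSeries ℝ κ} (hD : D.orderTop ≤ (a : WithTop ℝ)) (h : Ge v (D * u)) :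
    Ge (v - a) u := by
  unfold Ge at h ⊢
  rw [HahnSeries.orderTop_mul] at h
  by_cases e : u.orderTop = ⊤
  · simp [e]
  obtain ⟨r, e⟩ := WithTop.ne_top_iff_exists.1 e
  have := h.trans (add_le_add_left hD _)
  rw [← e] at this ⊢
  have : v ≤ a + r := by exact_mod_cast this
  exact_mod_cast (by linarith : v - a ≤ r)

omit [DecidableEq σ] in
theorem chain (D : Derivation k (HahnSeries ℝ κ) (HahnSeries ℝ κ)) (x : σ → HahnSeries ℝ κ)
    (h : MvPolynomial σ k) : D (aeval x h) = ∑ i, D (x i) * aeval x (pderiv i h) := by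
  classical
  induction h using MvPolynomial.induction_on with
  | C c => simp
  | add p q hp hq => simp only [map_add, hp, hq, mul_add, Finset.sum_add_distrib]
  | mul_X p i hp =>
    simp only [map_mul, aeval_X, Derivation.leibniz, smul_eq_mul, hp, map_add, mul_add,
      Finset.sum_add_distrib, Finset.mul_sum, pderiv_X]
    congr 1
    · rw [Finset.sum_eq_single i]
      · simp [mul_comm]
      · intro j _ hj; simp [hj.symm]
      · simp
    · exact Finset.sum_congr rfl fun j _ => by ring

theorem ge_adj {A : Matrix σ σ (HahnSeries ℝ κ)} (h : ∀ i j, Ge 0 (A i j)) (i j : σ) :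
    Ge 0 (A.adjugate i j) := by
  rw [Matrix.adjugate_apply]
  have := Co.ge_det (M := A.updateRow j (Pi.single i 1)) (w := fun _ => 0) fun l m => by
    rw [Matrix.updateRow_apply]
    split_ifs
    · rw [Pi.single_apply]
      split_ifs
      · exact Co.ge_one
      · exact Co.ge_zero _
    · exact h l m
  simpa using this

/-- Cramer: a linear system with a determinant of bounded order -/
theorem cramer {A : Matrix σ σ (HahnSeries ℝ κ)} (h : ∀ i j, Ge 0 (A i j))
    (hJ : A.det.orderTop ≤ (a : WithTop ℝ)) {u : σ → HahnSeries ℝ κ}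
    (hu : ∀ l, Ge v (∑ i, A l i * u i)) (i : σ) : Ge (v - a) (u i) := by
  refine ge_of_mul hJ ?_
  have e : A.det * u i = ∑ l, A.adjugate i l * ∑ j, A l j * u j := by
    have := congrFun (congrArg (fun B => B.mulVec u) A.adjugate_mul) i
    simp only [← Matrix.mulVec_mulVec, Matrix.smul_mulVec, Matrix.one_mulVec, Pi.smul_apply,
      smul_eq_mul] at this
    rw [← this]
    rfl
  rw [e]
  exact Ge.sum fun l _ => (ge_adj h i l).zero_mul (hu l)

/-- a partial derivative loses at most the order of the Jacobian -/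
theorem ge_pderiv (hθ : ∀ l, Ctr (θ l)) (hx : ∀ i, Ge 0 (x i))
    (hJ : (Matrix.of fun l i => θ l (x i)).det.orderTop ≤ (a : WithTop ℝ))
    {h : MvPolynomial σ k} (hv : Ge v (aeval x h)) (i : σ) :
    Ge (v - a) (aeval x (pderiv i h)) :=
  cramer (A := Matrix.of fun l i => θ l (x i)) (fun l i => (hθ l).ge (hx i)) hJ
    (u := fun i => aeval x (pderiv i h)) (fun l => by
      simp only [Matrix.of_apply]
      rw [← chain]; exact (hθ l).ge hv) i

/-- the restriction of a polynomial to a line -/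
def lin (x u : σ → HahnSeries ℝ κ) (h : MvPolynomial σ k) : Polynomial (HahnSeries ℝ κ) :=
  aeval (fun i => Polynomial.C (x i) + Polynomial.C (u i) * Polynomial.X) h

omit [Fintype σ] [DecidableEq σ] in
theorem eval_lin (x u : σ → HahnSeries ℝ κ) (h : MvPolynomial σ k) (c : HahnSeries ℝ κ) :
    (lin x u h).eval c = aeval (fun i => x i + u i * c) h := by
  unfold lin
  induction h using MvPolynomial.induction_on with
  | C c => simp
  | add p q hp hq => simp only [map_add, Polynomial.eval_add, hp, hq]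
  | mul_X p i hp => simp only [map_mul, Polynomial.eval_mul, hp]; simp

omit [DecidableEq σ] in
theorem der_aeval {R : Type*} [CommRing R] [Algebra k R] (b : σ → Polynomial R)
    (h : MvPolynomial σ k) :
    (aeval b h).derivative = ∑ i, (b i).derivative * aeval b (pderiv i h) := by
  classical
  induction h using MvPolynomial.induction_on with
  | C c => simp
  | add p q hp hq => simp only [map_add, hp, hq, mul_add, Finset.sum_add_distrib]
  | mul_X p i hp =>
    simp only [map_mul, aeval_X, Derivation.leibniz, smul_eq_mul, hp, map_add, mul_add,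
      Finset.sum_add_distrib, Finset.sum_mul, pderiv_X, Polynomial.derivative_mul]
    rw [add_comm]
    congr 1
    · rw [Finset.sum_eq_single i]
      · simp [mul_comm]
      · intro j _ hj; simp [hj.symm]
      · simp
    · exact Finset.sum_congr rfl fun j _ => by ring

omit [DecidableEq σ] in
theorem der_lin (x u : σ → HahnSeries ℝ κ) (h : MvPolynomial σ k) :
    (lin x u h).derivative = ∑ i, Polynomial.C (u i) * lin x u (pderiv i h) := by
  unfold lin
  rw [der_aeval]
  exact Finset.sum_congr rfl fun j _ => by simp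

theorem ge_coeff [CharZero κ] (hθ : ∀ l, Ctr (θ l)) (hx : ∀ i, Ge 0 (x i))
    (hJ : (Matrix.of fun l i => θ l (x i)).det.orderTop ≤ (a : WithTop ℝ))
    {u : σ → HahnSeries ℝ κ} (hu : ∀ i, Ge M (u i)) (n : ℕ) :
    ∀ {v : ℝ} {h : MvPolynomial σ k}, Ge v (aeval x h) →
      Ge (v + n * (M - a)) ((lin x u h).coeff n) := by
  induction n with
  | zero =>
    intro v h hv
    rw [Polynomial.coeff_zero_eq_eval_zero, eval_lin]
    simpa using hv
  | succ n ih =>
    intro v h hv
    have e := congrArg (fun p => p.coeff n) (der_lin x u h)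
    simp only [Polynomial.coeff_derivative, Polynomial.finsetSum_coeff,
      Polynomial.coeff_C_mul] at e
    have g : Ge (v + (n + 1 : ℕ) * (M - a))
        ((lin x u h).coeff (n + 1) * ((n : HahnSeries ℝ κ) + 1)) := by
      rw [e]
      refine Ge.sum fun i _ => ((hu i).mul (ih (ge_pderiv hθ hx hJ hv i))).mono (le_of_eq ?_)
      push_cast; ring
    have e2 : (lin x u h).coeff (n + 1) =
        ((n + 1 : κ)⁻¹) • ((lin x u h).coeff (n + 1) * ((n : HahnSeries ℝ κ) + 1)) := by
      have : ((n : HahnSeries ℝ κ) + 1) = (n + 1 : κ) • (1 : HahnSeries ℝ κ) := by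
        rw [← Algebra.algebraMap_eq_smul_one]; simp
      rw [this, mul_smul_comm, mul_one, smul_smul, inv_mul_cancel₀ (Nat.cast_add_one_ne_zero n),
        one_smul]
    rw [e2]
    exact g.smul _

/-- **(J)**: a small perturbation of the arc changes the value of every polynomial by a small
relative error -/
theorem jt [CharZero κ] (hθ : ∀ l, Ctr (θ l)) (hx : ∀ i, Ge 0 (x i))
    (hJ : (Matrix.of fun l i => θ l (x i)).det.orderTop ≤ (a : WithTop ℝ))
    (hx' : ∀ i, Ge M (x' i - x i)) (hM : a ≤ M) {h : MvPolynomial σ k} (hv : Ge v (aeval x h)) :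
    Ge (v + (M - a)) (aeval x' h - aeval x h) := by
  set P := lin x (fun i => x' i - x i) h with hP
  have e1 : aeval x' h = P.eval 1 := by rw [hP, eval_lin]; simp
  have e0 : aeval x h = P.coeff 0 := by
    rw [Polynomial.coeff_zero_eq_eval_zero, hP, eval_lin]; simp
  rw [e1, e0, Polynomial.eval_eq_sum_range, Finset.sum_range_succ']
  simp only [one_pow, mul_one, add_sub_cancel_right]
  refine Ge.sum fun n _ => (ge_coeff hθ hx hJ hx' (n + 1) hv).mono ?_
  have : (0 : ℝ) ≤ n * (M - a) := mul_nonneg n.cast_nonneg (sub_nonneg.2 hM)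
  push_cast; linarith

theorem ord_eq {b c : HahnSeries ℝ κ} {s : ℝ} (hs : 0 < s)
    (h : ∀ v : ℝ, Ge v b → Ge (v + s) (c - b)) : c.orderTop = b.orderTop := by
  by_cases e : b.orderTop = ⊤
  · have hb := HahnSeries.orderTop_eq_top.1 e
    subst hb
    have : c = 0 := Co.eq_of_ge one_pos 0 fun n => (h n (Co.ge_zero _)).mono (by linarith)
    rw [this]
  obtain ⟨r, e⟩ := WithTop.ne_top_iff_exists.1 e
  have h1 : b.orderTop < (c - b).orderTop :=
    lt_of_lt_of_le (by rw [← e]; exact_mod_cast (by linarith : r < r + s)) (h r e.le)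
  rw [show c = b + (c - b) by ring, HahnSeries.orderTop_add_eq_left h1]

/-- the orders of all polynomials are unchanged -/
theorem jt_ord [CharZero κ] (hθ : ∀ l, Ctr (θ l)) (hx : ∀ i, Ge 0 (x i))
    (hJ : (Matrix.of fun l i => θ l (x i)).det.orderTop ≤ (a : WithTop ℝ))
    (hx' : ∀ i, Ge M (x' i - x i)) (hM : a < M) (h : MvPolynomial σ k) :
    (aeval x' h).orderTop = (aeval x h).orderTop :=
  ord_eq (sub_pos.2 hM) fun _ hv => jt hθ hx hJ hx' hM.le hv

/-- determinants of close matrices are close -/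
theorem ge_det_sub {A B : Matrix σ σ (HahnSeries ℝ κ)} (hM : 0 ≤ M) (h : ∀ i j, Ge 0 (A i j))
    (hB : ∀ i j, Ge M (B i j - A i j)) : Ge M (B.det - A.det) := by
  have h' : ∀ i j, Ge 0 (B i j) := fun i j => by
    simpa using ((hB i j).mono hM).add (h i j)
  have key : ∀ (s : Finset σ) (f g : σ → HahnSeries ℝ κ), (∀ i, Ge 0 (f i)) → (∀ i, Ge 0 (g i)) →
      (∀ i, Ge M (g i - f i)) → Ge M (∏ i ∈ s, g i - ∏ i ∈ s, f i) := by
    intro s f g hf hg hd
    induction s using Finset.induction_on with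
    | empty => simpa using Co.ge_zero M
    | insert i s hi ih =>
      rw [Finset.prod_insert hi, Finset.prod_insert hi,
        show g i * ∏ j ∈ s, g j - f i * ∏ j ∈ s, f j =
          g i * (∏ j ∈ s, g j - ∏ j ∈ s, f j) + (g i - f i) * ∏ j ∈ s, f j by ring]
      refine ((hg i).zero_mul ih).add ((hd i).mul0 ?_)
      simpa using Ge.prod (s := s) (r := fun _ => 0) fun j _ => hf j
  rw [Matrix.det_apply', Matrix.det_apply', ← Finset.sum_sub_distrib]
  refine Ge.sum fun p _ => ?_
  rw [← mul_sub]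
  refine Ge.zero_mul ?_ (key _ _ _ (fun i => h _ _) (fun i => h' _ _) fun i => hB _ _)
  simpa using Co.ge_algebraMap (R := κ) ((Equiv.Perm.sign p : ℤ) : κ)

/-- the order of the Jacobian is unchanged -/
theorem jac_ord (hθ : ∀ l, Ctr (θ l)) (hx : ∀ i, Ge 0 (x i))
    (hJ : (Matrix.of fun l i => θ l (x i)).det.orderTop ≤ (a : WithTop ℝ))
    (hx' : ∀ i, Ge M (x' i - x i)) (hM : a < M) (h0 : 0 ≤ M) :
    (Matrix.of fun l i => θ l (x' i)).det.orderTop =
      (Matrix.of fun l i => θ l (x i)).det.orderTop := by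
  have g := ge_det_sub (A := Matrix.of fun l i => θ l (x i)) (B := Matrix.of fun l i => θ l (x' i))
    h0 (fun l i => (hθ l).ge (hx i)) fun l i => by
      simp only [Matrix.of_apply]
      rw [← map_sub]; exact (hθ l).ge (hx' i)
  have h1 := lt_of_lt_of_le (lt_of_le_of_lt hJ (WithTop.coe_lt_coe.2 hM)) g
  rw [← add_sub_cancel (Matrix.of fun l i => θ l (x i)).det (Matrix.of fun l i => θ l (x' i)).det,
    HahnSeries.orderTop_add_eq_left h1]

/-- algebraic independence from a nonzero Jacobian -/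
theorem pderiv_zero (hJ : (Matrix.of fun l i => θ l (x i)).det ≠ 0) {h : MvPolynomial σ k}
    (hv : aeval x h = 0) (i : σ) : aeval x (pderiv i h) = 0 := by
  have := Matrix.eq_zero_of_mulVec_eq_zero hJ (v := fun i => aeval x (pderiv i h)) (by
    funext l
    simp only [Matrix.mulVec, dotProduct, Matrix.of_apply, Pi.zero_apply]
    rw [← chain, hv, map_zero])
  exact congrFun this i

section Jx

variable {K : Type} [Field K] [Algebra ℂ K] {d : ℕ} {δ : Fin d → Derivation ℂ K K}
  {y y' : Fin d → HahnSeries ℝ K}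

theorem jx (hy : ∀ i, Ge 0 (y i)) (hJ : (Tx.Jx δ y).orderTop ≤ (a : WithTop ℝ))
    (hy' : ∀ i, Ge M (y' i - y i)) (hM : a ≤ M) {h : MvPolynomial (Fin d) ℂ}
    (hv : Ge v (aeval y h)) : Ge (v + (M - a)) (aeval y' h - aeval y h) :=
  haveI : CharZero K := charZero_of_injective_algebraMap (algebraMap ℂ K).injective
  jt (θ := fun l => thl 0 (δ l)) (fun _ => Co.ctr_thl _ _) hy hJ hy' hM hv

theorem jx_ord (hy : ∀ i, Ge 0 (y i)) (hJ : (Tx.Jx δ y).orderTop ≤ (a : WithTop ℝ))
    (hy' : ∀ i, Ge M (y' i - y i)) (hM : a < M) (h : MvPolynomial (Fin d) ℂ) :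
    (aeval y' h).orderTop = (aeval y h).orderTop :=
  ord_eq (sub_pos.2 hM) fun _ hv => jx hy hJ hy' hM.le hv

theorem jx_jac (hy : ∀ i, Ge 0 (y i)) (hJ : (Tx.Jx δ y).orderTop ≤ (a : WithTop ℝ))
    (hy' : ∀ i, Ge M (y' i - y i)) (hM : a < M) (h0 : 0 ≤ M) :
    (Tx.Jx δ y').orderTop = (Tx.Jx δ y).orderTop :=
  jac_ord (θ := fun l => thl 0 (δ l)) (fun _ => Co.ctr_thl _ _) hy hJ hy' hM h0

end Jx

end Vale.Agent.P283R.Jt
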