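import Mathlib

/-!
# P283R, block BE: linear forms which are a reduction at the origin and at infinity
-/

set_option linter.all false

open Set MvPolynomial

noncomputable section

namespace Vale.Agent.P283R.Nn

variable {F : Type} [Field F] [Algebra ℂ F]

section

variable {Γ : Type} [LinearOrderedCommGroupWithZero Γ] {v : Valuation F Γ}

theorem cst_one (hv : ∀ c, v (algebraMap ℂ F c) ≤ 1) {c : ℂ} (hc : c ≠ 0) :
    v (algebraMap ℂ F c) = 1 := by
  refine le_antisymm (hv c) ?_
  have : v (algebraMap ℂ F c) * v (algebraMap ℂ F c⁻¹) = 1 := by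
    rw [← map_mul, ← map_mul, mul_inv_cancel₀ hc, map_one, map_one]
  calc (1 : Γ) = _ := this.symm
    _ ≤ v (algebraMap ℂ F c) * 1 := mul_le_mul_right (hv _) _
    _ = _ := mul_one _

theorem near {ι : Type} (hv : ∀ c, v (algebraMap ℂ F c) ≤ 1) {w : ι → F} {x : ι → ℂ}
    (h : ∀ i, v (w i - algebraMap ℂ F (x i)) < 1) (f : MvPolynomial ι ℂ) :
    v (aeval w f - algebraMap ℂ F (eval x f)) < 1 := by
  induction f using MvPolynomial.induction_on with
  | C a => simp
  | add p q hp hq =>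
    rw [map_add, map_add, map_add, add_sub_add_comm]
    exact v.map_add_lt hp hq
  | mul_X p i hp =>
    have e : aeval w (p * X i) - algebraMap ℂ F (eval x (p * X i)) =
        (aeval w p - algebraMap ℂ F (eval x p)) * (w i - algebraMap ℂ F (x i)) +
          ((aeval w p - algebraMap ℂ F (eval x p)) * algebraMap ℂ F (x i) +
            algebraMap ℂ F (eval x p) * (w i - algebraMap ℂ F (x i))) := by
      simp only [map_mul, aeval_X, eval_X]; ring
    rw [e]
    refine v.map_add_lt ?_ (v.map_add_lt ?_ ?_) <;> rw [map_mul]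
    · exact (mul_le_of_le_one_right' (h i).le).trans_lt hp
    · exact (mul_le_of_le_one_right' (hv _)).trans_lt hp
    · exact (mul_le_of_le_one_left' (hv _)).trans_lt (h i)

theorem span_le {ι : Type} (hv : ∀ c, v (algebraMap ℂ F c) ≤ 1) {s : ι → F} {g : Γ}
    (h : ∀ i, v (s i) ≤ g) {a : F} (ha : a ∈ Submodule.span ℂ (range s)) : v a ≤ g := by
  induction ha using Submodule.span_induction with
  | mem x hx => obtain ⟨i, rfl⟩ := hx; exact h i
  | zero => simp
  | add x y _ _ a b => exact v.map_add_le a b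
  | smul c x _ a =>
    rw [Algebra.smul_def, map_mul]
    exact (mul_le_of_le_one_left' (hv c)).trans a

theorem span_lt {ι : Type} (hv : ∀ c, v (algebraMap ℂ F c) ≤ 1) {s : ι → F}
    (h : ∀ i, v (s i) < 1) {a : F} (ha : a ∈ Submodule.span ℂ (range s)) : v a < 1 := by
  induction ha using Submodule.span_induction with
  | mem x hx => obtain ⟨i, rfl⟩ := hx; exact h i
  | zero => simp
  | add x y _ _ a b => exact v.map_add_lt a b
  | smul c x _ a =>
    rw [Algebra.smul_def, map_mul]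
    exact (mul_le_of_le_one_left' (hv c)).trans_lt a

end

theorem hom_mul {ι : Type} {f : MvPolynomial ι ℂ} {k : ℕ} (hf : f.IsHomogeneous k) (τ : F)
    (w : ι → F) : aeval (fun i => τ * w i) f = τ ^ k * aeval w f := by
  conv_lhs => rw [f.as_sum]
  conv_rhs => rw [f.as_sum]
  rw [map_sum, map_sum, Finset.mul_sum]
  refine Finset.sum_congr rfl fun a ha => ?_
  have : ∑ i ∈ a.support, a i = k := by
    have := hf (mem_support_iff.1 ha)
    simpa [Finsupp.weight_apply, Finsupp.sum] using this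
  simp only [aeval_monomial, Finsupp.prod, mul_pow, Finset.prod_mul_distrib,
    Finset.prod_pow_eq_pow_sum, this]
  ring

/-- `t` is a reduction of `s` at the origin and at infinity -/
def Red {ι κ : Type} (s : ι → F) (t : κ → F) : Prop :=
  ∀ (Γ : Type) [LinearOrderedCommGroupWithZero Γ] (v : Valuation F Γ),
    (∀ c, v (algebraMap ℂ F c) ≤ 1) → ((∀ i, v (s i) < 1) ∨ ∃ i, 1 < v (s i)) →
    ∀ g, (∀ l, v (t l) ≤ g) → ∀ i, v (s i) ≤ g

theorem Red.trans {ι κ μ : Type} {s : ι → F} {t : κ → F} {u : μ → F} (a : Red s t)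
    (ht : ∀ l, t l ∈ Submodule.span ℂ (range s)) (b : Red t u) : Red s u :=
  fun Γ _ v hv h g hg => a Γ v hv h g <| b Γ v hv (by
    rcases h with h | ⟨i, h⟩
    · exact .inl fun l => span_lt hv h (ht l)
    · exact .inr (by_contra fun k => h.not_ge <|
        a Γ v hv (.inr ⟨i, h⟩) 1 (fun l => not_lt.1 fun e => k ⟨l, e⟩) i)) g hg

open Classical in
theorem step {m : ℕ} (s : Fin (m + 1) → F) (G : MvPolynomial (Fin (m + 1)) ℂ) (hG : G ≠ 0)
    (h0 : aeval s G = 0) : ∃ x : Fin m → ℂ, Red s fun i => s i.succ - algebraMap ℂ F (x i) * s 0 := by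
  let K := (Finset.range (G.totalDegree + 1)).filter fun k => homogeneousComponent k G ≠ 0
  have sK : ∑ k ∈ K, homogeneousComponent k G = G := by
    rw [Finset.sum_filter_ne_zero, sum_homogeneousComponent]
  have nK : K.Nonempty := Finset.nonempty_of_sum_ne_zero (sK.symm ▸ hG)
  have : X 0 * ∏ k ∈ K, homogeneousComponent k G ≠ 0 :=
    mul_ne_zero (X_ne_zero _) (Finset.prod_ne_zero_iff.2 fun k hk => (Finset.mem_filter.1 hk).2)
  obtain ⟨x, hx⟩ : ∃ x : Fin (m + 1) → ℂ,
      eval x (X 0 * ∏ k ∈ K, homogeneousComponent k G) ≠ 0 := by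
    by_contra k
    push Not at k
    exact this (MvPolynomial.funext fun x => by rw [k x, map_zero])
  rw [map_mul, eval_X, map_prod, mul_ne_zero_iff, Finset.prod_ne_zero_iff] at hx
  refine ⟨fun i => x i.succ / x 0, fun Γ _ v hv h g hg => ?_⟩
  have x0 : algebraMap ℂ F (x 0) ≠ 0 := (map_ne_zero _).2 hx.1
  set τ := s 0 / algebraMap ℂ F (x 0) with hτ
  have vτ : v τ = v (s 0) := by rw [hτ, map_div₀, cst_one hv hx.1, div_one]
  have he : ∀ i, v (s i - algebraMap ℂ F (x i) * τ) ≤ g := fun i => by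
    refine Fin.cases ?_ (fun i => ?_) i
    · rw [hτ, mul_div_cancel₀ _ x0, sub_self, map_zero]; exact zero_le
    · have : v (s i.succ - algebraMap ℂ F (x i.succ / x 0) * s 0) ≤ g := hg i
      rwa [map_div₀, div_mul_eq_mul_div, mul_div_assoc] at this
  have hs : ∀ g', g ≤ g' → v τ ≤ g' → ∀ i, v (s i) ≤ g' := fun g' a b i => by
    rw [← sub_add_cancel (s i) (algebraMap ℂ F (x i) * τ)]
    refine v.map_add_le ((he i).trans a) ?_
    rw [map_mul]
    exact (mul_le_of_le_one_left' (hv _)).trans b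
  rcases le_or_gt (v τ) g with a | a
  · exact hs g le_rfl a
  exfalso
  have p0 : 0 < v τ := zero_le.trans_lt a
  have τ0 : τ ≠ 0 := fun e => by simp [e] at p0
  have τ1 : v τ ≠ 1 := by
    rcases h with h | ⟨i, h⟩
    · exact (vτ ▸ h 0).ne
    · exact (h.trans_le (hs _ a.le le_rfl i)).ne'
  have hw : ∀ i, v (s i / τ - algebraMap ℂ F (x i)) < 1 := fun i => by
    rw [show s i / τ - algebraMap ℂ F (x i) = (s i - algebraMap ℂ F (x i) * τ) / τ by
      field_simp, map_div₀, div_lt_one₀ p0]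
    exact (he i).trans_lt a
  have hk : ∀ k ∈ K, v (aeval s (homogeneousComponent k G)) = v τ ^ k := fun k hk => by
    have e : s = fun i => τ * (s i / τ) := funext fun i => (mul_div_cancel₀ _ τ0).symm
    have o := cst_one hv (hx.2 k hk)
    have := v.map_eq_of_sub_lt (o ▸ near hv hw (homogeneousComponent k G))
    rw [e, hom_mul (homogeneousComponent_isHomogeneous k G), map_mul, map_pow, this, o, mul_one]
  obtain ⟨k₀, a0, a1⟩ := K.exists_max_image (fun k => v τ ^ k) nK
  have := v.map_sum_eq_of_lt (f := fun k => aeval s (homogeneousComponent k G)) a0 fun k b => by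
    rw [Finset.mem_sdiff, Finset.mem_singleton] at b
    rw [hk k b.1, hk k₀ a0]
    exact (a1 k b.1).lt_of_ne fun e => b.2 (pow_right_injective₀ p0 τ1 e)
  rw [← map_sum, sK, h0, map_zero, hk k₀ a0] at this
  exact (pow_pos p0 _).ne this

/-- **linear Noether normalisation**, at the origin and at infinity -/
theorem nn {d : ℕ} (hd : Algebra.trdeg ℂ F ≤ d) : ∀ (m : ℕ) (s : Fin m → F),
    ∃ t : Fin d → F, (∀ l, t l ∈ Submodule.span ℂ (range s)) ∧ Red s t := by
  have base : ∀ m ≤ d, ∀ s : Fin m → F,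
      ∃ t : Fin d → F, (∀ l, t l ∈ Submodule.span ℂ (range s)) ∧ Red s t := fun m hm s =>
    ⟨fun l => if h : l.1 < m then s ⟨l, h⟩ else 0, fun l => by
      dsimp only
      split_ifs
      exacts [Submodule.subset_span ⟨_, rfl⟩, zero_mem _], fun Γ _ v _ _ g hg i => by
        simpa using hg ⟨i, i.2.trans_le hm⟩⟩
  intro m
  induction m with
  | zero => exact base 0 d.zero_le
  | succ m ih =>
    intro s
    rcases le_or_gt (m + 1) d with h | h
    · exact base _ h s
    have : ¬ AlgebraicIndependent ℂ s := fun k => by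
      have := k.lift_cardinalMk_le_trdeg.trans (Cardinal.lift_le.2 hd)
      simp at this
      norm_cast at this
      omega
    rw [algebraicIndependent_iff] at this
    push Not at this
    obtain ⟨G, h0, hG⟩ := this
    obtain ⟨x, hx⟩ := step s G hG h0
    have m1 : ∀ i : Fin m, s i.succ - algebraMap ℂ F (x i) * s 0 ∈ Submodule.span ℂ (range s) :=
      fun i => sub_mem (Submodule.subset_span ⟨_, rfl⟩) (by
        rw [← Algebra.smul_def]
        exact Submodule.smul_mem _ _ (Submodule.subset_span ⟨_, rfl⟩))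
    obtain ⟨t, a, b⟩ := ih fun i => s i.succ - algebraMap ℂ F (x i) * s 0
    exact ⟨t, fun l => Submodule.span_le.2 (range_subset_iff.2 m1) (a l), hx.trans m1 b⟩

/-- at infinity: integrality -/
theorem Red.int {ι κ : Type} {s : ι → F} {t : κ → F} (h : Red s t) (i : ι) :
    IsIntegral (Algebra.adjoin ℂ (range t)) (s i) := by
  let A := Algebra.adjoin ℂ (range t)
  have : s i ∈ (integralClosure (Subring.closure (A : Set F)) F).toSubring := by
    rw [← iInf_valuationSubring_superset, Subring.mem_iInf]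
    rintro ⟨V, hV⟩
    have hv : ∀ a ∈ A, V.valuation a ≤ 1 := fun a ha => (V.valuation_le_one_iff a).2 (hV ha)
    refine (V.valuation_le_one_iff _).1 (not_lt.1 fun k => k.not_ge ?_)
    exact h _ V.valuation (fun c => hv _ (A.algebraMap_mem c)) (.inr ⟨i, k⟩) 1
      (fun l => hv _ (Algebra.subset_adjoin ⟨l, rfl⟩)) i
  have e : Subring.closure (A : Set F) = A.toSubring := Subring.closure_eq A.toSubring
  rw [e] at this
  exact this

theorem adj_le {Γ : Type} [LinearOrderedCommGroupWithZero Γ] {v : Valuation F Γ} {ι : Type}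
    (hv : ∀ c, v (algebraMap ℂ F c) ≤ 1) {s : ι → F} {g : Γ} (h : ∀ i, v (s i) ≤ g) (g1 : g < 1)
    {a : F} (ha : a ∈ Algebra.adjoin ℂ (range s)) (a1 : v a < 1) : v a ≤ g := by
  have : ∃ c, v (a - algebraMap ℂ F c) ≤ g := by
    clear a1
    induction ha using Algebra.adjoin_induction with
    | mem x hx => obtain ⟨i, rfl⟩ := hx; exact ⟨0, by simpa using h i⟩
    | algebraMap r => exact ⟨r, by simp⟩
    | add x y _ _ a b =>
      obtain ⟨c, a⟩ := a
      obtain ⟨e, b⟩ := b
      exact ⟨c + e, by rw [map_add, add_sub_add_comm]; exact v.map_add_le a b⟩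
    | mul x y _ _ a b =>
      obtain ⟨c, a⟩ := a
      obtain ⟨e, b⟩ := b
      refine ⟨c * e, ?_⟩
      rw [show x * y - algebraMap ℂ F (c * e) = (x - algebraMap ℂ F c) * (y - algebraMap ℂ F e) +
        ((x - algebraMap ℂ F c) * algebraMap ℂ F e + algebraMap ℂ F c * (y - algebraMap ℂ F e)) by
          rw [map_mul]; ring]
      refine v.map_add_le ?_ (v.map_add_le ?_ ?_) <;> rw [map_mul]
      · exact (mul_le_of_le_one_right' (b.trans g1.le)).trans a
      · exact (mul_le_of_le_one_right' (hv _)).trans a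
      · exact (mul_le_of_le_one_left' (hv _)).trans b
  obtain ⟨c, hc⟩ := this
  by_cases c0 : c = 0
  · simpa [c0] using hc
  · have := v.map_sub_lt a1 (hc.trans_lt g1)
    rw [sub_sub_cancel, cst_one hv c0] at this
    exact absurd this (lt_irrefl _)

/-- **the choice of `t`**: `S` is integral over `ℂ[t]`, and `t` is a reduction of `p` -/
theorem nnS {d : ℕ} (hd : Algebra.trdeg ℂ F = d) (S : Subalgebra ℂ F) (hS : S.FG)
    (fr : ∀ a : F, ∃ s t : S, a = s / t) (p : Ideal S)
    (res : ∀ a : S, ∃ c : ℂ, a - algebraMap ℂ S c ∈ p) :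
    ∃ t : Fin d → S, (∀ l, t l ∈ p) ∧ AlgebraicIndependent ℂ (fun l => (t l : F)) ∧
      (∀ a ∈ S, IsIntegral (Algebra.adjoin ℂ (range fun l => (t l : F))) a) ∧
      ∀ (Γ : Type) [LinearOrderedCommGroupWithZero Γ] (v : Valuation F Γ),
        (∀ c, v (algebraMap ℂ F c) ≤ 1) → (∀ a ∈ p, v (a : F) < 1) →
        ∀ g, (∀ l, v (t l : F) ≤ g) → ∀ a ∈ p, v (a : F) ≤ g := by
  obtain ⟨T, hT⟩ := hS
  obtain ⟨m, ⟨e⟩⟩ : ∃ m, Nonempty (Fin m ≃ T) := ⟨_, ⟨T.equivFin.symm⟩⟩
  have mT : ∀ i, (e i : F) ∈ S := fun i => hT ▸ Algebra.subset_adjoin (e i).2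
  choose c hc using fun i => res ⟨e i, mT i⟩
  let s' : Fin m → S := fun i => ⟨e i, mT i⟩ - algebraMap ℂ S (c i)
  let s : Fin m → F := fun i => s' i
  have hs : S ≤ Algebra.adjoin ℂ (range s) := by
    rw [← hT]
    refine Algebra.adjoin_le fun x hx => ?_
    have : x = s (e.symm ⟨x, hx⟩) + algebraMap ℂ F (c (e.symm ⟨x, hx⟩)) := by simp [s, s']
    rw [this]
    exact add_mem (Algebra.subset_adjoin ⟨_, rfl⟩) (Subalgebra.algebraMap_mem _ _)
  obtain ⟨t, ht, r⟩ := nn hd.le m s
  have : ∀ l, ∃ b ∈ p, (b : F) = t l := fun l => by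
    refine Submodule.span_induction (p := fun x _ => ∃ b ∈ p, (b : F) = x) ?_ ?_ ?_ ?_ (ht l)
    · rintro _ ⟨i, rfl⟩
      exact ⟨_, hc i, rfl⟩
    · exact ⟨0, zero_mem _, rfl⟩
    · rintro _ _ _ _ ⟨a, a1, rfl⟩ ⟨b, b1, rfl⟩
      exact ⟨a + b, add_mem a1 b1, rfl⟩
    · rintro k _ _ ⟨a, a1, rfl⟩
      exact ⟨k • a, Submodule.smul_of_tower_mem _ _ a1, rfl⟩
  choose t' t1 t2 using this
  obtain rfl : t = fun l => (t' l : F) := funext fun l => (t2 l).symm
  set A := Algebra.adjoin ℂ (range fun l => (t' l : F)) with hA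
  have hi : ∀ a ∈ S, IsIntegral A a := fun a ha => by
    have : Algebra.adjoin ℂ (range s) ≤ (integralClosure A F).restrictScalars ℂ :=
      Algebra.adjoin_le (range_subset_iff.2 r.int)
    exact this (hs ha)
  have : Algebra.IsAlgebraic A F := ⟨fun a => by
    obtain ⟨x, y, rfl⟩ := fr a
    rw [div_eq_mul_inv]
    exact (hi _ x.2).isAlgebraic.mul (hi _ y.2).isAlgebraic.inv⟩
  refine ⟨t', t1, (Algebra.IsAlgebraic.isTranscendenceBasis_of_lift_le_trdeg_of_finite ℂ _
    (by simp [hd])).1, hi, fun Γ _ v hv hp g hg a ha => ?_⟩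
  rcases le_or_gt 1 g with k | k
  · exact (hp a ha).le.trans k
  · exact adj_le hv (r Γ v hv (.inl fun i => hp _ (hc i)) g hg) k (hs a.2) (hp a ha)

end Vale.Agent.P283R.Nn
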