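import Vale.Agent.P283R.Be2.TwS

/-!
# P283R, block BE: the monodromy of Hahn series
-/

attribute [-instance] HahnSeries.powerSeriesAlgebra

open Complex

noncomputable section

namespace Vale.Agent.P283R.Om

open Co (Ge thl)
open Tx (Zs Jx ev2 Prj)

variable {κ : Type} [Field κ] [Algebra ℂ κ]

/-- the character `g ↦ exp (2 π i s g)` -/
def ch (s g : ℝ) : ℂ := exp (2 * Real.pi * I * (s * g))

theorem ch_add (s g h : ℝ) : ch s (g + h) = ch s g * ch s h := by
  rw [ch, ch, ch, ← exp_add]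
  push_cast
  ring_nf

theorem ch_add' (s s' g : ℝ) : ch (s + s') g = ch s g * ch s' g := by
  rw [ch, ch, ch, ← exp_add]
  push_cast
  ring_nf

theorem ch_zero (s : ℝ) : ch s 0 = 1 := by simp [ch]

theorem ch_zero' (g : ℝ) : ch 0 g = 1 := by simp [ch]

theorem ch_ne (s g : ℝ) : ch s g ≠ 0 := exp_ne_zero _

theorem ch_eq_one {s g : ℝ} : ch s g = 1 ↔ ∃ n : ℤ, s * g = n := by
  rw [ch, exp_eq_one_iff]
  refine exists_congr fun n => ?_
  rw [mul_comm (n : ℂ), mul_right_inj' two_pi_I_ne_zero]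
  exact_mod_cast Iff.rfl

theorem smul_ne {c : ℂ} (hc : c ≠ 0) {x : κ} : c • x ≠ 0 ↔ x ≠ 0 := by simp [hc]

/-- the underlying map -/
def om0 (s : ℝ) (a : HahnSeries ℝ κ) : HahnSeries ℝ κ :=
  ⟨fun g => ch s g • a.coeff g, a.isPWO_support.mono fun g hg h => hg (by simp [h])⟩

theorem supp0 (s : ℝ) (a : HahnSeries ℝ κ) : (om0 s a).support = a.support :=
  Set.ext fun g => smul_ne (ch_ne s g)

theorem om0_om0 (s s' : ℝ) (a : HahnSeries ℝ κ) : om0 s (om0 s' a) = om0 (s + s') a := by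
  ext g
  simp only [om0, ch_add', mul_smul]

theorem om0_zero (a : HahnSeries ℝ κ) : om0 0 a = a := by
  ext g
  simp [om0, ch_zero']

/-- **the monodromy** `∑ a_g τ ^ g ↦ ∑ exp (2 π i s g) a_g τ ^ g` -/
def om (s : ℝ) : HahnSeries ℝ κ ≃ₐ[κ] HahnSeries ℝ κ where
  toFun := om0 s
  invFun := om0 (-s)
  left_inv a := by rw [om0_om0, neg_add_cancel, om0_zero]
  right_inv a := by rw [om0_om0, add_neg_cancel, om0_zero]
  map_add' a b := by ext g; simp [om0]
  map_mul' a b := by
    ext g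
    change ch s g • (a * b).coeff g = _
    rw [HahnSeries.coeff_mul, HahnSeries.coeff_mul, Finset.smul_sum]
    refine Finset.sum_congr (Finset.ext fun ij => by
      simp only [Finset.mem_antidiagonal, supp0]) fun ij hij => ?_
    rw [← (Finset.mem_antidiagonal.1 hij).2.2, ch_add]
    exact (smul_mul_smul_comm _ _ _ _).symm
  commutes' c := by
    ext g
    by_cases h : g = 0 <;> simp [om0, h, ch_zero, HahnSeries.algebraMap_apply]

theorem coeff_om (s : ℝ) (a : HahnSeries ℝ κ) (g : ℝ) : (om s a).coeff g = ch s g • a.coeff g := rfl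

theorem om_om (s s' : ℝ) (a : HahnSeries ℝ κ) : om s (om s' a) = om (s + s') a := om0_om0 s s' a

theorem om_zero (a : HahnSeries ℝ κ) : om 0 a = a := om0_zero a

theorem support_om (s : ℝ) (a : HahnSeries ℝ κ) : (om s a).support = a.support := supp0 s a

theorem ge_om {s r : ℝ} {a : HahnSeries ℝ κ} : Ge r (om s a) ↔ Ge r a := by
  simp only [Co.ge_iff, coeff_om, smul_eq_zero, ch_ne, false_or]

theorem orderTop_om (s : ℝ) (a : HahnSeries ℝ κ) : (om s a).orderTop = a.orderTop := by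
  refine eq_of_forall_le_iff fun c => ?_
  simp only [HahnSeries.le_orderTop_iff_forall, coeff_om, smul_eq_zero, ch_ne, false_or]

theorem om_single (s g : ℝ) (c : κ) :
    om s (HahnSeries.single g c) = ch s g • HahnSeries.single g c := by
  ext h
  by_cases e : h = g <;> simp [coeff_om, e]

/-- `om s` as a `ℂ`-algebra map -/
def omc (s : ℝ) : HahnSeries ℝ κ →ₐ[ℂ] HahnSeries ℝ κ :=
  { (om (κ := κ) s).toRingEquiv.toRingHom with
    commutes' := fun c => by
      have := (om s).commutes (algebraMap ℂ κ c)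
      rw [HahnSeries.algebraMap_apply] at this ⊢
      exact this }

theorem omc_apply (s : ℝ) (a : HahnSeries ℝ κ) : omc s a = om s a := rfl

theorem om_smul (s : ℝ) (c : ℂ) (a : HahnSeries ℝ κ) : om s (c • a) = c • om s a :=
  map_smul (omc s) c a

theorem om_thl (s : ℝ) (l : ℝ →+ κ) (δ : Derivation ℂ κ κ) (a : HahnSeries ℝ κ) :
    om s (thl l δ a) = thl l δ (om s a) := by
  ext g
  simp only [coeff_om, Co.coeff_thl, smul_add, Derivation.map_smul, mul_smul_comm]

theorem om_jx {d : ℕ} (s : ℝ) (δ : Fin d → Derivation ℂ κ κ) (x : Fin d → HahnSeries ℝ κ) :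
    om s (Jx δ x) = Jx δ fun l => om s (x l) := by
  rw [Jx, Jx, AlgEquiv.map_det]
  congr 1
  exact Matrix.ext fun k l => om_thl s 0 (δ k) (x l)

/-- the fixed series -/
theorem om_eq_iff {s : ℝ} {a : HahnSeries ℝ κ} :
    om s a = a ↔ ∀ g, a.coeff g ≠ 0 → ∃ n : ℤ, s * g = n := by
  refine ⟨fun h g hg => ch_eq_one.1 ?_, fun h => HahnSeries.ext (funext fun g => ?_)⟩
  · have := congrArg (fun b => b.coeff g) h
    simp only [coeff_om] at this
    rw [← sub_eq_zero, ← smul_eq_zero_iff_left hg, sub_smul, one_smul, this, sub_self]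
  · by_cases e : a.coeff g = 0
    · simp [coeff_om, e]
    · rw [coeff_om, ch_eq_one.2 (h g e), one_smul]

theorem zs_iff {a : HahnSeries ℝ κ} : Zs a ↔ om 1 a = a := by
  simp only [om_eq_iff, one_mul, Zs]

theorem Zs.om_int {a : HahnSeries ℝ κ} (h : Zs a) (m : ℤ) : om m a = a :=
  om_eq_iff.2 fun g hg => let ⟨n, e⟩ := h g hg; ⟨m * n, by rw [e]; push_cast; rfl⟩

/-- the leading exponent of a series which is fixed to the first order -/
theorem int_of_lt {s v : ℝ} {a : HahnSeries ℝ κ} (hv : a.orderTop = v)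
    (h : (v : WithTop ℝ) < (om s a - a).orderTop) : ∃ n : ℤ, s * v = n := by
  have h0 : a.coeff v ≠ 0 := HahnSeries.coeff_orderTop_ne hv
  have := HahnSeries.coeff_eq_zero_of_lt_orderTop h
  rw [HahnSeries.coeff_sub, coeff_om] at this
  refine ch_eq_one.1 ?_
  rw [← sub_eq_zero, ← smul_eq_zero_iff_left h0, sub_smul, one_smul, this]

theorem int_of_eq {s v : ℝ} {a : HahnSeries ℝ κ} (hv : a.orderTop = v) (h : om s a = a) :
    ∃ n : ℤ, s * v = n := int_of_lt hv (by simp [h])

variable {F : Type} [Field F] [Algebra ℂ F] {d : ℕ}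

theorem map_ev2 {R R' : Type} [CommRing R] [Algebra ℂ R] [CommRing R'] [Algebra ℂ R']
    (φ : R →ₐ[ℂ] R') (t : Fin d → R) (w : R) (G : Polynomial (MvPolynomial (Fin d) ℂ)) :
    φ (ev2 t w G) = ev2 (fun l => φ (t l)) (φ w) G := by
  have : φ.toRingHom.comp (ev2 t w) = ev2 (fun l => φ (t l)) (φ w) :=
    Polynomial.ringHom_ext' (MvPolynomial.ringHom_ext (fun c => by simp [ev2]) fun l => by
      simp [ev2]) (by simp [ev2])
  exact DFunLike.congr_fun this G

/-- two arcs which agree on `t` and `w` are equal -/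
theorem arc_ext {S : Subalgebra ℂ F} {p : Ideal S} {t : Fin d → F} {w : F}
    {Φ : Polynomial (MvPolynomial (Fin d) ℂ)} (h : Prj S p t w Φ) {L : Type} [Field L]
    [Algebra ℂ L] {x x' : F →ₐ[ℂ] L} (ht : ∀ l, x (t l) = x' (t l)) (hw : x w = x' w) : x = x' :=
  AlgHom.ext fun a => by
    obtain ⟨G, H, rfl⟩ := h.top a
    simp only [map_div₀, map_ev2, ht, hw]

/-- all functions have integral exponents -/
theorem zs_all {S : Subalgebra ℂ F} {p : Ideal S} {t : Fin d → F} {w : F}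
    {Φ : Polynomial (MvPolynomial (Fin d) ℂ)} (h : Prj S p t w Φ) {x : F →ₐ[ℂ] HahnSeries ℝ κ}
    (ht : ∀ l, Zs (x (t l))) (hw : Zs (x w)) (a : F) : Zs (x a) :=
  zs_iff.2 (DFunLike.congr_fun (arc_ext h (x := (omc 1).comp x) (x' := x)
    (fun l => zs_iff.1 (ht l)) (zs_iff.1 hw)) a)

end Vale.Agent.P283R.Om
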