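import Vale.Agent.P283R.Be2.Cc
import Vale.Agent.P283R.Be2.Cs
import Vale.Agent.P283R.Be2.Arc

/-!
# P283R, block BE: from the limit down to exact arcs of the levels
-/

attribute [-instance] HahnSeries.powerSeriesAlgebra

open Filter

noncomputable section

namespace Vale.Agent.P283R.Bc

open Co (Ge UK ulim)
open Tx Be2

namespace Dn6

variable {d : ℕ} {R : Type} [CommRing R] [Algebra ℂ R]

theorem ev2_fs (t : Fin d → R) (w : R) (G : MvPolynomial (Fin (d + 1)) ℂ) :
    ev2 t w (MvPolynomial.finSuccEquiv ℂ d G) =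
      MvPolynomial.aeval (Fin.cons w t : Fin (d + 1) → R) G := by
  induction G using MvPolynomial.induction_on with
  | C c =>
    rw [← MvPolynomial.algebraMap_eq, AlgEquiv.commutes, AlgHom.commutes]
    simp [ev2, Polynomial.algebraMap_apply]
  | add p q a b => simp only [map_add, a, b]
  | mul_X p j a =>
    rw [map_mul, map_mul, map_mul, a]
    refine congrArg _ ?_
    refine Fin.cases ?_ (fun l => ?_) j
    · simp [ev2, MvPolynomial.finSuccEquiv_X_zero]
    · simp [ev2, MvPolynomial.finSuccEquiv_X_succ]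

theorem fs_der (G : MvPolynomial (Fin (d + 1)) ℂ) :
    MvPolynomial.finSuccEquiv ℂ d (MvPolynomial.pderiv 0 G) =
      Polynomial.derivative (MvPolynomial.finSuccEquiv ℂ d G) := by
  induction G using MvPolynomial.induction_on with
  | C c =>
    rw [MvPolynomial.pderiv_C, map_zero, ← MvPolynomial.algebraMap_eq, AlgEquiv.commutes,
      Polynomial.algebraMap_apply, Polynomial.derivative_C]
  | add p q a b => simp only [map_add, a, b]
  | mul_X p j a =>
    rw [Derivation.leibniz, smul_eq_mul, smul_eq_mul, map_add, map_mul, map_mul, map_mul,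
      Polynomial.derivative_mul, a]
    refine Fin.cases ?_ (fun l => ?_) j
    · simp [MvPolynomial.finSuccEquiv_X_zero]
      ring
    · simp [MvPolynomial.finSuccEquiv_X_succ, Fin.succ_ne_zero]
      ring

theorem ulim_congr {N : ℕ} {𝒰 : Ultrafilter ℕ} {f g : ℕ → MvPowerSeries (Fin N) ℂ}
    (h : ∀ᶠ i in (𝒰 : Filter ℕ), f i = g i) : ulim 𝒰 f = ulim 𝒰 g :=
  funext fun _ => Germ.coe_eq.2 (h.mono fun _ e => congrArg _ e)

theorem ord_sub {κ : Type} [Field κ] {a b : HahnSeries ℝ κ} {u v : ℝ} (ha : a.orderTop = u)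
    (h : (a * b).orderTop = v) : b.orderTop = (v - u : ℝ) := by
  rw [HahnSeries.orderTop_mul, ha] at h
  induction hb : b.orderTop with
  | top => simp [hb] at h
  | coe r =>
    rw [hb, ← WithTop.coe_add, WithTop.coe_inj] at h
    rw [← h, add_sub_cancel_left]

theorem ge_sub {κ : Type} [Field κ] {a b : HahnSeries ℝ κ} {u v : ℝ} (ha : a.orderTop = u)
    (h : Ge (v + u) (a * b)) : Ge v b := by
  unfold Ge at h ⊢
  rw [HahnSeries.orderTop_mul, ha, WithTop.coe_add, add_comm] at h
  exact (WithTop.add_le_add_iff_left WithTop.coe_ne_top).1 h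

end Dn6

open Dn6

theorem dn_of (h1 : DNY) (h2 : EXA) : DN := by
  intro d N q k₀ κv 𝒰 X d0 q0 hX a Z o μ ib n1 n2 K
  let G : Ix N → ℕ → MvPolynomial (Fin (d + 1)) ℂ := fun b i =>
    b.elim (MvPolynomial.pderiv 0 (X i).pol) fun b' => (X i).G (some b')
  have eG : ∀ᶠ i in (𝒰 : Filter ℕ), ∀ b, G b i = (X i).G b := hX.mono fun i h b => by
    cases b with
    | none => exact h.g0.symm
    | some b => rfl
  have eL : LF 𝒰 X = fun b => ulim 𝒰 fun i => (G b i : MvPowerSeries (Fin (d + 1)) ℂ) :=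
    funext fun b => ulim_congr (eG.mono fun i h => by rw [h b]; rfl)
  obtain ⟨K', k1⟩ := exists_nat_ge (K + o none)
  have μ0 : (0 : ℝ) < μ := by
    obtain ⟨_, _, _, _, _, -, h, -⟩ := ib
    exact_mod_cast h
  rw [eL] at ib
  have ko : ∀ b, o b < K' + ∑ b, o b + 1 := fun b => by
    have := Finset.single_le_sum (f := o) (fun _ _ => Nat.zero_le _) (Finset.mem_univ b)
    omega
  filter_upwards [hX, eG, h1 d (Ix N) 𝒰 (fun i => (X i).pol) G none a Z o μ (K' + ∑ b, o b + 1)
    (fun _ => rfl) ib n1] with i h e ⟨κ, _, _, x', δ, x1, x2, x3, x4, x5⟩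
  simp only [e] at x4 x5
  have c : (Fin.cons (x' 0) fun l => x' l.succ : Fin (d + 1) → _) = x' := Fin.cons_self_tail x'
  obtain ⟨x, y1, y2⟩ := h2 d _ κ _ _ _ _ _ δ (fun l => x' l.succ) (x' 0) h.lev.prj
    (fun z => by simp [z] at x3) (by
      rw [← (MvPolynomial.finSuccEquiv ℂ d).apply_symm_apply (X i).Φ, ev2_fs, c]
      exact x2)
  have ev : ∀ G : MvPolynomial (Fin (d + 1)) ℂ, x (MvPolynomial.aeval
      (Fin.cons (X i).w (X i).t : Fin (d + 1) → (X i).F) G) = MvPolynomial.aeval x' G := fun G => by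
    rw [MvPolynomial.comp_aeval_apply]
    exact congrArg (MvPolynomial.aeval · G) (funext fun j => Fin.cases y2 y1 j)
  have arc : Arc (X i).S (X i).p x := Barc.arc_of h.lev.prj
    (fun q a b c => h.sk.only q a fun s hs => by
      rcases hs with ⟨l, e⟩ | e
      · obtain ⟨s', u, v⟩ := b l
        exact (Subtype.ext (v.trans e.symm) : s' = s) ▸ u
      · obtain ⟨s', u, v⟩ := c
        exact (Subtype.ext (v.trans e.symm) : s' = s) ▸ u) x
    (fun l => (y1 l).symm ▸ lt_of_lt_of_le (by exact_mod_cast μ0) (x1 _).2)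
    (y2.symm ▸ lt_of_lt_of_le (by exact_mod_cast μ0) (x1 _).2)
  have dd : (x (X i).dd).orderTop = ((o none : ℝ) : WithTop ℝ) := by
    rw [← x5 none n1 (ko _), h.g0, ← ev, ← ev2_fs, fs_der, Dt.pol, AlgEquiv.apply_symm_apply]
    rfl
  refine ⟨κ, inferInstance, inferInstance, δ, x, arc, fun l => (y1 l).symm ▸ (x1 _).1,
    y2.symm ▸ (x1 _).1, by simpa only [y1] using x3, dd, ?_, fun j hj => ?_, fun j hj => ?_,
    fun l => (y1 l).symm ▸ (x1 _).2⟩
  · obtain ⟨s, s1, s2⟩ := h.s0
    have k := x5 _ n2 (ko _)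
    rw [← ev, h.g1, map_mul] at k
    have k2 := ord_sub dd k
    rw [map_mul, HahnSeries.orderTop_mul, ← s2, Barc.ord_zero arc h.lev.pt.res s1, zero_add] at k2
    exact k2
  · have k := x5 _ hj (ko _)
    rw [← ev, h.g2, map_mul] at k
    exact ord_sub dd k
  · have k := x4 _ hj
    rw [← ev, h.g2, map_mul] at k
    refine ge_sub dd (k.mono (k1.trans ?_))
    exact_mod_cast (by omega : K' ≤ K' + ∑ b, o b + 1)

end Vale.Agent.P283R.Bc
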