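import Vale.Agent.P283R.Tp.St
import Vale.Agent.P283M.Kl.Bas
import Vale.Agent.P283R.Br.Opn
import Vale.Agent.P287D.Hd.Ln

/-!
# P283R, block BE: the Skoda step, statements
-/

open Set

noncomputable section

namespace Vale.Agent.P283R.Sk1

open Vale.Agent.P287D Vale.Agent.P283M

variable {K : Type} [Field K] [Algebra ℂ K] {n : ℕ}

/-- `f` is an adjoint function up to poles at infinity -/
def Cd (y : Fin n → K) (m : ℕ) (w : K) (v : Finset K) (c : ℝ) (f : K) : Prop :=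
  f = 0 ∨ ∀ R : Pl K, 0 < ld y m w R + c * inf v R + R.ord f

/-- the adjoint functions lie in `A` -/
def Top (y : Fin n → K) (m : ℕ) (w : K) (v : Finset K) (A : Subalgebra ℂ K) : Prop :=
  ∀ (c : ℝ) (f : K), 0 ≤ c → Cd y m w v c f → f ∈ A

theorem inf_le {v : Finset K} {R : Pl K} {k : ℤ} (h0 : 0 ≤ k)
    (h : ∀ a ∈ v, a ≠ 0 → -R.ord a ≤ k) : inf v R ≤ k := by
  classical
  have := R.mz_le (s := insert 1 v) (k := k) ⟨1, Finset.mem_insert_self _ _, one_ne_zero⟩
    fun f hf f0 => by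
      rcases Finset.mem_insert.1 hf with rfl | hf
      · simpa using h0
      · exact h f hf f0
  simpa only [inf, mx, Int.cast_le] using this

theorem le_inf {v : Finset K} (R : Pl K) {a : K} (ha : a ∈ v) (a0 : a ≠ 0) :
    -(R.ord a : ℝ) ≤ inf v R := by
  classical
  have := R.le_mz (s := insert 1 v) (Finset.mem_insert_of_mem ha) a0
  simp only [inf, mx]
  exact_mod_cast this

theorem inf_int (v : Finset K) (R : Pl K) : ∃ k : ℤ, 0 ≤ k ∧ inf v R = k :=
  ⟨_, by simpa only [inf, mx, Pi.zero_apply, Int.cast_nonneg_iff] using Kl.inf_nn v R, rfl⟩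

theorem inf_mono {v v' : Finset K} (h : v ⊆ v') (R : Pl K) : inf v R ≤ inf v' R := by
  obtain ⟨k, k0, e⟩ := inf_int v' R
  rw [e]
  exact inf_le k0 fun a ha a0 => by exact_mod_cast (le_inf R (h ha) a0).trans_eq e

/-- the poles of a regular function -/
theorem pole {v : Finset K} {a : K} (ha : a ∈ Algebra.adjoin ℂ (v : Set K)) (a0 : a ≠ 0) :
    ∃ k : ℝ, 0 < k ∧ ∀ R : Pl K, -(R.ord a : ℝ) ≤ k * inf v R := by
  classical
  obtain ⟨k, k0, h⟩ := Br.sec_adj (u := insert 1 v) (Finset.mem_insert_self _ _)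
    (Algebra.adjoin_mono (by simp) ha)
  refine ⟨k, k0, fun R => ?_⟩
  have := h.resolve_left a0 R
  simp only [Pi.add_apply, Pi.smul_apply, Pi.zero_apply, dv, smul_eq_mul] at this
  simp only [inf]
  linarith

open Classical in
/-- **LINE**: the product with the affine line -/
def LINE : Prop := ∀ (n : ℕ) (K L : Type) [Field K] [Algebra ℂ K] [Field L] [Algebra ℂ L]
  [Algebra K L] [IsScalarTower ℂ K L] (z : L) (y : Fin n → K) (m : ℕ) (w : K) (v : Finset K)
  (A : Subalgebra ℂ K), FF K n → Hd.Ru K z → AlgebraicIndependent ℂ y → w ≠ 0 → Top y m w v A →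
    ∀ (c : ℝ) (f : L), 0 ≤ c →
      Cd (Hd.Ln.cw y z) m (algebraMap K L w) (insert z (v.image (algebraMap K L))) c f →
      ∃ a : Polynomial K, (∀ j, a.coeff j ∈ A) ∧ f = Polynomial.aeval z a

open Classical in
/-- **BLOW**: one chart of a blow up -/
def BLOW : Prop := ∀ (n : ℕ) (K : Type) [Field K] [Algebra ℂ K] (y : Fin n → K) (m : ℕ) (w : K)
  (v : Finset K) (A : Subalgebra ℂ K) (s t : K), FF K n → AlgebraicIndependent ℂ y → 0 < m →
    w ≠ 0 → (∀ a : K, ∃ b ∈ Algebra.adjoin ℂ (v : Set K), ∃ c ∈ Algebra.adjoin ℂ (v : Set K),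
      a = b / c) → s ∈ Algebra.adjoin ℂ (v : Set K) → t ∈ Algebra.adjoin ℂ (v : Set K) → t ≠ 0 →
    Top y m w v A →
    Top y m (w * t ^ m) (insert (s / t) v) (Algebra.adjoin ℂ (insert (s / t) (A : Set K)))

/-- **TWI**: a pair which is klt near `p` is klt after a twist -/
def TWI : Prop := ∀ (n : ℕ) (K : Type) [Field K] [Algebra ℂ K] (S : Subalgebra ℂ K) (p : Ideal S)
  (y : Fin n → K) (m : ℕ) (h : K) (v : Finset K), FF K n → p.IsPrime → AlgebraicIndependent ℂ y →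
    h ≠ 0 → Algebra.adjoin ℂ (v : Set K) = S → (∀ R, Thp S {p} R → 0 < ld y m h R) →
    ∃ g : S, g ∉ p ∧ ∃ c : ℝ, 0 ≤ c ∧ ∀ R : Pl K, 0 < ld y m h R + c * inf v R + R.ord g

/-- **SK1**: the theorem of Skoda on a klt germ -/
def SK1 : Prop := ∀ (n k : ℕ) (K : Type) [Field K] [Algebra ℂ K] (S : Subalgebra ℂ K) (p : Ideal S)
  (y : Fin n → K) (m : ℕ) (h : K) (t₀ : S) (t : Fin k → S), Aff n S → IsIntegrallyClosed S →
    p.IsPrime → Frm y → 0 < m → h ≠ 0 → t₀ ≠ 0 → (∀ R, PDat S p R → ld y m h R ≤ 1) →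
    (∀ R, Thp S {p} R → 0 < ld y m h R) → ∀ x : K,
      IsIntegral (Algebra.adjoin ℂ ((S : Set K) ∪ range fun l => (t l : K) / t₀)) x →
      ∃ g : S, g ∉ p ∧
        g * (t₀ : K) ^ k * x ∈ Algebra.adjoin ℂ ((S : Set K) ∪ range fun l => (t l : K) / t₀)

end Vale.Agent.P283R.Sk1
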