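import Vale.Agent.P283R.Be2.Sk2a
import Mathlib.GroupTheory.CosetCover
import Mathlib.FieldTheory.Minpoly.IsIntegrallyClosed
import Mathlib.Analysis.Complex.Basic
import Mathlib.LinearAlgebra.Dimension.Constructions
import Mathlib.Algebra.BigOperators.Field

/-!
# A primitive element whose different has bounded order at an embedding centred at a point
-/

open Polynomial

namespace Vale.Agent.P283R.Sk2

variable {O k F Ω Γ : Type*} [CommRing O] [IsDomain O] [IsPrincipalIdealRing O] [Field k]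
  [CharZero k] [Algebra O k] [IsFractionRing O k] [Field F] [Algebra k F] [Algebra O F]
  [IsScalarTower O k F] [FiniteDimensional k F] [Field Ω] [IsAlgClosed Ω] [Algebra k Ω]
  [LinearOrderedCommGroupWithZero Γ] {v : Valuation Ω Γ}
  [Algebra ℂ k] [Algebra ℂ F] [IsScalarTower ℂ k F] {S : Subalgebra ℂ F} {p : Ideal S} {N : ℕ}

/-- the embedding is centred at `p` -/
def Loc (v : Valuation Ω Γ) (p : Ideal S) (σ : F →ₐ[k] Ω) : Prop := ∀ a ∈ p, v (σ (a : F)) < 1

/-- the data at a closed point -/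
structure Dat (O : Type*) [CommRing O] [Algebra O k] [Algebra O F] (v : Valuation Ω Γ) (t : k)
    (S : Subalgebra ℂ F) (p : Ideal S) (z : Fin N → F) (e : ℕ) : Prop where
  vo : Vo O k v
  t0 : t ≠ 0
  t1 : v (algebraMap k Ω t) < 1
  pri : p.IsPrime
  res : ∀ a : S, ∃ c : ℂ, a - algebraMap ℂ S c ∈ p
  mem : ∀ j, ∃ s ∈ p, (s : F) = z j
  gen : ∀ a ∈ p, ∃ c : Fin N → F, (∀ j, ∃ s u : S, u ∉ p ∧ c j = s / u) ∧ (a : F) = ∑ j, c j * z j
  int : ∀ a ∈ S, IsIntegral O a
  red : ∀ σ : F →ₐ[k] Ω, Loc v p σ → ∀ a ∈ p, v (σ (a : F)) ≤ v (algebraMap k Ω t)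
  sk1 : ∀ x : F, IsIntegral O x → ∃ g : S, g ∉ p ∧
    algebraMap k F t ^ e * g * x ∈ Submodule.span O (S : Set F)

/-- the constants -/
def cs (k Ω : Type*) [Field k] [Field Ω] [Algebra k Ω] [Algebra ℂ k] : ℂ →+* Ω :=
  (algebraMap k Ω).comp (algebraMap ℂ k)

/-- words in `1, z` -/
def mon (z : Fin N → F) (m : ℕ) (w : Fin m → Option (Fin N)) : F := ∏ i, (w i).elim 1 z

section

omit [CharZero k] [FiniteDimensional k F] [IsAlgClosed Ω]

theorem map_cs (σ : F →ₐ[k] Ω) (c : ℂ) : σ (algebraMap ℂ F c) = cs k Ω c := by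
  rw [IsScalarTower.algebraMap_apply ℂ k F, σ.commutes]; rfl

theorem map_sm (σ : F →ₐ[k] Ω) (c : ℂ) (x : F) : σ (c • x) = cs k Ω c * σ x := by
  rw [Algebra.smul_def, map_mul, map_cs]

end

variable {t : k} {z : Fin N → F} {e : ℕ}

namespace Dat

section

omit [IsDomain O] [IsPrincipalIdealRing O] [CharZero k] [IsFractionRing O k]
  [FiniteDimensional k F] [IsAlgClosed Ω]

omit [Algebra ℂ k] [IsScalarTower ℂ k F] in
theorem le (h : Dat O v t S p z e) (σ : F →ₐ[k] Ω) (a : S) : v (σ (a : F)) ≤ 1 :=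
  le_of_int h.vo (h.int a a.2) σ

theorem cle (h : Dat O v t S p z e) (σ : F →ₐ[k] Ω) (c : ℂ) : v (cs k Ω c) ≤ 1 := by
  rw [← map_cs σ]; exact h.le σ (algebraMap ℂ S c)

theorem ceq (h : Dat O v t S p z e) (σ : F →ₐ[k] Ω) {c : ℂ} (hc : c ≠ 0) : v (cs k Ω c) = 1 := by
  refine le_antisymm (h.cle σ c) ?_
  have h1 := h.cle σ c⁻¹
  rw [map_inv₀, map_inv₀] at h1
  have h0 : v (cs k Ω c) ≠ 0 := by simpa using hc
  exact (inv_le_one₀ (zero_lt_iff.2 h0)).1 h1

theorem hq (h : Dat O v t S p z e) (σ : F →ₐ[k] Ω) (n : ℕ) (hn : n ≠ 0) : v (n : Ω) = 1 := by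
  rw [← map_natCast (cs k Ω)]
  exact h.ceq σ (by exact_mod_cast hn)

theorem unit (h : Dat O v t S p z e) {σ : F →ₐ[k] Ω} (hσ : Loc v p σ) {u : S} (hu : u ∉ p) :
    v (σ (u : F)) = 1 := by
  obtain ⟨c, hc⟩ := h.res u
  have h0 : c ≠ 0 := by
    rintro rfl
    exact hu (by simpa using hc)
  have h1 := hσ _ hc
  have h2 := v.map_add_eq_of_lt_left (x := cs k Ω c) (y := σ ((u - algebraMap ℂ S c : S) : F))
    (by rw [h.ceq σ h0]; exact h1)
  rw [h.ceq σ h0, ← map_cs σ, ← map_add] at h2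
  simpa using h2

theorem step (h : Dat O v t S p z e) {x : F} (hx : ∃ s u : S, u ∉ p ∧ x = s / u) :
    ∃ (c : ℂ) (b : Fin N → F), (∀ j, ∃ s u : S, u ∉ p ∧ b j = s / u) ∧
      x = algebraMap ℂ F c + ∑ j, b j * z j := by
  obtain ⟨s, u, hu, rfl⟩ := hx
  obtain ⟨c₁, h₁⟩ := h.res s
  obtain ⟨c₂, h₂⟩ := h.res u
  have h0 : c₂ ≠ 0 := by
    rintro rfl
    exact hu (by simpa using h₂)
  have hu0 : (u : F) ≠ 0 := fun e => hu (by rw [show u = 0 from Subtype.ext e]; exact p.zero_mem)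
  have hm : s - algebraMap ℂ S (c₁ / c₂) * u ∈ p := by
    have := p.sub_mem h₁ (p.mul_mem_left (algebraMap ℂ S (c₁ / c₂)) h₂)
    rwa [mul_sub, ← map_mul, div_mul_cancel₀ _ h0, sub_sub_sub_cancel_right] at this
  obtain ⟨b, hb, e⟩ := h.gen _ hm
  refine ⟨c₁ / c₂, fun j => b j / u, fun j => ?_, ?_⟩
  · obtain ⟨s', u', hu', e'⟩ := hb j
    refine ⟨s', u' * u, fun h' => (h.pri.mem_or_mem h').elim hu' hu, ?_⟩
    change b j / u = _
    rw [e', div_div, Subalgebra.coe_mul]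
  · simp_rw [div_mul_eq_mul_div]
    rw [← Finset.sum_div, ← e, Subalgebra.coe_sub, Subalgebra.coe_mul, Subalgebra.coe_algebraMap]
    field_simp
    ring

theorem expand (h : Dat O v t S p z e) (m : ℕ) : ∀ x : F, (∃ s u : S, u ∉ p ∧ x = s / u) →
    ∃ f ∈ Submodule.span ℂ (Set.range (mon z m)), ∀ σ : F →ₐ[k] Ω, Loc v p σ →
      v (σ (x - f)) ≤ v (algebraMap k Ω t) ^ m := by
  induction m with
  | zero =>
    rintro x ⟨s, u, hu, rfl⟩
    refine ⟨0, zero_mem _, fun σ hσ => ?_⟩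
    rw [sub_zero, map_div₀, map_div₀, h.unit hσ hu, div_one, pow_zero]
    exact h.le σ s
  | succ m ih =>
    intro x hx
    obtain ⟨c, b, hb, rfl⟩ := h.step hx
    choose f hf hf' using fun j => ih (b j) (hb j)
    refine ⟨algebraMap ℂ F c + ∑ j, f j * z j, add_mem ?_ (sum_mem fun j _ => ?_), fun σ hσ => ?_⟩
    · rw [Algebra.algebraMap_eq_smul_one]
      exact Submodule.smul_mem _ _ (Submodule.subset_span ⟨fun _ => none, by simp [mon]⟩)
    · refine Submodule.span_induction (p := fun g _ => g * z j ∈ _) ?_ ?_ ?_ ?_ (hf j)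
      · rintro _ ⟨w, rfl⟩
        refine Submodule.subset_span ⟨Fin.cons (some j) w, ?_⟩
        simp [mon, Fin.prod_univ_succ, mul_comm]
      · simp
      · intro a b _ _ ha hb
        rw [add_mul]; exact add_mem ha hb
      · intro c a _ ha
        rw [smul_mul_assoc]; exact Submodule.smul_mem _ _ ha
    · rw [add_sub_add_left_eq_sub, ← Finset.sum_sub_distrib, map_sum]
      refine v.map_sum_le fun j _ => ?_
      obtain ⟨s, hs, e⟩ := h.mem j
      rw [← sub_mul, map_mul, map_mul, pow_succ, ← e]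
      exact mul_le_mul' (hf' j σ hσ) (h.red σ hσ s hs)

theorem spn [Fintype (F →ₐ[k] Ω)] (h : Dat O v t S p z e) (c : (F →ₐ[k] Ω) → Ω) {γ : Γ}
    (hc : ∀ a : S, v (∑ σ, c σ * σ (a : F)) ≤ γ) (u : F) (hu : u ∈ Submodule.span O (S : Set F)) :
    ∀ a : S, v (∑ σ, c σ * σ ((a : F) * u)) ≤ γ := by
  induction hu using Submodule.span_induction with
  | mem u hu => exact fun a => hc ⟨a * u, mul_mem a.2 hu⟩
  | zero =>
    intro a
    rw [mul_zero, Finset.sum_eq_zero fun σ _ => by rw [map_zero, mul_zero], map_zero]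
    exact zero_le
  | add u u' _ _ h1 h2 =>
    intro a
    rw [Finset.sum_congr rfl fun σ _ => by rw [mul_add, map_add, mul_add], Finset.sum_add_distrib]
    exact v.map_add_le (h1 a) (h2 a)
  | smul o u _ h1 =>
    intro a
    have : ∀ σ : F →ₐ[k] Ω, c σ * σ (a * o • u)
        = algebraMap k Ω (algebraMap O k o) * (c σ * σ (a * u)) := fun σ => by
      rw [mul_smul_comm, Algebra.smul_def, map_mul, IsScalarTower.algebraMap_apply O k F,
        σ.commutes]
      ring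
    rw [Finset.sum_congr rfl fun σ _ => this σ, ← Finset.mul_sum, map_mul]
    exact mul_le_of_le_one_of_le ((h.vo _).2 ⟨o, rfl⟩) (h1 a)

end

/-- the key lemma -/
theorem key (h : Dat O v t S p z e) (c : (F →ₐ[k] Ω) → Ω)
    (hc : ∀ a : S, v (∑ σ, c σ * σ (a : F)) ≤ v (algebraMap k Ω t) ^ (e + 1)) {σ₀ : F →ₐ[k] Ω}
    (h0 : Loc v p σ₀) : v (c σ₀) < 1 := by
  obtain ⟨n, x, hx, hs⟩ := sep (F := F) h.vo (h.hq σ₀) h.t0 h.t1
  choose g hg hg' using fun i => h.sk1 (x i) (hx i)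
  have hG : ∏ i, g i ∉ p := fun h' => by
    have := h.pri
    obtain ⟨i, -, hi⟩ := Ideal.IsPrime.prod_mem_iff.1 h'
    exact hg i hi
  have h1 := h.spn c hc
  have ht : v (algebraMap k Ω t) ≠ 0 := by simpa using h.t0
  have h2 := hs (fun σ => c σ * σ ((∏ i, g i : S) : F)) (fun i => by
    classical
    have h3 := h1 _ (hg' i) (∏ j ∈ Finset.univ.erase i, g j)
    have : ∀ σ : F →ₐ[k] Ω, c σ * σ (((∏ j ∈ Finset.univ.erase i, g j : S) : F) *
        (algebraMap k F t ^ e * g i * x i))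
        = algebraMap k Ω t ^ e * (c σ * σ ((∏ i, g i : S) : F) * σ (x i)) := fun σ => by
      rw [← Finset.prod_erase_mul _ _ (Finset.mem_univ i), Subalgebra.coe_mul]
      simp only [map_mul, map_pow, σ.commutes]
      ring
    rw [Finset.sum_congr rfl fun σ _ => this σ, ← Finset.mul_sum, map_mul, map_pow,
      pow_succ] at h3
    exact le_of_mul_le_mul_left h3 (zero_lt_iff.2 (pow_ne_zero _ ht))) σ₀
  rwa [map_mul, h.unit h0 hG, mul_one] at h2

open Classical in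
/-- the number of the embeddings centred at the point is bounded -/
theorem count (h : Dat O v t S p z e) :
    (Finset.univ.filter fun σ : F →ₐ[k] Ω => Loc v p σ).card ≤ (N + 1) ^ (e + 1) := by
  by_contra hlt
  have hdep : ¬ LinearIndependent Ω fun (σ : {σ : F →ₐ[k] Ω // Loc v p σ})
      (w : Fin (e + 1) → Option (Fin N)) => σ.1 (mon z (e + 1) w) := fun hi => by
    have := hi.fintype_card_le_finrank
    rw [Module.finrank_fintype_fun_eq_card, Fintype.card_subtype] at this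
    simp at this
    exact hlt this
  obtain ⟨g, hg, σ₂, h2⟩ := Fintype.not_linearIndependent_iff.1 hdep
  have : Nonempty {σ : F →ₐ[k] Ω // Loc v p σ} := ⟨σ₂⟩
  obtain ⟨σ₁, h1⟩ := Finite.exists_max fun σ => v (g σ)
  have h0 : g σ₁ ≠ 0 := fun e => h2 (by simpa [e] using h1 σ₂)
  let c : (F →ₐ[k] Ω) → Ω := fun σ => if hσ : Loc v p σ then g ⟨σ, hσ⟩ / g σ₁ else 0
  have hs : ∀ x : F, ∑ σ, c σ * σ x = ∑ σ : {σ : F →ₐ[k] Ω // Loc v p σ}, g σ / g σ₁ * σ.1 x :=
    fun x => by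
      rw [← Finset.sum_filter_of_ne (p := fun σ : F →ₐ[k] Ω => Loc v p σ) fun σ _ hσ => by
        by_contra h'
        simp [c, h'] at hσ, Finset.sum_subtype _ (p := fun σ : F →ₐ[k] Ω => Loc v p σ) (by simp)]
      exact Finset.sum_congr rfl fun σ _ => by simp [c, σ.2]
  have h3 := h.key c (fun a => ?_) σ₁.2
  · simp [c, σ₁.2, h0] at h3
  obtain ⟨f, hf, hf'⟩ := h.expand (e + 1) a
    ⟨a, 1, (Ideal.ne_top_iff_one _).1 h.pri.ne_top, by simp⟩
  have h4 : ∑ σ : {σ : F →ₐ[k] Ω // Loc v p σ}, g σ / g σ₁ * σ.1 f = 0 := by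
    refine Submodule.span_induction (p := fun f _ =>
      ∑ σ : {σ : F →ₐ[k] Ω // Loc v p σ}, g σ / g σ₁ * σ.1 f = 0) ?_ ?_ ?_ ?_ hf
    · rintro _ ⟨w, rfl⟩
      have := congrFun hg w
      simp only [Finset.sum_apply, Pi.smul_apply, smul_eq_mul, Pi.zero_apply] at this
      simp_rw [div_mul_eq_mul_div]
      rw [← Finset.sum_div, this, zero_div]
    · simp
    · intro a b _ _ ha hb
      simp_rw [map_add, mul_add]
      rw [Finset.sum_add_distrib, ha, hb, add_zero]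
    · intro r a _ ha
      simp_rw [map_sm, mul_left_comm _ (cs k Ω r)]
      rw [← Finset.mul_sum, ha, mul_zero]
  rw [hs, ← sub_zero (∑ σ, _), ← h4, ← Finset.sum_sub_distrib]
  refine v.map_sum_le fun σ _ => ?_
  rw [← mul_sub, ← map_sub, map_mul, map_div₀]
  exact mul_le_of_le_one_of_le (div_le_one_of_le₀ (h1 σ) zero_le) (hf' σ.1 σ.2)

/-- two embeddings centred at the point are separated to bounded order -/
theorem sepa (h : Dat O v t S p z e) {σ₀ σ : F →ₐ[k] Ω} (h0 : Loc v p σ₀) (hne : σ ≠ σ₀) :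
    ∃ a ∈ p, v (algebraMap k Ω t) ^ (e + 1) < v (σ₀ (a : F) - σ (a : F)) := by
  classical
  by_contra hc
  push Not at hc
  have := h.key (fun s => (if s = σ₀ then 1 else 0) - if s = σ then 1 else 0) (fun a => ?_) h0
  · simp [hne.symm] at this
  obtain ⟨c, hc'⟩ := h.res a
  have h1 := hc _ hc'
  simp only [sub_mul, ite_mul, one_mul, zero_mul, Finset.sum_sub_distrib, Finset.sum_ite_eq',
    Finset.mem_univ, if_true]
  rwa [Subalgebra.coe_sub, Subalgebra.coe_algebraMap, map_sub σ₀, map_sub σ, map_cs, map_cs,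
    sub_sub_sub_cancel_right] at h1

omit [IsDomain O] [IsPrincipalIdealRing O] [IsFractionRing O k] [IsAlgClosed Ω] [CharZero k]
  [FiniteDimensional k F] in
theorem avoid (h : Dat O v t S p z e) (q : Ideal S) {ι : Type*} [Finite ι] (σ₀ : F →ₐ[k] Ω)
    (l : ι → F →+ Ω) (hl : ∀ i c x, l i (c • x) = cs k Ω c * l i x) (β : ι → Γ)
    (hβ : ∀ i, β i ≠ 0) (hx : ∀ i, ∃ a ∈ q, β i ≤ v (l i (a : F))) :
    ∃ y ∈ q, ∀ i, β i ≤ v (l i (y : F)) := by
  let W : ι → Submodule ℂ q := fun i =>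
    { carrier := {a | v (l i ((a : S) : F)) < β i}
      add_mem' := fun {a b} ha hb => by
        change v (l i (((a : S) : F) + (b : S))) < β i
        rw [map_add]; exact v.map_add_lt ha hb
      zero_mem' := by
        change v (l i 0) < β i
        simpa [zero_lt_iff] using hβ i
      smul_mem' := fun c a ha => by
        change v (l i (c • ((a : S) : F))) < β i
        rw [hl, map_mul]
        exact mul_lt_of_le_one_of_lt (h.cle σ₀ c) ha }
  by_contra hc
  push Not at hc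
  obtain ⟨i, hi⟩ := Subspace.exists_eq_top_of_iUnion_eq_univ (p := W)
    (Set.eq_univ_of_forall fun a => Set.mem_iUnion.2 (hc a a.2))
  obtain ⟨a, ha, h1⟩ := hx i
  have : (⟨a, ha⟩ : q) ∈ W i := hi ▸ Submodule.mem_top
  exact absurd h1 (not_le.2 this)

omit [IsDomain O] [IsPrincipalIdealRing O] [IsFractionRing O k] [IsAlgClosed Ω] [CharZero k] in
theorem ex_loc (h : Dat O v t S p z e) {q : Ideal S}
    (nm : ∀ a ∈ q, ∃ σ : F →ₐ[k] Ω, v (σ (a : F)) < 1) : ∃ σ : F →ₐ[k] Ω, Loc v q σ := by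
  by_contra hc
  simp only [Loc, not_exists, not_forall, not_lt] at hc
  obtain ⟨σ₀, -⟩ := nm 0 q.zero_mem
  obtain ⟨y, hy, h1⟩ := h.avoid q σ₀ (fun σ : F →ₐ[k] Ω => (σ : F →+* Ω).toAddMonoidHom)
    (fun σ => map_sm σ) (fun _ => 1) (fun _ => one_ne_zero) fun σ => by
      obtain ⟨a, ha, h⟩ := hc σ
      exact ⟨a, ha, h⟩
  obtain ⟨σ, hσ⟩ := nm y hy
  exact absurd (h1 σ) (not_le.2 hσ)

/-- the main statement at a given embedding -/
theorem main (h : Dat O v t S p z e) {σ₀ : F →ₐ[k] Ω} (h0 : Loc v p σ₀) :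
    ∃ y ∈ p, IntermediateField.adjoin k {(y : F)} = ⊤ ∧
      (∀ σ : F →ₐ[k] Ω, v (σ (y : F)) < 1 → Loc v p σ) ∧
      v (algebraMap k Ω t) ^ ((e + 1) * (N + 1) ^ (e + 1)) ≤
        v (σ₀ (aeval (y : F) (derivative (minpoly k (y : F))))) := by
  classical
  have ht : v (algebraMap k Ω t) ≠ 0 := by simpa using h.t0
  let β : (F →ₐ[k] Ω) → Γ := fun σ => if Loc v p σ then v (algebraMap k Ω t) ^ (e + 1) else 1
  have hβ : ∀ σ, β σ ≠ 0 := fun σ => by
    simp only [β]
    split_ifs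
    · exact pow_ne_zero _ ht
    · exact one_ne_zero
  obtain ⟨y, hy, h1⟩ := h.avoid p σ₀ (fun σ : {σ : F →ₐ[k] Ω // σ ≠ σ₀} =>
      (σ₀ : F →+* Ω).toAddMonoidHom - (σ.1 : F →+* Ω).toAddMonoidHom)
    (fun σ c x => by
      change σ₀ (c • x) - σ.1 (c • x) = _ * (σ₀ x - σ.1 x)
      rw [map_sm, map_sm, mul_sub]) (fun σ => β σ) (fun σ => hβ σ) fun σ => by
      change ∃ a ∈ p, β σ ≤ v (σ₀ (a : F) - σ.1 (a : F))
      simp only [β]
      split_ifs with hσ
      · obtain ⟨a, ha, h2⟩ := h.sepa h0 σ.2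
        exact ⟨a, ha, h2.le⟩
      · simp only [Loc, not_forall, not_lt] at hσ
        obtain ⟨a, ha, h2⟩ := hσ
        exact ⟨a, ha, h2.trans (v.map_sub_eq_of_lt_right ((h0 a ha).trans_le h2)).ge⟩
  replace h1 : ∀ σ : F →ₐ[k] Ω, σ ≠ σ₀ → β σ ≤ v (σ₀ (y : F) - σ (y : F)) :=
    fun σ hσ => h1 ⟨σ, hσ⟩
  have hA : ∀ x : F, ((minpoly k x).map (algebraMap k Ω)).Splits := fun _ => IsAlgClosed.splits _
  have h2 : IntermediateField.adjoin k {(y : F)} = ⊤ :=
    (Field.primitive_element_iff_algHom_eq_of_eval k Ω hA _ σ₀).2 fun σ hσ => by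
      by_contra hne
      have := h1 σ (Ne.symm hne)
      rw [hσ, sub_self, map_zero] at this
      exact hβ σ (le_zero_iff.1 this)
  refine ⟨y, hy, h2, fun σ hσ => ?_, ?_⟩
  · by_contra hl
    have h3 := h1 σ fun e => hl (e ▸ h0)
    simp only [β, if_neg hl] at h3
    exact absurd h3 (not_le.2 (v.map_sub_lt (h0 y hy) hσ))
  have hm : (minpoly k (y : F)).Monic := minpoly.monic (IsIntegral.of_finite k _)
  let E : (F →ₐ[k] Ω) ↪ Ω :=
    ⟨fun σ => σ y, (Field.primitive_element_iff_algHom_eq_of_eval' k Ω hA _).1 h2⟩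
  have hr : ((minpoly k (y : F)).map (algebraMap k Ω)).roots = (Finset.univ.map E).val := by
    refine roots_eq_of_natDegree_le_card_of_ne_zero (fun r hr => ?_) ?_ (hm.map _).ne_zero
    · obtain ⟨σ, -, rfl⟩ := Finset.mem_map.1 hr
      change eval (σ y) _ = 0
      rw [eval_map_algebraMap, aeval_algHom_apply, minpoly.aeval, map_zero]
    · rw [hm.natDegree_map, (Field.primitive_element_iff_minpoly_natDegree_eq k _).1 h2,
        Finset.card_map, Finset.card_univ, AlgHom.card]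
  have h3 := (hA y).eval_root_derivative (hm.map _) (x := E σ₀)
    (by rw [hr]; exact Finset.mem_map_of_mem E (Finset.mem_univ σ₀))
  rw [hr, ← Finset.erase_val, ← Finset.map_erase, ← Finset.prod_eq_multiset_prod, Finset.prod_map,
    derivative_map, eval_map_algebraMap] at h3
  rw [← aeval_algHom_apply, show aeval (σ₀ (y : F)) _ = _ from h3, map_prod]
  refine le_trans ?_ (Finset.prod_le_prod' fun σ hσ => h1 σ (Finset.ne_of_mem_erase hσ))
  simp only [β]
  rw [Finset.prod_ite, Finset.prod_const_one, mul_one, Finset.prod_const, ← pow_mul]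
  refine pow_le_pow_right_of_le_one' h.t1.le (Nat.mul_le_mul_left _ (le_trans ?_ h.count))
  exact Finset.card_le_card (Finset.filter_subset_filter _ (Finset.erase_subset _ _))

/-- the end product -/
theorem core (h : Dat O v t S p z e) (nm : ∀ a ∈ p, ∃ σ : F →ₐ[k] Ω, v (σ (a : F)) < 1) :
    ∃ σ₀ : F →ₐ[k] Ω, Loc v p σ₀ ∧ ∃ y ∈ p, IntermediateField.adjoin k {(y : F)} = ⊤ ∧
      (∀ q : Ideal S, (∀ a ∈ q, ∃ σ : F →ₐ[k] Ω, v (σ (a : F)) < 1) → y ∈ q → q ≤ p) ∧
      v (algebraMap k Ω t) ^ ((e + 1) * (N + 1) ^ (e + 1)) ≤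
        v (σ₀ (aeval (y : F) (derivative (minpoly k (y : F))))) := by
  obtain ⟨σ₀, h0⟩ := h.ex_loc nm
  obtain ⟨y, hy, h1, h2, h3⟩ := h.main h0
  refine ⟨σ₀, h0, y, hy, h1, fun q hq hyq a ha => ?_, h3⟩
  obtain ⟨σ, hσ⟩ := h.ex_loc hq
  by_contra hap
  exact (hσ a ha).ne (h.unit (h2 σ (hσ y hyq)) hap)

end Dat

omit [CharZero k] [Algebra ℂ k] [IsScalarTower ℂ k F] in
/-- some conjugate of an element of `p` is a nonunit -/
theorem nm_of {A : Type*} [CommRing A] [IsDomain A] [IsIntegrallyClosed A] [Algebra A k]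
    [IsFractionRing A k] [Algebra A F] [IsScalarTower A k F] (hA : ∀ a : A, algebraMap A F a ∈ S)
    (hv : ∀ a : A, (⟨algebraMap A F a, hA a⟩ : S) ∈ p → v (algebraMap k Ω (algebraMap A k a)) < 1)
    {a : S} (ha : a ∈ p) (hi : IsIntegral A (a : F)) : ∃ σ : F →ₐ[k] Ω, v (σ (a : F)) < 1 := by
  have hq : ∀ q : A[X], aeval (a : F) q ∈ S := fun q => by
    rw [aeval_eq_sum_range]
    exact sum_mem fun i _ => by
      rw [Algebra.smul_def]
      exact mul_mem (hA _) (pow_mem a.2 _)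
  have h1 := minpoly.aeval A (a : F)
  rw [← X_mul_divX_add (minpoly A (a : F)), map_add, map_mul, aeval_X, aeval_C] at h1
  have h2 := hv ((minpoly A (a : F)).coeff 0) (by
    rw [show (⟨_, hA ((minpoly A (a : F)).coeff 0)⟩ : S) = -(⟨_, hq (minpoly A (a : F)).divX⟩ * a)
      from Subtype.ext (by
        change _ = -(aeval (a : F) (minpoly A (a : F)).divX * (a : F))
        linear_combination h1)]
    exact neg_mem (p.mul_mem_left _ ha))
  have hm : (minpoly k (a : F)).Monic := minpoly.monic (IsIntegral.of_finite k _)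
  rw [← coeff_map, ← minpoly.isIntegrallyClosed_eq_field_fractions' k hi, ← coeff_map,
    (IsAlgClosed.splits _).coeff_zero_eq_prod_roots_of_monic (hm.map _), map_mul, map_pow,
    v.map_neg, map_one, one_pow, one_mul, map_multiset_prod] at h2
  by_contra hc
  push Not at hc
  refine absurd h2 (not_lt.2 (Multiset.one_le_prod_of_one_le fun r hr => ?_))
  obtain ⟨r', hr', rfl⟩ := Multiset.mem_map.1 hr
  obtain ⟨σ, rfl⟩ := root_ex hr'
  exact hc σ

end Vale.Agent.P283R.Sk2
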