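import Vale.Agent.P283R.Be2.Skp
import Vale.Agent.P283R.Be2.Sk0
import Vale.Agent.P283R.Be2.Sk2
import Vale.Agent.P283R.Be2.Cc

/-!
# P283R, block BE: the row `SK`
-/

set_option linter.all false

open Set MvPolynomial

noncomputable section

namespace Vale.Agent.P283R.Skp

open Vale.Agent.P287D Vale.Agent.P297Z Tx

theorem int_mono {A B F : Type} [CommRing A] [CommRing B] [Field F] [Algebra A F] [Algebra B F]
    (h : ∀ a : A, ∃ b : B, algebraMap B F b = algebraMap A F a) {x : F} (hx : IsIntegral A x) :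
    IsIntegral B x := by
  obtain ⟨p, p1, p2⟩ := hx
  obtain ⟨q, q1, -, q2⟩ := Polynomial.lifts_and_natDegree_eq_and_monic
    ((Polynomial.lifts_iff_coeff_lifts (f := algebraMap B F) _).2 fun n => by
      rw [Polynomial.coeff_map]; exact h _) (p1.map (algebraMap A F))
  exact ⟨q, q2, by rw [← Polynomial.eval_map, q1, Polynomial.eval_map, p2]⟩

variable {k F : Type} [Field k] [Algebra ℂ k] [Field F] [Algebra ℂ F] {d n N : ℕ}

theorem den [Algebra k F] (W : Pl k) (B : Subalgebra ℂ k) (h1 : ∀ b ∈ B, b ∈ W.ring)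
    (h2 : ∀ c ∈ W.ring, ∃ b ∈ B, b ≠ 0 ∧ b⁻¹ ∈ W.ring ∧ b * c ∈ B) {x : F}
    (hx : IsIntegral W.ring x) :
    ∃ b : k, b ≠ 0 ∧ b⁻¹ ∈ W.ring ∧ IsIntegral B (algebraMap k F b * x) := by
  let M : Submonoid B :=
    { carrier := {b | (b : k) ≠ 0 ∧ (b : k)⁻¹ ∈ W.ring}
      mul_mem' := fun a b => ⟨mul_ne_zero a.1 b.1, by
        rw [Subalgebra.coe_mul, mul_inv]; exact mul_mem a.2 b.2⟩
      one_mem' := by simpa using one_mem W.ring }
  let : Algebra B W.ring := ((algebraMap B k).codRestrict W.ring fun b => h1 b b.2).toAlgebra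
  have : IsScalarTower B W.ring F := IsScalarTower.of_algebraMap_eq fun _ => rfl
  have : IsLocalization M W.ring :=
    { map_units := fun b => IsUnit.of_mul_eq_one ⟨_, b.2.2⟩ (Subtype.ext (mul_inv_cancel₀ b.2.1))
      surj := fun c =>
        let ⟨b, b1, b2, b3, b4⟩ := h2 c c.2
        ⟨(⟨_, b4⟩, ⟨⟨b, b1⟩, b2, b3⟩), Subtype.ext (mul_comm _ _)⟩
      exists_of_eq := fun e =>
        ⟨1, congrArg _ (Subtype.ext (congrArg (fun c : W.ring => (c : k)) e))⟩ }
  obtain ⟨m, hm⟩ := IsIntegral.exists_multiple_integral_of_isLocalization M x hx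
  exact ⟨m, m.2.1, m.2.2, by rwa [Submonoid.smul_def, Algebra.smul_def] at hm⟩

theorem lt_iff {Ω : Type} [Field Ω] {V : ValuationSubring Ω} {φ : F →+* Ω} {R : Pl F}
    (h : ∀ a, a ∈ R.ring ↔ φ a ∈ V) (a : F) : V.valuation (φ a) < 1 ↔ a = 0 ∨ 0 < R.ord a := by
  by_cases a0 : a = 0
  · simp [a0]
  have p : 0 < V.valuation (φ a) := zero_lt_iff.2 (by simpa using a0)
  rw [or_iff_right a0, ← one_lt_inv₀ p, ← map_inv₀, ← map_inv₀, ← not_le, V.valuation_le_one_iff,
    ← h, ← Pl.ord_nonneg_iff R.toPlace (inv_ne_zero a0), Pl.ord_inv]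
  omega

theorem mem_iff {S : Type} [CommRing S] [Algebra ℂ S] {t : Fin d → S} {q : Ideal S}
    (hq : q.IsPrime) (tq : ∀ l, t l ∈ q) (G : MvPolynomial (Fin d) ℂ) :
    aeval t G ∈ q ↔ constantCoeff G = 0 := by
  have := comp_aeval_apply t (Ideal.Quotient.mkₐ ℂ q) G
  rw [show (fun l => Ideal.Quotient.mkₐ ℂ q (t l)) = fun _ => 0 from
    funext fun l => Ideal.Quotient.eq_zero_iff_mem.2 (tq l), aeval_zero'] at this
  rw [← Ideal.Quotient.eq_zero_iff_mem, ← Ideal.Quotient.mkₐ_eq_mk ℂ, this, map_eq_zero]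

theorem sk_abs (h1 : Sk1.SK1) [Algebra k F] [IsScalarTower ℂ k F] {A : Subgroup (F ≃ₐ[ℂ] F)}
    {S : Subalgebra ℂ F} {p : Ideal S} {z : Fin N → F} {y : Fin (n + 1) → F}
    (pt : Pt (n + 1) A S p z) (fr : Frm y) (kl : Bc.KL S p y) {tk : Fin (n + 1) → k} (hk : Rat tk)
    {t : Fin (n + 1) → S} (e : ∀ l, algebraMap k F (tk l) = t l) (tp : ∀ l, t l ∈ p)
    (ind : AlgebraicIndependent ℂ fun l => (t l : F))
    (int : ∀ a ∈ S, IsIntegral (Algebra.adjoin ℂ (range fun l => (t l : F))) a)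
    (red : ∀ (Γ : Type) [LinearOrderedCommGroupWithZero Γ] (v : Valuation F Γ),
      (∀ c, v (algebraMap ℂ F c) ≤ 1) → (∀ a ∈ p, v (a : F) < 1) →
      ∀ g, (∀ l, v (t l : F) ≤ g) → ∀ a ∈ p, v (a : F) ≤ g) :
    ∃ w Φ, Bc.Sk ((n + 1) * (N + 1) ^ (n + 1)) S p (fun l => (t l : F)) w Φ := by
  have := Pb.fin_of_ff hk.ff pt.aff.ff
  have : CharZero k := charZero_of_injective_algebraMap (algebraMap ℂ k).injective
  obtain ⟨W, w0, w1, w2, w3⟩ := place hk
  have := W.dvr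
  let Ω := AlgebraicClosure k
  obtain ⟨V, hV⟩ := val_over (algebraMap k Ω) W
  have t0 : tk 0 ≠ 0 := hk.1.ne_zero 0
  have cm : ∀ l, ch tk l ∈ W.ring := fun l => w1 _ (Algebra.subset_adjoin ⟨l, rfl⟩)
  have v1 : ∀ a ∈ W.ring, V.valuation (algebraMap k Ω a) ≤ 1 := fun a ha =>
    (V.valuation_le_one_iff _).2 ((hV a).1 ha)
  have v2 : V.valuation (algebraMap k Ω (tk 0)) < 1 := (lt_iff hV _).2 (.inr w0)
  have v3 : ∀ l, V.valuation (algebraMap k Ω (tk l)) ≤ V.valuation (algebraMap k Ω (tk 0)) :=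
    fun l => Fin.cases le_rfl (fun l => by
      rw [← mul_div_cancel₀ (tk l.succ) t0, map_mul, map_mul]
      exact mul_le_of_le_one_right' (v1 _ (cm l.succ))) l
  have tm : ∀ l, tk l ∈ W.ring := fun l =>
    (hV _).2 ((V.valuation_le_one_iff _).1 ((v3 l).trans v2.le))
  have cs : ∀ c, algebraMap k F (algebraMap ℂ k c) = algebraMap ℂ F c := fun c =>
    (IsScalarTower.algebraMap_apply ℂ k F c).symm
  have vo : Sk2.Vo W.ring k V.valuation := fun a => by
    rw [V.valuation_le_one_iff, ← hV]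
    exact ⟨fun h => ⟨⟨a, h⟩, rfl⟩, fun ⟨b, h⟩ => h ▸ b.2⟩
  have io : ∀ a ∈ S, IsIntegral W.ring a := fun a ha => int_mono (fun b =>
    Algebra.adjoin_induction (p := fun x _ => x ∈ (algebraMap W.ring F).range)
      (by rintro _ ⟨l, rfl⟩; exact ⟨⟨_, tm l⟩, e l⟩) (fun c => ⟨⟨_, W.con c⟩, cs c⟩)
      (fun _ _ _ _ => add_mem) (fun _ _ _ _ => mul_mem) b.2) (int a ha)
  have eu : ∀ l : Fin n, algebraMap k F (tk l.succ / tk 0) = t l.succ / t 0 := fun l => by
    rw [map_div₀, e, e]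
  obtain ⟨m, g, m0, g0, bd, kt⟩ := kl
  have D : Sk2.Dat W.ring V.valuation (tk 0) S p z n := ⟨vo, t0, v2, pt.pri, pt.res, pt.mem, pt.gen,
    io, fun σ hσ => red _ (V.valuation.comap (σ : F →+* Ω))
      (fun c => Sk2.le_of_int vo (io _ (S.algebraMap_mem c)) σ) hσ _ fun l => by
        change V.valuation (σ _) ≤ _
        rw [← e, σ.commutes]
        exact v3 l, fun x hx => by
    obtain ⟨b, b0, b1, b2⟩ := den W _ w1 w3 hx
    obtain ⟨s, s1, s2⟩ := h1 _ n F S p y m g (t 0) (fun l => t l.succ) pt.aff pt.nor pt.pri fr m0 g0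
      (fun h => ind.ne_zero 0 (congrArg Subtype.val h)) bd
      (fun R ⟨a, q, hq, c⟩ => kt (RingHom.ker (Bm.rdh R S a)) (fun x hx => hq ▸ c x hx) R
        fun x => ⟨a x x.2, Iff.rfl⟩) _
      (int_mono (fun c => by
        refine Algebra.adjoin_induction (p := fun x _ => algebraMap k F x ∈ (algebraMap
          (Algebra.adjoin ℂ ((S : Set F) ∪ range fun l : Fin n => (t l.succ : F) / t 0)) F).range)
          ?_ (fun c => ⟨algebraMap ℂ _ c, (cs c).symm⟩)
          (fun _ _ _ _ a b => map_add (algebraMap k F) _ _ ▸ add_mem a b)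
          (fun _ _ _ _ a b => map_mul (algebraMap k F) _ _ ▸ mul_mem a b) c.2
        rintro _ ⟨l, rfl⟩
        exact Fin.cases ⟨⟨_, Algebra.subset_adjoin (.inl (t 0).2)⟩, (e 0).symm⟩
          (fun l => ⟨⟨_, Algebra.subset_adjoin (.inr ⟨l, rfl⟩)⟩, (eu l).symm⟩) l) b2)
    refine ⟨s, s1, ?_⟩
    have s3 : s * (t 0 : F) ^ n * (algebraMap k F b * x) ∈ Algebra.adjoin W.ring (S : Set F) := by
      refine Algebra.adjoin_induction (p := fun x _ => x ∈ Algebra.adjoin W.ring (S : Set F)) ?_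
        (fun c => Algebra.subset_adjoin (S.algebraMap_mem c)) (fun _ _ _ _ => add_mem)
        (fun _ _ _ _ => mul_mem) s2
      rintro _ (h | ⟨l, rfl⟩)
      · exact Algebra.subset_adjoin h
      · exact (congrArg (· ∈ _) (eu l)).mp (Subalgebra.algebraMap_mem _ (⟨_, cm l.succ⟩ : W.ring))
    have s4 := mul_mem (Subalgebra.algebraMap_mem _ (⟨_, b1⟩ : W.ring)) s3
    rw [← Subalgebra.mem_toSubmodule, Algebra.adjoin_eq_span,
      show (Submonoid.closure (S : Set F) : Set F) = S from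
        congrArg _ (Submonoid.closure_eq S.toSubmonoid)] at s4
    have e' : algebraMap k F (tk 0) ^ n * s * x = algebraMap k F b⁻¹ *
        (s * (t 0 : F) ^ n * (algebraMap k F b * x)) := by
      have := (map_ne_zero (algebraMap k F)).2 b0
      rw [map_inv₀, e]
      field_simp
    exact e' ▸ s4⟩
  have nm : ∀ q : Ideal S, q.IsPrime → (∀ l, t l ∈ q) → ∀ a ∈ q,
      ∃ σ : F →ₐ[k] Ω, V.valuation (σ (a : F)) < 1 := fun q hq tq a ha => by
    let B := MvPolynomial (Fin (n + 1)) ℂ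
    let : Algebra B k := (aeval tk : B →ₐ[ℂ] k).toRingHom.toAlgebra
    let : Algebra B F := (S.val.comp (aeval t : B →ₐ[ℂ] S)).toRingHom.toAlgebra
    have e' : ∀ G : B, ((aeval t G : S) : F) = aeval (fun l => (t l : F)) G := fun G =>
      comp_aeval_apply t S.val G
    have : IsScalarTower B k F := IsScalarTower.of_algebraMap_eq fun G => (e' G).trans (by
      change _ = IsScalarTower.toAlgHom ℂ k F (aeval tk G)
      rw [comp_aeval_apply]
      exact congrArg (aeval · G) (funext fun l => (e l).symm))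
    have : FaithfulSMul B k := (faithfulSMul_iff_algebraMap_injective _ _).2 hk.1
    have : IsFractionRing B k := IsFractionRing.of_field B k hk.2
    refine Sk2.nm_of (A := B) (fun G => (aeval t G).2) (fun G hG => ?_) ha
      (int_mono (fun b => ?_) (int a a.2))
    · have c0 := (mem_iff hq tq G).1 hG
      have := Nn.near (v := V.valuation.comap (algebraMap k Ω)) (fun c => v1 _ (W.con c))
        (w := tk) (x := 0) (fun l => by simpa using (v3 l).trans_lt v2) G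
      rwa [eval_zero, c0, map_zero, sub_zero] at this
    · have : (b : F) ∈ (aeval fun l => (t l : F) : B →ₐ[ℂ] F).range :=
        Algebra.adjoin_range_eq_range_aeval ℂ (fun l => (t l : F)) ▸ b.2
      exact this.imp fun G h => (e' G).trans h
  obtain ⟨σ, l0, w, wp, a1, a2, a3⟩ := D.core (nm p pt.pri tp)
  obtain ⟨Φ, f1, f2, f3, f4, f5⟩ := poly hk e (y := w) (by
    rw [← IntermediateField.adjoin_simple_toSubalgebra_of_isAlgebraic
      (Algebra.IsAlgebraic.isAlgebraic _), a1, IntermediateField.top_toSubalgebra]) (int _ w.2)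
  have l1 : ∀ a, a ∈ W.ring ↔ algebraMap k F a ∈ V.comap (σ : F →+* Ω) := fun a => by
    rw [hV, ← σ.commutes]; rfl
  obtain ⟨R, hR⟩ := pl_over W _ l1
  have hR' : ∀ a, a ∈ R.ring ↔ (σ : F →+* Ω) a ∈ V := fun a => by rw [hR]; rfl
  have l2 : Lies (algebraMap k F) R W := fun a => by rw [hR]; exact l1 a
  have r0 : 0 < R.ord (t 0) := e 0 ▸ (l2.ord_pos_iff _).2 w0
  obtain ⟨k1, k2⟩ := kap_ch pt.aff.ff ind R r0 fun G G0 => by
    have : aeval (fun l : Fin n => (t l.succ : F) / t 0) G =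
        algebraMap k F (aeval (fun l => tk l.succ / tk 0) G) := by
      rw [← IsScalarTower.toAlgHom_apply ℂ k F, comp_aeval_apply]
      exact congrArg (aeval · G) (funext fun l => (eu l).symm)
    rw [this, l2.ord, (w2 G G0).2, mul_zero]
    exact ⟨(map_ne_zero _).2 (w2 G G0).1, rfl⟩
  refine ⟨w, Φ, ⟨fun l => ⟨_, tp l, rfl⟩, w.2, f1, f2, fun a ha => (f5 a (int a ha)).1, f4⟩,
    ⟨w, wp, rfl⟩, ind, fun q hq h => ?_, fun Q c a ha a0 => ?_, R, fun a => ?_, fun l => ?_⟩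
  · have tq : ∀ l, t l ∈ q := fun l => h _ (.inl ⟨l, rfl⟩)
    have le := a2 q (nm q hq tq) (h _ (.inr rfl))
    refine (Ideal.isMaximal_of_isIntegral_of_isMaximal_comap'
      (aeval t : MvPolynomial (Fin (n + 1)) ℂ →ₐ[ℂ] S).toRingHom (fun a => ?_) q ?_).eq_of_le
      pt.pri.ne_top le
    · obtain ⟨G, g1, g2⟩ := (f5 a (int a a.2)).1
      refine ⟨G, g1, Subtype.ext (((Polynomial.hom_eval₂ G _ S.val.toRingHom a).trans ?_).trans g2)⟩
      exact congrArg (Polynomial.eval₂ · (a : F) G) (RingHom.ext fun G => comp_aeval_apply t S.val G)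
    · rw [show q.comap (aeval t : MvPolynomial (Fin (n + 1)) ℂ →ₐ[ℂ] S).toRingHom =
        RingHom.ker constantCoeff from Ideal.ext (mem_iff hq tq)]
      exact RingHom.ker_isMaximal_of_surjective _ fun c => ⟨C c, constantCoeff_C _ c⟩
  · obtain ⟨l, -, hl⟩ := Finset.univ.exists_min_image (fun l => Q.ord (t l)) ⟨0, Finset.mem_univ _⟩
    have := red _ (Pl.val Q.toPlace) (fun c => (Pl.mem_ring_iff _ _).1 (Q.con c)) (fun b hb => by
      by_cases b0 : (b : F) = 0
      · simp [b0]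
      · exact (Pl.ord_pos_iff_val _ b0).1 (((Hr.cen_iff c b).1 hb).resolve_left b0))
      (Pl.val Q.toPlace (t l)) (fun j => by
        rw [Pl.val_eq _ _ (ind.ne_zero j), Pl.val_eq _ _ (ind.ne_zero l), WithZero.exp_le_exp]
        exact neg_le_neg (hl j (Finset.mem_univ _))) a ha
    rw [Pl.val_eq _ _ a0, Pl.val_eq _ _ (ind.ne_zero l), WithZero.exp_le_exp] at this
    exact ⟨l, neg_le_neg_iff.1 this⟩
  · have am : (a : F) ∈ R.ring := (hR' _).2 ((V.valuation_le_one_iff _).1 (D.le σ a))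
    refine ⟨am, ?_⟩
    rw [Bm.rd_zero_iff R am, ← lt_iff hR']
    exact ⟨l0 a, fun h => by_contra fun u => h.ne (D.unit l0 u)⟩
  · have p0 : 0 < V.valuation (algebraMap k Ω (tk 0)) := zero_lt_iff.2 (by simpa using t0)
    rw [← f3] at a3
    have p1 := (pow_pos p0 _).trans_le a3
    have n0 : ev2 (fun l => (t l : F)) w Φ.derivative ≠ 0 := fun u => by simp [u] at p1
    have := Pl.ord_nonneg_of_mem R.toPlace ((hR' ((t 0 : F) ^ ((n + 1) * (N + 1) ^ (n + 1)) /
      ev2 (fun l => (t l : F)) w Φ.derivative)).2 ((V.valuation_le_one_iff _).1 (by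
        rw [map_div₀, map_div₀, map_pow, map_pow, ← e]
        exact (div_le_one₀ p1).2 (σ.commutes (tk 0) ▸ a3))))
    rw [Pl.ord_div _ (pow_ne_zero _ (ind.ne_zero 0)) n0, Pl.ord_pow] at this
    rw [k1 l, k2]
    refine ⟨by linarith, mul_le_mul_of_nonneg_right (Nat.cast_le.2 ?_) (by exact_mod_cast r0.le)⟩
    exact Nat.le_mul_of_pos_right _ (by positivity)

end Vale.Agent.P283R.Skp

namespace Vale.Agent.P283R.Bc

open Vale.Agent.P287D

/-- **SK** -/
theorem sk_of (h1 : Sk1.SK1) : SK := by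
  rintro (_ | n) N hd
  · exact absurd hd (lt_irrefl _)
  refine ⟨(n + 1) * (N + 1) ^ (n + 1), fun F _ _ A S p z y pt fr kl => ?_⟩
  obtain ⟨t, a, b, c, e⟩ := Nn.nnS (Bm.trdeg_eq pt.aff.ff) S pt.aff.fg pt.aff.fr p pt.res
  exact ⟨_, Skp.sk_abs h1 pt fr kl (Skp.rat_adjoin b) (fun _ => rfl) a b c e⟩

end Vale.Agent.P283R.Bc
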