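import Vale.Agent.P283R.Be2.Ruh
import Vale.Agent.P283R.Co.Rz
import Vale.Agent.P283R.Co.Ch

/-!
# Orders along the arcs of a chart, integral arcs of a chart
-/

attribute [-instance] HahnSeries.powerSeriesAlgebra

open MvPowerSeries Finsupp Vale.Agent.P283R.Co P283R.U P283R.Rz

noncomputable section

namespace Vale.Agent.P283R.Be2

/-- **realisation** at the weight `w`, with the action of the derivations -/
theorem real2 {K B σ : Type} [Field K] [CommRing B] [IsDomain B] [Fintype σ] [DecidableEq σ]
    (j : K →+* B) (w : σ → ℕ) :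
    ∃ (κ : Type) (_ : Field κ) (_ : Algebra K κ) (g : MvPowerSeries σ B →+* PowerSeries κ)
      (δ : σ → Derivation K κ κ),
      (∀ (u : MvPowerSeries σ B) (m : σ →₀ ℕ), IsUnit u →
        (g (u * monomial m 1)).order = ((∑ i, m i * w i : ℕ) : ℕ∞)) ∧
      (∀ a, g (C (j a)) = algebraMap K _ a) ∧
      ∀ T : σ → MvPowerSeries σ B,
        (Matrix.of fun i l => PowerSeries.mk fun n => δ l (PowerSeries.coeff n (g (T i)))).det =
          PowerSeries.X ^ (∑ l, w l) * g (jd T) := by
  let _ : Algebra K B := j.toAlgebra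
  have : IsDomain (MvPowerSeries σ B) := NoZeroDivisors.to_isDomain _
  let κ := FractionRing (MvPowerSeries σ B)
  choose D hD using fun l : σ =>
    exists_ext (K := K) (S := MvPowerSeries σ B) (κ := κ) ((pderiv B l).restrictScalars K)
  let ι : PowerSeries (MvPowerSeries σ B) →+* PowerSeries κ :=
    PowerSeries.map (algebraMap (MvPowerSeries σ B) κ)
  let g : (MvPowerSeries σ B) →+* PowerSeries κ := ι.comp (gr w)
  have hθ : ∀ l F, cw (D l) (g F) = PowerSeries.X ^ w l * g (pderiv B l F) := fun l F => by
    ext n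
    rw [coeff_cw, PowerSeries.coeff_X_pow_mul']
    simp only [g, ι, RingHom.comp_apply, PowerSeries.coeff_map, coeff_gr, hD]
    rw [Derivation.restrictScalars_apply, pderiv_whc]
    split_ifs <;> simp
  refine ⟨κ, inferInstance, inferInstance, g, D, fun u m hu => ?_, fun a => ?_, fun T => ?_⟩
  · have h1 : algebraMap (MvPowerSeries σ B) κ (monomial m 1) ≠ 0 := by
      rw [Ne, IsFractionRing.to_map_eq_zero_iff]
      intro h
      simpa using congr(coeff m $h)
    rw [map_mul, PowerSeries.order_mul, PowerSeries.order_zero_of_unit (hu.map g), zero_add]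
    simp only [g, ι, RingHom.comp_apply, gr_monomial, map_mul, map_pow, PowerSeries.map_C,
      PowerSeries.map_X]
    rw [PowerSeries.order_mul, PowerSeries.order_X_pow,
      PowerSeries.order_zero_of_unit ((isUnit_iff_ne_zero.2 h1).map PowerSeries.C), zero_add,
      weight_eq_sum]
    rfl
  · simp only [g, ι, RingHom.comp_apply, gr_C, PowerSeries.map_C]
    rw [PowerSeries.algebraMap_apply, IsScalarTower.algebraMap_apply K (MvPowerSeries σ B) κ,
      MvPowerSeries.algebraMap_apply]
    rfl
  · show (Matrix.of fun i l => cw (D l) (g (T i))).det = _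
    simp only [hθ]
    rw [← Finset.prod_pow_eq_pow_sum, jd, RingHom.map_det, ← Matrix.det_mul_row]
    rfl

section

variable {K κ τ : Type} [Field K] [Field κ] [Algebra K κ] [Fintype τ]
  {e : MvPowerSeries τ K →+* PowerSeries κ}

omit [Fintype τ] in
theorem hom_coe (hc : ∀ a, e (C a) = algebraMap K _ a) (p : MvPolynomial τ K) :
    e p = MvPolynomial.aeval (fun i => e (X i)) p := by
  induction p using MvPolynomial.induction_on with
  | C a => rw [MvPolynomial.coe_C, hc, MvPolynomial.aeval_C]
  | add p q hp hq => rw [MvPolynomial.coe_add, map_add, map_add, hp, hq]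
  | mul_X p i hp =>
    rw [MvPolynomial.coe_mul, MvPolynomial.coe_X, map_mul, map_mul, hp, MvPolynomial.aeval_X]

omit [Algebra K κ] in
theorem hom_van {m : ℕ} (hm : ∀ i, PowerSeries.X ^ m ∣ e (X i)) :
    ∀ (n : ℕ) (F : MvPowerSeries τ K), Van n F → PowerSeries.X ^ (n * m) ∣ e F
  | 0, F, _ => by simp
  | n + 1, F, hF => by
    obtain ⟨G, hG, rfl⟩ := hF.dec
    rw [map_sum]
    refine Finset.dvd_sum fun i _ => ?_
    rw [map_mul, add_mul, one_mul, add_comm, pow_add]
    exact mul_dvd_mul (hm i) (hom_van hm n _ (hG i))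

/-- the value of a series is the value of its truncation, up to the order of the truncation -/
theorem hom_trunc (hc : ∀ a, e (C a) = algebraMap K _ a) (hm : ∀ i, PowerSeries.X ∣ e (X i))
    (n : ℕ) (F : MvPowerSeries τ K) :
    PowerSeries.X ^ n ∣ e F - MvPolynomial.aeval (fun i => e (X i)) (truncTotal n F) := by
  have := hom_van (m := 1) (e := e) (by simpa using hm) n _ (van_sub_trunc n F)
  rwa [mul_one, map_sub, hom_coe hc] at this

end

section

variable {σ A : Type} [Fintype σ] [DecidableEq σ] [CommRing A]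

/-- the logarithmic Jacobian along a Hahn arc of the chart -/
theorem jd_ev (t : A →+* ℂ) {y : σ → HS} (hy : Pos y) (l : σ → ℝ →+ ℂ)
    (G : σ → MvPowerSeries σ A) :
    (Matrix.of fun i j => thl (l j) (0 : Derivation ℂ ℂ ℂ) (ev y (map t (G i)))).det =
      ev y (map t (jd G)) *
        (Matrix.of fun i j => thl (l j) (0 : Derivation ℂ ℂ ℂ) (y i)).det :=
  det_der_ev hy t (θ := fun i => thl (l i) (0 : Derivation ℂ ℂ ℂ)) (fun _ => ctr_thl _ _)
    (fun _ _ => Derivation.map_algebraMap _ _) G

omit [DecidableEq σ] in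
/-- the order along an arc of the chart does not depend on the point -/
theorem ZM.ord_eq {F : MvPowerSeries σ A} (h : ZM F) (t t' : A →+* ℂ) {y : σ → HS} (hy : Pos y) :
    (ev y (map t F)).orderTop = (ev y (map t' F)).orderTop := by
  rcases h with rfl | ⟨u, m, hu, rfl⟩
  · simp [ev_zero]
  · rw [ord_um' t hy hu, ord_um' t' hy hu]

end

end Vale.Agent.P283R.Be2
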