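import Vale.Agent.P283R.U.Main
import Vale.Agent.P283R.Co.Ev2

/-!
# Monomialisation along a sequence of arcs on a hypersurface
-/

attribute [-instance] HahnSeries.powerSeriesAlgebra

open MvPowerSeries Vale.Agent.P283R.Co P283R.U

noncomputable section

namespace Vale.Agent.P283R.Be2

/-- zero, or a unit times a monomial -/
def ZM {σ A : Type} [CommRing A] (G : MvPowerSeries σ A) : Prop := G = 0 ∨ P283R.U.UM G

/-- the Jacobian determinant of a family of series -/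
def jd {σ A : Type} [Fintype σ] [DecidableEq σ] [CommRing A] (T : σ → MvPowerSeries σ A) :
    MvPowerSeries σ A := (Matrix.of fun i j => pderiv A j (T i)).det

section

variable {σ A B : Type} [Fintype σ] [DecidableEq σ] [CommRing A] [CommRing B]

theorem jd_map {j : A →+* B} {φ : MvPowerSeries σ A →+* MvPowerSeries σ B} (h : Loc j φ)
    (T : σ → MvPowerSeries σ A) : jd (fun i => φ (T i)) = φ (jd T) * jac φ := by
  unfold jd jac
  rw [RingHom.map_det, ← Matrix.det_mul]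
  congr 1
  ext1 i l
  simp only [Matrix.of_apply, Matrix.mul_apply, RingHom.mapMatrix_apply, Matrix.map_apply]
  exact h.chain l _

end

variable {k : Type} [Field k] [IsAlgClosed k] [CharZero k] {ι : Type} {𝒰 : Ultrafilter ι}
  {σ τ : Type} [Fintype σ] [DecidableEq σ] [Fintype τ] [DecidableEq τ]

theorem uAt : UAt k 𝒰 σ :=
  uAt_all (fun _ _ _ => loop) (fun _ _ _ => step) (fun _ _ _ _ _ _ => uAt_equiv)
    (fun _ _ _ _ => uAt_empty) σ

/-- a finite family of series is monomialised at once -/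
theorem uAt_fam (S : Stage k 𝒰 σ) {α : Type} [Fintype α] (F : α → MvPowerSeries σ S.A) :
    ∃ (T : Stage k 𝒰 σ) (c : Chart S T), (∀ a, ZM (c.Φ (F a))) ∧ P283R.U.UM (jac c.Φ) ∧
      ∀ j, P283R.U.UM (c.Φ (X j)) := by
  classical
  obtain ⟨T, c, h1, h2, h3⟩ := uAt S (∏ a ∈ Finset.univ.filter fun a => F a ≠ 0, F a)
    (Finset.prod_ne_zero_iff.2 fun a ha => (Finset.mem_filter.1 ha).2)
  refine ⟨T, c, fun a => ?_, h2, h3⟩
  by_cases h : F a = 0
  · exact Or.inl (by rw [h, map_zero])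
  · exact Or.inr (h1.of_dvd (map_dvd _ (Finset.dvd_prod_of_mem _ (by simp [h]))))

/-- a substitution into fewer variables through which most of the arcs factor -/
structure HCh (S : Stage k 𝒰 τ) (T : Stage k 𝒰 σ) where
  ρ : S.A →+* T.A
  Φ : MvPowerSeries τ S.A →+* MvPowerSeries σ T.A
  loc : Loc ρ Φ
  rel : ∀ᶠ i in (𝒰 : Filter ι), (T.s i).comp ρ = S.s i ∧
    ∀ F, ev (S.x i) (map (S.s i) F) = ev (T.x i) (map (T.s i) (Φ F))

omit [IsAlgClosed k] [CharZero k] [DecidableEq σ] in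
/-- arcs on a monomial hypersurface lie on one coordinate hyperplane -/
theorem exists_coord (S : Stage k 𝒰 τ) {P : MvPowerSeries τ S.A} (hP : P283R.U.UM P)
    (h0 : ∀ᶠ i in (𝒰 : Filter ι), ev (S.x i) (map (S.s i) P) = 0) :
    ∃ l, X l ∣ P ∧ ∀ᶠ i in (𝒰 : Filter ι), S.x i l = 0 := by
  obtain ⟨u, m, hu, rfl⟩ := hP
  have h1 : ∀ᶠ i in (𝒰 : Filter ι), ∃ l ∈ (m.support : Set τ), S.x i l = 0 := h0.mono fun i hi => by
    rw [← evs_apply (S.pos i), map_mul, mon_eq_prod, map_prod] at hi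
    rcases mul_eq_zero.1 hi with h | h
    · exact absurd h (hu.map _).ne_zero
    · obtain ⟨l, hl, h⟩ := Finset.prod_eq_zero_iff.1 h
      rw [map_pow, evs_apply, map_X, ev_X (S.pos i)] at h
      exact ⟨l, hl, pow_eq_zero_iff (Finsupp.mem_support_iff.1 hl) |>.1 h⟩
  obtain ⟨l, hl, h⟩ := (Ultrafilter.eventually_exists_mem_iff m.support.finite_toSet).1 h1
  refine ⟨l, Dvd.dvd.mul_left ?_ _, h⟩
  rw [mon_eq_prod]
  exact (dvd_pow_self _ (Finsupp.mem_support_iff.1 hl)).trans (Finset.dvd_prod_of_mem _ hl)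

omit [IsAlgClosed k] [CharZero k] [DecidableEq σ] in
/-- restriction to a coordinate hyperplane -/
theorem exists_res (e : τ ≃ Option σ) (S : Stage k 𝒰 τ) (l : τ)
    (h : ∀ᶠ i in (𝒰 : Filter ι), S.x i l = 0) :
    ∃ (T : Stage k 𝒰 σ) (c : HCh S T), c.Φ (X l) = 0 := by
  let e' : τ ≃ Option σ := (Equiv.swap (e.symm none) l).trans e
  have hl : e' l = none := by simp [e']
  let T : Stage k 𝒰 σ :=
    ⟨S.A, S.s, fun i j => S.x i (e'.symm (some j)), S.gen, fun i j => S.pos i _⟩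
  obtain ⟨ψ, h1, h2⟩ := exists_loc (RingHom.id S.A)
    (fun j => ((e' j).elim 0 X : MvPowerSeries σ S.A)) fun j => by
      cases e' j <;> simp
  refine ⟨T, ⟨RingHom.id _, ψ, h1, h.mono fun i hi => ⟨rfl, fun F => ?_⟩⟩, by
    show ψ (X l) = 0
    rw [h2, hl]; rfl⟩
  have := ev_loc h1 (T.pos i) (S.s i) F
  refine Eq.trans ?_ this.symm
  congr 1
  funext j
  rw [h2]
  rcases hj : e' j with _ | j'
  · have : j = l := e'.injective (hj.trans hl.symm)
    rw [this, hi]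
    simp [ev_zero]
  · simp only [Option.elim_some, map_X]
    rw [ev_X (T.pos i)]
    show S.x i j = S.x i (e'.symm (some j'))
    rw [← hj, Equiv.symm_apply_apply]

/-- **RUH**: monomialisation along a sequence of arcs on the hypersurface `P = 0` -/
theorem ruh (e : τ ≃ Option σ) (S : Stage k 𝒰 τ) (P : MvPowerSeries τ S.A) (hP : P ≠ 0)
    (h0 : ∀ᶠ i in (𝒰 : Filter ι), ev (S.x i) (map (S.s i) P) = 0) {α β : Type} [Fintype α]
    [Fintype β] (F : α → MvPowerSeries τ S.A) (G : β → σ → MvPowerSeries τ S.A) :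
    ∃ (T : Stage k 𝒰 σ) (c : HCh S T), c.Φ P = 0 ∧ (∀ a, ZM (c.Φ (F a))) ∧
      ∀ b, ZM (jd fun i => c.Φ (G b i)) := by
  obtain ⟨S₁, c₁, h1, -, -⟩ := uAt S P hP
  obtain ⟨l, hl, hl'⟩ := exists_coord S₁ h1 ((h0.and c₁.ev_eq).mono fun i hi => by
    rw [← hi.2, hi.1])
  obtain ⟨S₂, c₂, h2⟩ := exists_res e S₁ l hl'
  obtain ⟨T, c₃, h3, h4, -⟩ := uAt_fam S₂ (Sum.elim (fun a => c₂.Φ (c₁.Φ (F a)))
    fun b => jd fun i => c₂.Φ (c₁.Φ (G b i)))
  refine ⟨T, ⟨c₃.ρ.comp (c₂.ρ.comp c₁.ρ), c₃.Φ.comp (c₂.Φ.comp c₁.Φ),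
    (c₁.loc.comp c₂.loc).comp c₃.loc, ?_⟩, ?_, fun a => h3 (.inl a), fun b => ?_⟩
  · filter_upwards [c₁.rel, c₁.ev_eq, c₂.rel, c₃.rel, c₃.ev_eq] with i a1 a2 a3 a4 a5
    refine ⟨?_, fun H => ?_⟩
    · rw [← RingHom.comp_assoc, a4.1, ← RingHom.comp_assoc, a3.1, a1.1]
    · rw [a2, a3.2, a5]; rfl
  · obtain ⟨Q, hQ⟩ := hl
    show c₃.Φ (c₂.Φ (c₁.Φ P)) = 0
    rw [hQ, map_mul, h2, zero_mul, map_zero]
  · show ZM (jd fun i => c₃.Φ (c₂.Φ (c₁.Φ (G b i))))
    rw [jd_map c₃.loc]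
    rcases h3 (.inr b) with h | h
    · exact Or.inl (by rw [show c₃.Φ (jd fun i => c₂.Φ (c₁.Φ (G b i))) = 0 from h, zero_mul])
    · exact Or.inr (P283R.U.UM.mul h h4)

end Vale.Agent.P283R.Be2
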