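import Mathlib.RingTheory.DedekindDomain.IntegralClosure
import Mathlib.RingTheory.Valuation.Integral
import Mathlib.RingTheory.Localization.Module
import Mathlib.FieldTheory.PrimitiveElement
import Mathlib.FieldTheory.IsAlgClosed.Basic
import Mathlib.RingTheory.Trace.Basic
import Mathlib.RingTheory.FiniteType
import Mathlib.LinearAlgebra.Matrix.SemiringInverse

/-!
# Embeddings into a valued algebraically closed field: the tame bound for the trace dual
-/

open Polynomial

namespace Vale.Agent.P283R.Sk2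

variable {O k F Ω Γ : Type*} [CommRing O] [IsDomain O] [IsPrincipalIdealRing O] [Field k]
  [CharZero k] [Algebra O k] [IsFractionRing O k] [Field F] [Algebra k F] [Algebra O F]
  [IsScalarTower O k F] [FiniteDimensional k F] [Field Ω] [IsAlgClosed Ω] [Algebra k Ω]
  [LinearOrderedCommGroupWithZero Γ] {v : Valuation Ω Γ}

/-- `v` restricts to the valuation ring `O` of `k` -/
def Vo (O k : Type*) {Ω Γ : Type*} [CommRing O] [Field k] [Algebra O k] [Field Ω] [Algebra k Ω]
    [LinearOrderedCommGroupWithZero Γ] (v : Valuation Ω Γ) : Prop :=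
  ∀ a : k, v (algebraMap k Ω a) ≤ 1 ↔ a ∈ (algebraMap O k).range

omit [IsDomain O] [IsPrincipalIdealRing O] [CharZero k] [IsFractionRing O k]
  [FiniteDimensional k F] [IsAlgClosed Ω] in
theorem le_of_int (hO : Vo O k v) {x : F} (hx : IsIntegral O x) (σ : F →ₐ[k] Ω) :
    v (σ x) ≤ 1 := by
  let φ : O →+* v.integer := ((algebraMap k Ω).comp (algebraMap O k)).codRestrict _
    fun a => (hO _).2 ⟨a, rfl⟩
  refine (Valuation.integer.integers v).isIntegral_iff_v_le_one.1
    (hx.map_of_comp_eq φ (σ : F →+* Ω) ?_)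
  ext a
  change algebraMap k Ω (algebraMap O k a) = σ (algebraMap O F a)
  rw [IsScalarTower.algebraMap_apply O k F, σ.commutes]

omit [CharZero k] in
theorem root_ex {x : F} {r : Ω} (hr : r ∈ ((minpoly k x).map (algebraMap k Ω)).roots) :
    ∃ σ : F →ₐ[k] Ω, σ x = r := by
  have h : r ∈ (minpoly k x).rootSet Ω := by
    classical
    rw [rootSet_def]
    exact Finset.mem_coe.2 (Multiset.mem_toFinset.2 hr)
  rw [← Algebra.IsAlgebraic.range_eval_eq_rootSet_minpoly (K := F) Ω x] at h
  exact h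

omit [IsDomain O] [IsPrincipalIdealRing O] [CharZero k] [IsFractionRing O k] in
theorem int_of_le (hO : Vo O k v) {x : F} (hx : ∀ σ : F →ₐ[k] Ω, v (σ x) ≤ 1) :
    IsIntegral O x := by
  have hm : (minpoly k x).Monic := minpoly.monic (IsIntegral.of_finite k x)
  have h1 := (IsAlgClosed.splits ((minpoly k x).map (algebraMap k Ω))).mem_lift_of_roots_mem_range
    (hm.map _) (algebraMap v.integer Ω) fun r hr => by
      obtain ⟨σ, rfl⟩ := root_ex hr
      exact ⟨⟨σ x, hx σ⟩, rfl⟩
  have h2 : minpoly k x ∈ lifts (algebraMap O k) := by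
    rw [lifts_iff_coeff_lifts] at h1 ⊢
    intro n
    obtain ⟨a, ha⟩ := h1 n
    refine (hO _).1 ?_
    rw [← coeff_map, ← ha]
    exact a.2
  obtain ⟨q, hq, -, hq'⟩ := lifts_and_natDegree_eq_and_monic h2 hm
  refine ⟨q, hq', ?_⟩
  rw [← aeval_def, ← aeval_map_algebraMap k, hq, minpoly.aeval]

/-- the centre of an embedding on the integral closure -/
def cen (hO : Vo O k v) (σ : F →ₐ[k] Ω) : Ideal (integralClosure O F) where
  carrier := {x | v (σ x) < 1}
  add_mem' {a b} ha hb := by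
    change v (σ ((a : F) + b)) < 1
    rw [map_add]
    exact v.map_add_lt ha hb
  zero_mem' := by
    change v (σ (0 : F)) < 1
    simp
  smul_mem' c a ha := by
    change v (σ ((c : F) * a)) < 1
    rw [map_mul, map_mul]
    exact mul_lt_one_of_nonneg_of_lt_one_right (le_of_int hO c.2 σ) zero_le ha

omit [IsDomain O] [IsPrincipalIdealRing O] [CharZero k] [IsFractionRing O k]
  [FiniteDimensional k F] [IsAlgClosed Ω] in
theorem mem_cen (hO : Vo O k v) (σ : F →ₐ[k] Ω) (x : integralClosure O F) :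
    x ∈ cen hO σ ↔ v (σ x) < 1 := Iff.rfl

omit [IsDomain O] [IsPrincipalIdealRing O] [CharZero k] [IsFractionRing O k]
  [FiniteDimensional k F] [IsAlgClosed Ω] in
theorem cen_prime (hO : Vo O k v) (σ : F →ₐ[k] Ω) : (cen hO σ).IsPrime := by
  refine ⟨fun h => ?_, fun {a b} h => ?_⟩
  · have : (1 : integralClosure O F) ∈ cen hO σ := h ▸ Submodule.mem_top
    rw [mem_cen] at this
    simp at this
  · by_contra h'
    push Not at h'
    simp only [mem_cen, not_lt] at h' h
    rw [Subalgebra.coe_mul, map_mul, map_mul] at h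
    exact absurd (one_le_mul h'.1 h'.2) (not_le.2 h)

omit [IsAlgClosed Ω] [CharZero k] [IsFractionRing O k] [FiniteDimensional k F] in
theorem cen_max (hO : Vo O k v) {t : k} (h0 : t ≠ 0) (ht : v (algebraMap k Ω t) < 1)
    (σ : F →ₐ[k] Ω) : (cen hO σ).IsMaximal := by
  have : Ring.DimensionLEOne (integralClosure O F) := Ring.DimensionLEOne.of_isIntegral O _
  obtain ⟨s, rfl⟩ := (hO t).1 ht.le
  refine (cen_prime hO σ).isMaximal fun h => h0 ?_
  have : algebraMap O (integralClosure O F) s ∈ cen hO σ := by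
    rw [mem_cen]
    change v (σ (algebraMap O F s)) < 1
    rwa [IsScalarTower.algebraMap_apply O k F, σ.commutes]
  rw [h, Ideal.mem_bot] at this
  have h2 : algebraMap k F (algebraMap O k s) = 0 := by
    rw [← IsScalarTower.algebraMap_apply]
    exact congrArg Subtype.val this
  exact (map_eq_zero_iff _ (algebraMap k F).injective).1 h2

omit [IsDomain O] [IsPrincipalIdealRing O] [IsFractionRing O k] [CharZero k] in
/-- a common denominator which is a unit at a given embedding -/
theorem den (hO : Vo O k v) (hq : ∀ n : ℕ, n ≠ 0 → v (n : Ω) = 1) (ψ : F) (σ₀ : F →ₐ[k] Ω)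
    (h : v (σ₀ ψ) ≤ 1) : ∃ y : F, IsIntegral O y ∧ IsIntegral O (ψ * y) ∧ v (σ₀ y) = 1 := by
  have hn : ∀ n : ℕ, v (n : Ω) ≤ 1 := fun n => by
    rcases eq_or_ne n 0 with rfl | h0
    · simp
    · exact (hq n h0).le
  obtain ⟨c, hc⟩ : ∃ c : ℕ, ∀ σ : F →ₐ[k] Ω, 1 ≤ v (σ ψ - c) := by
    by_contra hc
    push Not at hc
    choose g hg using hc
    obtain ⟨a, b, hab, e⟩ := Finite.exists_ne_map_eq_of_infinite g
    wlog hlt : a < b generalizing a b
    · exact this b a hab.symm e.symm (lt_of_le_of_ne (not_lt.1 hlt) hab.symm)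
    have h1 := v.map_sub_lt (hg a) (e ▸ hg b)
    rw [show g a ψ - (a : Ω) - (g a ψ - (b : Ω)) = ((b - a : ℕ) : Ω) by
      rw [Nat.cast_sub hlt.le]; ring, hq _ (by omega)] at h1
    exact lt_irrefl _ h1
  have h1 : ∀ σ : F →ₐ[k] Ω, v (σ (ψ - c)⁻¹) ≤ 1 := fun σ => by
    rw [map_inv₀, map_inv₀, map_sub, map_natCast]
    exact inv_le_one_of_one_le₀ (hc σ)
  have h0 : ψ - c ≠ 0 := fun e => by
    have := hc σ₀
    rw [← map_natCast σ₀, ← map_sub, e] at this
    simp at this
  refine ⟨(ψ - c)⁻¹, int_of_le hO h1, int_of_le hO fun σ => ?_, ?_⟩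
  · rw [show ψ * (ψ - c)⁻¹ = 1 + c * (ψ - c)⁻¹ by field_simp; ring, map_add, map_mul, map_one,
      map_natCast]
    refine v.map_add_le (by simp) ?_
    rw [map_mul]
    exact mul_le_one' (hn c) (h1 σ)
  · rw [map_inv₀, map_inv₀, map_sub, map_natCast,
      le_antisymm (v.map_sub_le h (hn c)) (hc σ₀), inv_one]

omit [IsFractionRing O k] in
/-- an element of the integral closure which is a multiple of `y` and has unit trace -/
theorem unit_trace (hO : Vo O k v) (hq : ∀ n : ℕ, n ≠ 0 → v (n : Ω) = 1) {t : k} (h0 : t ≠ 0)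
    (ht : v (algebraMap k Ω t) < 1) (σ₀ : F →ₐ[k] Ω) (y : integralClosure O F)
    (hy : y ∉ cen hO σ₀) : ∃ u : integralClosure O F,
      v (algebraMap k Ω (Algebra.trace k F ((y : F) * u))) = 1 := by
  classical
  have he : ∀ σ : F →ₐ[k] Ω, ∃ e : integralClosure O F, e ∉ cen hO σ₀ ∧
      (cen hO σ ≠ cen hO σ₀ → e ∈ cen hO σ) := fun σ => by
    by_cases h : cen hO σ = cen hO σ₀
    · exact ⟨1, (Ideal.ne_top_iff_one _).1 (cen_prime hO σ₀).ne_top, fun h' => (h' h).elim⟩
    · by_contra h'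
      push Not at h'
      refine h ((cen_max hO h0 ht σ).eq_of_le (cen_prime hO σ₀).ne_top fun e he => ?_)
      by_contra h2
      exact (h' e h2).2 he
  choose e he he' using he
  have h1 : y * ∏ σ, e σ ∉ cen hO σ₀ := fun h => by
    rcases (cen_prime hO σ₀).mem_or_mem h with h | h
    · exact hy h
    · have := cen_prime hO σ₀
      obtain ⟨σ, -, h⟩ := Ideal.IsPrime.prod_mem_iff.1 h
      exact he σ h
  obtain ⟨b, a, ha, hb⟩ := (cen_max hO h0 ht σ₀).exists_inv h1
  refine ⟨b * ∏ σ, e σ, ?_⟩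
  rw [trace_eq_sum_embeddings Ω]
  set w : integralClosure O F := y * (b * ∏ σ, e σ) with hw
  have hw1 : w - 1 ∈ cen hO σ₀ := by
    rw [show w - 1 = -a by rw [hw, ← hb]; ring]
    exact neg_mem ha
  let s := Finset.univ.filter fun σ : F →ₐ[k] Ω => cen hO σ = cen hO σ₀
  have hs : s.card ≠ 0 := Finset.card_ne_zero.2 ⟨σ₀, by simp [s]⟩
  have h2 : v (∑ σ : F →ₐ[k] Ω, (σ (w : F) - if cen hO σ = cen hO σ₀ then 1 else 0)) < 1 := by
    refine v.map_sum_lt one_ne_zero fun σ _ => ?_
    split_ifs with h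
    · rw [← h, mem_cen] at hw1
      simpa using hw1
    · rw [sub_zero, ← mem_cen hO]
      exact Ideal.mul_mem_left _ _ (Ideal.mul_mem_left _ _
        (Ideal.mem_of_dvd _ (Finset.dvd_prod_of_mem e (Finset.mem_univ σ)) (he' σ h)))
  rw [Finset.sum_sub_distrib, Finset.sum_boole] at h2
  have h3 := v.map_add_eq_of_lt_left (x := (s.card : Ω))
    (y := ∑ σ : F →ₐ[k] Ω, σ (w : F) - s.card) (by rw [hq _ hs]; exact h2)
  rw [add_sub_cancel, hq _ hs] at h3
  exact h3

omit [IsFractionRing O k] in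
/-- the tame bound: the trace dual of the integral closure has poles of order less than one -/
theorem tame (hO : Vo O k v) (hq : ∀ n : ℕ, n ≠ 0 → v (n : Ω) = 1) {t : k} (h0 : t ≠ 0)
    (ht : v (algebraMap k Ω t) < 1) {φ : F}
    (hφ : ∀ x : F, IsIntegral O x → Algebra.trace k F (x * φ) ∈ (algebraMap O k).range)
    (σ₀ : F →ₐ[k] Ω) : v (σ₀ φ) * v (algebraMap k Ω t) < 1 := by
  by_contra h
  rw [not_lt, ← map_mul, ← σ₀.commutes, ← map_mul] at h
  have hz : φ * algebraMap k F t ≠ 0 := fun e => by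
    rw [e] at h
    simp at h
  obtain ⟨y, hy, hy', e⟩ := den hO hq (φ * algebraMap k F t)⁻¹ σ₀ (by
    rw [map_inv₀, map_inv₀]; exact inv_le_one_of_one_le₀ h)
  obtain ⟨u, hu⟩ := unit_trace hO hq h0 ht σ₀ ⟨y, hy⟩ (by rw [mem_cen]; exact e.not_lt)
  have h1 := (hO _).2 (hφ _ (hy'.mul u.2))
  have hφ0 : φ ≠ 0 := left_ne_zero_of_mul hz
  have ht0 : algebraMap k F t ≠ 0 := right_ne_zero_of_mul hz
  have h2 : y * u = t • ((φ * algebraMap k F t)⁻¹ * y * u * φ) := by
    rw [Algebra.smul_def]; field_simp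
  change v (algebraMap k Ω (Algebra.trace k F (y * u))) = 1 at hu
  rw [h2, map_smul, smul_eq_mul, map_mul, map_mul] at hu
  exact (mul_lt_one_of_nonneg_of_lt_one_left zero_le ht h1).ne hu

/-- a basis of the integral closure and its dual separate the embeddings -/
theorem sep (hO : Vo O k v) (hq : ∀ n : ℕ, n ≠ 0 → v (n : Ω) = 1) {t : k} (h0 : t ≠ 0)
    (ht : v (algebraMap k Ω t) < 1) : ∃ (n : ℕ) (x : Fin n → F), (∀ i, IsIntegral O (x i)) ∧
      ∀ c : (F →ₐ[k] Ω) → Ω, (∀ i, v (∑ σ, c σ * σ (x i)) ≤ v (algebraMap k Ω t)) →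
        ∀ σ, v (c σ) < 1 := by
  classical
  have : Module.IsTorsionFree O F := .trans_faithfulSMul O k F
  have := IsIntegralClosure.module_free O k F (integralClosure O F)
  have := IsIntegralClosure.finite O k F (integralClosure O F)
  have := IsIntegralClosure.isLocalization O k F (integralClosure O F)
  let b := Module.finBasis O (integralClosure O F)
  let B := b.localizationLocalization k (nonZeroDivisors O) F
  have hB : ∀ i, B i = b i := fun i => b.localizationLocalization_apply k _ F i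
  have hd : ∀ i (σ : F →ₐ[k] Ω), v (σ (B.traceDual i)) * v (algebraMap k Ω t) < 1 := fun i =>
    tame hO hq h0 ht fun x hx => by
      have e := B.traceDual.traceDual_repr_apply x i
      rw [Module.Basis.traceDual_traceDual, Algebra.traceForm_apply] at e
      rw [← e]
      exact ⟨_, (b.localizationLocalization_repr_algebraMap k _ F ⟨x, hx⟩ i).symm⟩
  let A : Matrix _ (F →ₐ[k] Ω) Ω := Matrix.of fun i σ => σ (B i)
  let C : Matrix (F →ₐ[k] Ω) _ Ω := Matrix.of fun σ i => σ (B.traceDual i)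
  have h1 : A * C = 1 := by
    ext i j
    simp only [A, C, Matrix.mul_apply, Matrix.of_apply, ← map_mul]
    rw [← trace_eq_sum_embeddings Ω, B.trace_mul_traceDual, Matrix.one_apply]
    split_ifs <;> simp
  have h2 : C * A = 1 := (Matrix.mul_eq_one_comm_of_card_eq _ _ _ (by
    rw [AlgHom.card, Module.finrank_eq_card_basis B])).1 h1
  refine ⟨_, B, fun i => hB i ▸ (b i).2, fun c hc σ₀ => ?_⟩
  have e : c σ₀ = ∑ i, σ₀ (B.traceDual i) * ∑ σ, c σ * σ (B i) := by
    simp_rw [Finset.mul_sum]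
    rw [Finset.sum_comm]
    have : ∀ σ : F →ₐ[k] Ω, ∑ i, σ₀ (B.traceDual i) * (c σ * σ (B i)) = c σ * (C * A) σ₀ σ :=
      fun σ => by
        simp only [A, C, Matrix.mul_apply, Matrix.of_apply, Finset.mul_sum]
        exact Finset.sum_congr rfl fun i _ => by ring
    simp_rw [this, h2, Matrix.one_apply]
    simp
  rw [e]
  refine v.map_sum_lt one_ne_zero fun i _ => ?_
  rw [map_mul]
  exact lt_of_le_of_lt (mul_le_mul_right (hc i) _) (hd i σ₀)

end Vale.Agent.P283R.Sk2
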