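import Vale.Agent.P283R.Be2.Sk0
import Vale.Agent.P283R.H.Adf
import Vale.Agent.P283R.Tp.Ram
import Vale.Agent.P283R.To.Gs2
import Vale.Agent.P283R.Cx.Ext
import Vale.Agent.P287D.Ku.Ex

/-!
# P283R, block BE: the Skoda step, one chart of a blow up
-/

set_option linter.unusedSectionVars false

open Set Polynomial

noncomputable section

namespace Vale.Agent.P283R.Sk1

open Vale.Agent.P287D Vale.Agent.P283M Vale.Agent.P297Z Vale.Agent.P287D.Hd.Ln

variable {K L : Type} [Field K] [Algebra ℂ K] [Field L] [Algebra ℂ L] {n m : ℕ} {y : Fin n → K}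
  {w f : K} {v : Finset K} {c : ℝ}

theorem exists_ru (hK : FF K n) : ∃ (L : Type) (_ : Field L) (_ : Algebra ℂ L) (_ : Algebra K L)
    (_ : IsScalarTower ℂ K L) (z : L), Hd.Ru K z := by
  obtain ⟨L, _, _, _, _, t, h⟩ := Cx.ext K n 1 hK
  refine ⟨L, inferInstance, inferInstance, inferInstance, inferInstance, t 0,
    h.ind.transcendental 0, ?_⟩
  rw [← h.gen, range_unique]
  rfl

theorem inf_att (v : Finset K) (R : Pl K) :
    inf v R = 0 ∨ ∃ a ∈ v, a ≠ 0 ∧ inf v R = -R.ord a := by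
  classical
  obtain ⟨a, ha, a0, e⟩ := R.exists_mz (s := insert 1 v)
    ⟨1, Finset.mem_insert_self _ _, one_ne_zero⟩
  rcases Finset.mem_insert.1 ha with rfl | ha
  · exact .inl (by simp [inf, mx, e])
  · exact .inr ⟨a, ha, a0, by simp [inf, mx, e]⟩

open Classical in
theorem Cd.map (ι : K →ₐ[ℂ] L) (hK : FF K n) (hL : FF L n) (hs : Function.Surjective ι)
    (hy : Frm y) (c0 : 0 ≤ c) (h : Cd y m w v c f) :
    Cd (fun i => ι (y i)) m (ι w) (v.image ι) c (ι f) := by
  refine h.imp (fun e => by simp [e]) fun h Q => ?_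
  obtain ⟨R, l⟩ := (To.trv_or (φ := ι.toRingHom) hL ι.commutes Q).resolve_left fun t =>
    Pl.ring_ne_top Q.toPlace (eq_top_iff.2 fun x _ => by
      obtain ⟨a, rfl⟩ := hs x
      exact t a)
  obtain ⟨h1, h2, h3⟩ := (ram n K L ι y hK hL hy).2 Q R l
  have e0 : (0 : ℝ) < Q.ord (ι R.t) := by exact_mod_cast h2
  have i : Q.ord (ι R.t) * inf v R ≤ inf (v.image ι) Q := by
    rcases inf_att v R with e | ⟨a, ha, a0, e⟩
    · rw [e, mul_zero]
      exact Kl.inf_nn _ Q
    · have := le_inf Q (Finset.mem_image_of_mem ι ha) ((map_ne_zero ι).2 a0)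
      rw [h1] at this
      push_cast at this
      rw [e]
      linarith
  have k := mul_pos e0 (h R)
  have j := mul_le_mul_of_nonneg_left i c0
  rw [ld] at k
  rw [ld, h3, h1 w, h1 f]
  push_cast
  rw [mul_div_assoc]
  linarith

section line

variable [Algebra K L] [IsScalarTower ℂ K L] {z : L} {a : K} {P : Pl L}

theorem tv_ord (t : Hd.Tv K P) (b : K) : P.ord (algebraMap K L b) = 0 := by
  by_cases b0 : b = 0
  · simp [b0]
  · exact Pl.ord_unit _ (t b) (by rw [← map_inv₀]; exact t _)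

theorem rd_eval (hP : Fp z P (X - C a)) (q : K[X]) :
    P.rd (aeval z q) = tvh hP.tv (q.eval a) := by
  have k := rd_ev hP.tv hP.mem
  have e := (k (X - C a)).2
  rw [(Cb.rd_eq_zero (k _).1).2 ((hP.mx _).2 dvd_rfl), eval₂_sub, eval₂_X, eval₂_C, eq_comm,
    sub_eq_zero] at e
  rw [(k q).2, e, eval₂_hom]
  rfl

theorem tvh_sur (h : Hd.Ru K z) (hP : Fp z P (X - C a)) : Function.Surjective (tvh hP.tv) := by
  intro x
  obtain ⟨g, hg, rfl⟩ := Pb.rd_sur P x
  obtain ⟨u, r, k, e⟩ := hP.frac h hg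
  have r0 : r ≠ 0 := fun e => k (e ▸ dvd_zero _)
  have e1 : g * aeval z r = aeval z u := by rw [e, div_mul_cancel₀ _ (h.ne r0)]
  have e2 := Cb.rd_mul hg (rd_ev hP.tv hP.mem r).1
  rw [e1, rd_eval hP, rd_eval hP] at e2
  have r1 : tvh hP.tv (r.eval a) ≠ 0 := (_root_.map_ne_zero _).2 fun e => k (dvd_iff_isRoot.2 e)
  exact ⟨u.eval a / r.eval a, by rw [map_div₀, e2, mul_div_cancel_right₀ _ r1]⟩

open Classical in
theorem big_line (h : Hd.Ru K z) (hv : ∀ a : K, ∃ b ∈ Algebra.adjoin ℂ (v : Set K),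
    ∃ c ∈ Algebra.adjoin ℂ (v : Set K), a = b / c) :
    Big (inf (insert z (v.image (algebraMap K L)))) := big_mx fun g => by
  set T := rts (insert 1 (insert z (v.image (algebraMap K L))))
  have h1 : ∀ x ∈ insert z (v.image (algebraMap K L)), x ∈ T := fun x hx => by
    simpa using div_mem_rts (Finset.mem_insert_of_mem hx) (Finset.mem_insert_self 1 _)
  have h2 : ∀ b ∈ Algebra.adjoin ℂ (v : Set K), algebraMap K L b ∈ T := fun b hb =>
    Algebra.adjoin_le (S := T.toSubalgebra.comap (IsScalarTower.toAlgHom ℂ K L))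
      (fun x hx => h1 _ (Finset.mem_insert_of_mem (Finset.mem_image_of_mem _ hx))) hb
  have h3 : ∀ b, algebraMap K L b ∈ T := fun b => by
    obtain ⟨r, hr, s, hs, rfl⟩ := hv b
    rw [map_div₀]
    exact div_mem (h2 r hr) (h2 s hs)
  have h4 : ∀ q : K[X], aeval z q ∈ T := fun q => by
    rw [aeval_eq_sum_range]
    refine sum_mem fun i _ => ?_
    rw [Algebra.smul_def]
    exact mul_mem (h3 _) (pow_mem (h1 z (Finset.mem_insert_self _ _)) _)
  obtain ⟨r, s, -, rfl⟩ := h.frac g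
  exact isAlgebraic_algebraMap (⟨_, div_mem (h4 r) (h4 s)⟩ : T)

end line

/-- **BLOW** from **LINE** -/
theorem blow_of (line : LINE) : BLOW := by
  classical
  intro n K _ _ y m w v A s t hK hy hm w0 hv hs ht t0 hT c f c0 hf
  obtain ⟨L, _, _, _, _, z, h⟩ := exists_ru hK
  set a := s / t with ha
  obtain ⟨P, hP⟩ := exists_pl h (irreducible_X_sub_C a) (monic_X_sub_C a)
  have hL := h.ff hK
  have hκ := Gm.ff_κ P hL
  have sur := tvh_sur h hP
  have fy : Frm y := Cb.fr_of hK hy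
  have cd := hf.map (tvh hP.tv) hK hκ sur fy c0
  set φ := aeval z (X - C a) with hφ
  have eφ : φ = z - algebraMap K L a := by simp [hφ]
  have oφ : P.ord φ = 1 := hP.ord h
  have φ0 : φ ≠ 0 := h.ne (X_sub_C_ne_zero a)
  set u := insert z (v.image (algebraMap K L)) with hu
  have ov : Ov u P := fun x hx => by
    rcases Finset.mem_insert.1 hx with rfl | hx
    · exact hP.mem
    · obtain ⟨b, -, rfl⟩ := Finset.mem_image.1 hx
      exact hP.tv b
  have ry : (fun i => P.rd (algebraMap K L (y i))) = fun i => tvh hP.tv (y i) :=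
    funext fun i => (tvh_apply hP.tv _).symm
  obtain ⟨h1, h2, h3, h4, h5⟩ := H.adf hL P (φ := φ) (w := algebraMap K L (w * t ^ m))
    (y := fun i => algebraMap K L (y i)) (by omega) (fun i => hP.tv _)
    (ry ▸ (ram n K _ (tvh hP.tv) y hK hκ fy).1) (tv_ord hP.tv _) m rfl
  set Γ := cn L (n + 1) - kap (Fin.cons φ fun i => algebraMap K L (y i) : Fin (n + 1) → L) + dv φ +
    (m : ℝ)⁻¹ • dv (algebraMap K L (w * t ^ m)) with hΓ
  have pr : -(Γ + -(c + 1) • inf u) - (c + 1) • inf u ∈ Prn L := by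
    obtain ⟨j, -, e⟩ := Cb.kap_cn hL h1.ind
    rw [show -(Γ + -(c + 1) • inf u) - (c + 1) • inf u =
      dv j - dv φ - (m : ℝ)⁻¹ • dv (algebraMap K L (w * t ^ m)) by rw [hΓ, e]; module]
    exact sub_mem (sub_mem (dv_mem_Prn _) (dv_mem_Prn _)) (Submodule.smul_mem _ _ (dv_mem_Prn _))
  have ds : ∀ R, dsc (n + 1) (Γ + -(c + 1) • inf u) R = dsc (n + 1) Γ R + (c + 1) * inf u R :=
    fun R => by
      simp only [dsc, Pi.sub_apply, Pi.add_apply, Pi.smul_apply, smul_eq_mul]
      ring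
  have ic := (Kl.inf_smp u).car
  have sub : (insert a v).image (tvh hP.tv) ⊆ u.image P.rd := fun x hx => by
    obtain ⟨b, hb, rfl⟩ := Finset.mem_image.1 hx
    rcases Finset.mem_insert.1 hb with rfl | hb
    · exact Finset.mem_image.2 ⟨z, Finset.mem_insert_self _ _, by simpa using rd_eval hP X⟩
    · exact Finset.mem_image.2 ⟨_, Finset.mem_insert_of_mem (Finset.mem_image_of_mem _ hb),
        (tvh_apply hP.tv b).symm⟩
  obtain ⟨g, g1, g2, g3⟩ := Ku.uext n L hL P (Γ + -(c + 1) • inf u) (tvh hP.tv f)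
    (((Kl.inf_smp u).nef.smul (by linarith)).congr pr)
    (((big_line h hv).smul (by linarith)).congr pr) (by rw [ds, h3, Kl.inf_zero.2 ov]; simp)
    fun Q => cd.imp_right fun k => by
      have k1 := k Q
      have k2 := h5 Q
      have k3 := mul_le_mul_of_nonneg_left (inf_mono sub Q) c0
      have k4 : 0 ≤ inf (u.image P.rd) Q := Kl.inf_nn _ Q
      rw [ry, ← tvh_apply hP.tv] at k2
      rw [(a4 n L hL P Γ h2 _ (Submodule.smul_mem _ _ ic)).1, Aj.res_smul hL P _ ic,
        Kl.res_inf hL ov]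
      simp only [dsc, Pi.sub_apply, Pi.add_apply, Pi.smul_apply, smul_eq_mul] at k2 ⊢
      linarith
  have ι0 : algebraMap K L t ≠ 0 := (_root_.map_ne_zero _).2 t0
  have im : ∀ b ∈ Algebra.adjoin ℂ (v : Set K), algebraMap K L b ∈ Algebra.adjoin ℂ (u : Set L) :=
    fun b hb => Algebra.adjoin_le
      (S := (Algebra.adjoin ℂ (u : Set L)).comap (IsScalarTower.toAlgHom ℂ K L))
      (fun x hx => Algebra.subset_adjoin
        (Finset.mem_insert_of_mem (Finset.mem_image_of_mem _ hx))) hb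
  obtain ⟨k, k0, hk⟩ := pole (v := u) (a := algebraMap K L t * φ) (by
    rw [eφ, mul_sub, ← map_mul, ha, mul_div_cancel₀ _ t0]
    exact sub_mem (mul_mem (im t ht) (Algebra.subset_adjoin (Finset.mem_insert_self _ _)))
      (im s hs)) (mul_ne_zero ι0 φ0)
  have kp : kap (cw y φ) = kap (cw y z) := by
    obtain ⟨d, d0, d1, -, d2⟩ := exists_der hK h hy
    have : d φ = 1 := by rw [eφ, map_sub, d0, d1, sub_zero]
    rw [(d2 φ (this ▸ one_ne_zero)).2, this, dv_one, add_zero]
  obtain ⟨q, q1, q2⟩ := line n K L z y m w v A hK h hy w0 hT (c + 1 + k) g (by linarith)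
    (or_iff_not_imp_left.2 fun g0 R => by
      have i0 : 0 ≤ inf u R := Kl.inf_nn u R
      rcases eq_or_ne R P with rfl | r
      · have o : (0 : ℝ) ≤ R.ord g := by exact_mod_cast Pl.ord_nonneg_of_mem _ g1
        rw [ld, kap_fin hK h hy hP.tv hP.mem, tv_ord hP.tv, Kl.inf_zero.2 ov]
        simp only [Int.cast_zero, zero_div, mul_zero]
        linarith
      · have k1 := (g3 R r).resolve_left g0
        have k2 := h4 R
        have k3 := hk R
        have m0 : (m : ℝ) ≠ 0 := Nat.cast_ne_zero.2 hm.ne'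
        rw [ds] at k1
        rw [Pl.ord_mul _ ι0 φ0] at k3
        rw [ld, show kap (Fin.cons φ fun i => algebraMap K L (y i) : Fin (n + 1) → L) = _ from kp,
          map_mul, map_pow, Pl.ord_mul _ ((_root_.map_ne_zero _).2 w0) (pow_ne_zero _ ι0),
          Pl.ord_pow] at k2
        push_cast at k2 k3
        rw [add_div, mul_div_cancel_left₀ _ m0] at k2
        rw [ld]
        linarith)
  rw [q2, rd_eval hP] at g2
  rw [← (tvh hP.tv).injective g2, eval_eq_sum_range]
  exact sum_mem fun i _ => mul_mem (Algebra.subset_adjoin (.inr (q1 i)))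
    (pow_mem (Algebra.subset_adjoin (.inl rfl)) _)

end Vale.Agent.P283R.Sk1
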