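import Vale.Agent.P283R.Be2.Sk0
import Vale.Agent.P283R.Tp.Hrt
import Vale.Agent.P283R.Tp.Ram
import Vale.Agent.P283R.Tp.Der

/-!
# P283R, block BE: the Skoda step, assembly
-/

open Set

noncomputable section

namespace Vale.Agent.P283R.Sk1

open Vale.Agent.P287D Vale.Agent.P283M Vale.Agent.P297Z

variable {K : Type} [Field K] [Algebra ℂ K] {n : ℕ}

/-- the poles of a function which is integral over the regular functions -/
theorem pole_int {v : Finset K} {B : Subalgebra ℂ K} (hB : B = Algebra.adjoin ℂ (v : Set K))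
    {x : K} (hx : IsIntegral B x) (x0 : x ≠ 0) :
    ∃ k : ℝ, 0 ≤ k ∧ ∀ R : Pl K, -(R.ord x : ℝ) ≤ k * inf v R := by
  obtain ⟨q, hq, e⟩ := hx
  have h : ∀ i : ℕ, ∃ k : ℝ, 0 ≤ k ∧ (((q.coeff i : B) : K) ≠ 0 →
      ∀ R : Pl K, -(R.ord ((q.coeff i : B) : K) : ℝ) ≤ k * inf v R) := fun i => by
    by_cases a0 : ((q.coeff i : B) : K) = 0
    · exact ⟨0, le_rfl, fun b => absurd a0 b⟩
    · obtain ⟨k, k0, hk⟩ := pole (hB.le (q.coeff i).2) a0
      exact ⟨k, k0.le, fun _ => hk⟩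
  choose k k0 hk using h
  refine ⟨∑ i ∈ Finset.range q.natDegree, k i, Finset.sum_nonneg fun i _ => k0 i, fun R => ?_⟩
  by_contra hc
  rw [not_le] at hc
  have i0 : 0 ≤ inf v R := Kl.inf_nn v R
  have s0 : 0 ≤ (∑ i ∈ Finset.range q.natDegree, k i) * inf v R :=
    mul_nonneg (Finset.sum_nonneg fun i _ => k0 i) i0
  have xn : R.ord x < 0 := by
    have : (R.ord x : ℝ) < 0 := by linarith
    exact_mod_cast this
  rw [hq.as_sum] at e
  simp only [Polynomial.eval₂_add, Polynomial.eval₂_pow, Polynomial.eval₂_X,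
    Polynomial.eval₂_finsetSum, Polynomial.eval₂_mul, Polynomial.eval₂_C] at e
  have lt : Pl.val R.toPlace (∑ i ∈ Finset.range q.natDegree,
      algebraMap B K (q.coeff i) * x ^ i) < Pl.val R.toPlace (x ^ q.natDegree) := by
    refine Valuation.map_sum_lt _ ((Valuation.ne_zero_iff _).2 (pow_ne_zero _ x0)) fun i hi => ?_
    by_cases a0 : ((q.coeff i : B) : K) = 0
    · rw [show algebraMap B K (q.coeff i) = 0 from a0, zero_mul, map_zero]
      exact zero_lt_iff.2 ((Valuation.ne_zero_iff _).2 (pow_ne_zero _ x0))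
    have h1 := hk i a0 R
    have h2 : k i * inf v R ≤ (∑ i ∈ Finset.range q.natDegree, k i) * inf v R :=
      mul_le_mul_of_nonneg_right (Finset.single_le_sum (fun j _ => k0 j) hi) i0
    have h3 : R.ord x < R.ord ((q.coeff i : B) : K) := by
      have : (R.ord x : ℝ) < R.ord ((q.coeff i : B) : K) := by linarith
      exact_mod_cast this
    have h4 : (i : ℤ) + 1 ≤ q.natDegree := by exact_mod_cast Finset.mem_range.1 hi
    rw [show algebraMap B K (q.coeff i) = ((q.coeff i : B) : K) from rfl,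
      Pl.val_eq _ _ (mul_ne_zero a0 (pow_ne_zero _ x0)), Pl.val_eq _ _ (pow_ne_zero _ x0),
      WithZero.exp_lt_exp, Pl.ord_mul _ a0 (pow_ne_zero _ x0), Pl.ord_pow, Pl.ord_pow]
    nlinarith
  rw [← neg_eq_of_add_eq_zero_left e, Valuation.map_neg] at lt
  exact lt_irrefl _ lt

theorem Top.mono {y : Fin n → K} {m : ℕ} {w : K} {v : Finset K} {A A' : Subalgebra ℂ K}
    (h : Top y m w v A) (hA : A ≤ A') : Top y m w v A' := fun c f c0 hf => hA (h c f c0 hf)

/-- the blow up of `(t, s₁, …, s_k)`, chart of `t` -/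
theorem iter (hb : BLOW) {y : Fin n → K} {m : ℕ} {w t : K} {v : Finset K} {A : Subalgebra ℂ K}
    (hK : FF K n) (hy : AlgebraicIndependent ℂ y) (hm : 0 < m) (w0 : w ≠ 0)
    (fr : ∀ a : K, ∃ b ∈ Algebra.adjoin ℂ (v : Set K), ∃ c ∈ Algebra.adjoin ℂ (v : Set K),
      a = b / c) (ht : t ∈ Algebra.adjoin ℂ (v : Set K)) (t0 : t ≠ 0) (h : Top y m w v A) :
    ∀ (k : ℕ) (s : Fin k → K), (∀ l, s l ∈ Algebra.adjoin ℂ (v : Set K)) →
      ∃ v' : Finset K, (v' : Set K) = (v : Set K) ∪ range (fun l => s l / t) ∧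
        Top y m (w * (t ^ k) ^ m) v' (Algebra.adjoin ℂ ((A : Set K) ∪ range fun l => s l / t))
  | 0, s, _ => ⟨v, by rw [range_eq_empty, union_empty], by
      rw [pow_zero, one_pow, mul_one]
      exact h.mono fun a ha => Algebra.subset_adjoin (Or.inl ha)⟩
  | k + 1, s, hs => by
    classical
    obtain ⟨v', e, h'⟩ := iter hb hK hy hm w0 fr ht t0 h k (fun l => s l.succ) fun l => hs _
    have le : Algebra.adjoin ℂ (v : Set K) ≤ Algebra.adjoin ℂ (v' : Set K) :=
      Algebra.adjoin_mono (e ▸ subset_union_left)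
    have h2 := hb n K y m _ v' _ (s 0) t hK hy hm
      (mul_ne_zero w0 (pow_ne_zero _ (pow_ne_zero _ t0)))
      (fun a => by
        obtain ⟨b, hb, c, hc, rfl⟩ := fr a
        exact ⟨b, le hb, c, le hc, rfl⟩) (le (hs 0)) (le ht) t0 h'
    refine ⟨insert (s 0 / t) v', ?_, ?_⟩
    · rw [Finset.coe_insert, e, Fin.range_fin_succ, union_insert]
      rfl
    · rw [pow_succ, mul_pow, ← mul_assoc]
      refine h2.mono (Algebra.adjoin_le ?_)
      rintro a (rfl | ha)
      · exact Algebra.subset_adjoin (Or.inr ⟨0, rfl⟩)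
      · refine Algebra.adjoin_mono (union_subset_union_right _ ?_) ha
        rintro _ ⟨l, rfl⟩
        exact ⟨l.succ, rfl⟩

/-- clearing the denominators -/
theorem clear {S : Subalgebra ℂ K} {p : Ideal S} (hp : p.IsPrime) {T : Set K} {f : K}
    (hf : f ∈ Algebra.adjoin ℂ ((Dr13.loc hp : Set K) ∪ T)) :
    ∃ g : S, g ∉ p ∧ g * f ∈ Algebra.adjoin ℂ ((S : Set K) ∪ T) := by
  have hS : ∀ g : S, (g : K) ∈ Algebra.adjoin ℂ ((S : Set K) ∪ T) := fun g =>
    Algebra.subset_adjoin (Or.inl g.2)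
  induction hf using Algebra.adjoin_induction with
  | mem a ha =>
    rcases ha with ⟨s, t, ht, rfl⟩ | ha
    · exact ⟨t, ht, by rw [mul_div_cancel₀ _ (Dr13.ne_of hp ht)]; exact hS s⟩
    · exact ⟨1, Dr13.one_not hp, mul_mem (hS 1) (Algebra.subset_adjoin (Or.inr ha))⟩
  | algebraMap c => exact ⟨1, Dr13.one_not hp, mul_mem (hS 1) (Subalgebra.algebraMap_mem _ c)⟩
  | add a b _ _ ha hb =>
    obtain ⟨g, hg, ha⟩ := ha
    obtain ⟨g', hg', hb⟩ := hb
    refine ⟨g * g', Dr13.mul_not hp hg hg', ?_⟩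
    rw [show ((g * g' : S) : K) * (a + b) = g' * (g * a) + g * (g' * b) by push_cast; ring]
    exact add_mem (mul_mem (hS _) ha) (mul_mem (hS _) hb)
  | mul a b _ _ ha hb =>
    obtain ⟨g, hg, ha⟩ := ha
    obtain ⟨g', hg', hb⟩ := hb
    refine ⟨g * g', Dr13.mul_not hp hg hg', ?_⟩
    rw [show ((g * g' : S) : K) * (a * b) = (g * a) * (g' * b) by push_cast; ring]
    exact mul_mem ha hb

/-- adjoint functions are regular at `p` -/
theorem base {S : Subalgebra ℂ K} {p : Ideal S} (hA : Aff n S) (hn : IsIntegrallyClosed S)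
    (hp : p.IsPrime) {y : Fin n → K} {m : ℕ} {h : K} {v : Finset K}
    (hv : Algebra.adjoin ℂ (v : Set K) = S) (hl : ∀ R, PDat S p R → ld y m h R ≤ 1) :
    Top y m h v (Dr13.loc hp) := by
  rintro c f c0 (rfl | hf)
  · exact zero_mem _
  refine (hrt n K S hA hn).2.2.1 p hp f fun R hR => ?_
  by_cases f0 : f = 0
  · exact f0 ▸ zero_mem _
  have h1 := hl R hR
  obtain ⟨q, -, hq, -⟩ := hR
  have h2 : inf v R ≤ (0 : ℤ) := inf_le le_rfl fun a ha _ => by
    have := Pl.ord_nonneg_of_mem R.toPlace (hq ⟨a, hv ▸ Algebra.subset_adjoin ha⟩).1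
    simpa using this
  have h3 : c * inf v R ≤ 0 := mul_nonpos_of_nonneg_of_nonpos c0 (by simpa using h2)
  have h4 : (-1 : ℝ) < R.ord f := by linarith [hf R]
  have h5 : (-1 : ℤ) < R.ord f := by exact_mod_cast h4
  exact (Pl.ord_nonneg_iff R.toPlace f0).1 (by omega)

/-- **SK1** from BLOW and TWI -/
theorem sk1_of (hb : BLOW) (hw : TWI) : SK1 := by
  intro n k K _ _ S p y m h t₀ t hA hn hp hy hm h0 t0 hl hk x hx
  obtain ⟨v, hv⟩ := hA.fg
  have t0' : (t₀ : K) ≠ 0 := fun e => t0 (Subtype.ext e)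
  obtain ⟨v', e, hT⟩ := iter hb hA.ff hy.ind hm h0
    (fun a => by
      obtain ⟨b, c, rfl⟩ := hA.fr a
      exact ⟨b, hv ▸ b.2, c, hv ▸ c.2, rfl⟩) (hv ▸ t₀.2) t0' (base hA hn hp hv hl) k
    (fun l => (t l : K)) fun l => hv ▸ (t l).2
  obtain ⟨g, hg, c, c0, hc⟩ := hw n K S p y m h v hA.ff hp hy.ind h0 hv hk
  by_cases x0 : x = 0
  · exact ⟨1, Dr13.one_not hp, by rw [x0, mul_zero]; exact zero_mem _⟩
  have hB : Algebra.adjoin ℂ ((S : Set K) ∪ range fun l => (t l : K) / t₀) =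
      Algebra.adjoin ℂ (v' : Set K) := by
    rw [e, Algebra.adjoin_union, Algebra.adjoin_union, hv, Algebra.adjoin_eq]
  obtain ⟨C, C0, hC⟩ := pole_int hB hx x0
  have g0 := Dr13.ne_of hp hg
  have tk := pow_ne_zero k t0'
  obtain ⟨g', hg', hf⟩ := clear hp (hT (c + C) (g * (t₀ : K) ^ k * x) (add_nonneg c0 C0)
    (Or.inr fun R => by
      have h1 := hc R
      have h2 := hC R
      have h3 : inf v R ≤ inf v' R := inf_mono (Finset.coe_subset.1 (e ▸ subset_union_left)) R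
      have h4 := mul_le_mul_of_nonneg_left h3 c0
      have m0 : (m : ℝ) ≠ 0 := by exact_mod_cast hm.ne'
      simp only [ld] at h1 ⊢
      rw [Pl.ord_mul _ h0 (pow_ne_zero _ tk), Pl.ord_pow, Pl.ord_mul _ (mul_ne_zero g0 tk) x0,
        Pl.ord_mul _ g0 tk]
      push_cast
      rw [add_div, mul_div_cancel_left₀ _ m0]
      linarith))
  refine ⟨g' * g, Dr13.mul_not hp hg' hg, ?_⟩
  rw [show ((g' * g : S) : K) * (t₀ : K) ^ k * x = g' * (g * (t₀ : K) ^ k * x) by push_cast; ring]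
  exact hf

end Vale.Agent.P283R.Sk1
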