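import Vale.Agent.P283R.Be2.SkB
import Vale.Agent.P283R.Cx.Gav

/-!
# P283R, block BE: the Skoda step, the product with a line
-/

set_option linter.unusedSectionVars false

open Set Polynomial

noncomputable section

namespace Vale.Agent.P283R.Sk1.L45

open Vale.Agent.P287D Vale.Agent.P283M Vale.Agent.P297Z Vale.Agent.P287D.Hd.Ln

variable {K L : Type} [Field K] [Algebra ℂ K] [Field L] [Algebra ℂ L] [Algebra K L]
  [IsScalarTower ℂ K L] {z f : L} {R : Pl K} {U : Pl L}

theorem poly (h : Hd.Ru K z) (hf : ∀ (P : Pl L) (p : K[X]), Fp z P p → f ∈ P.ring) :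
    ∃ a : K[X], f = aeval z a := by
  let I : Ideal K[X] :=
    { carrier := {b | ∃ a : K[X], aeval z b * f = aeval z a}
      add_mem' := fun ⟨a, ha⟩ ⟨b, hb⟩ => ⟨a + b, by rw [map_add, add_mul, ha, hb, map_add]⟩
      zero_mem' := ⟨0, by simp⟩
      smul_mem' := fun c _ ⟨a, ha⟩ => ⟨c * a, by rw [smul_eq_mul, map_mul, mul_assoc, ha, map_mul]⟩ }
  obtain ⟨b, hb⟩ := (IsPrincipalIdealRing.principal I).principal
  by_cases u : IsUnit b
  · obtain ⟨a, ha⟩ : (1 : K[X]) ∈ I := hb ▸ Ideal.mem_span_singleton.2 u.dvd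
    exact ⟨a, by simpa using ha⟩
  obtain ⟨p, m, i, d⟩ := exists_monic_irreducible_factor b u
  obtain ⟨P, hP⟩ := exists_pl h i m
  obtain ⟨a, r, k, e⟩ := hP.frac h (hf P p hP)
  have r0 : r ≠ 0 := fun e => k (e ▸ dvd_zero _)
  have : r ∈ I := ⟨a, by rw [e, mul_div_cancel₀ _ (h.ne r0)]⟩
  rw [hb] at this
  exact (k (d.trans (Ideal.mem_span_singleton.1 this))).elim

theorem unit (l : Lies (algebraMap K L) U R) (hz : z ∈ U.ring)
    (tr : ∀ q : R.κ[X], eval₂ l.κ (U.rd z) q = 0 → q = 0) {b : K[X]} (hb : ∀ i, b.coeff i ∈ R.ring)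
    {j : ℕ} (hj : R.rd (b.coeff j) ≠ 0) : U.ord (aeval z b) = 0 := by
  obtain ⟨q, rfl⟩ := (mem_lifts b).1 ((lifts_iff_coeff_lifts (f := R.ring.subtype) b).2
    fun i => ⟨⟨_, hb i⟩, rfl⟩)
  let ρ : R.ring →+* R.κ := IsLocalRing.residue R.ring
  have hρ : ∀ x : R.ring, ρ x = R.rd x := fun x => (Cb.rd_of x.2).symm
  have k : ∀ q : R.ring[X], aeval z (q.map R.ring.subtype) ∈ U.ring ∧
      U.rd (aeval z (q.map R.ring.subtype)) = eval₂ l.κ (U.rd z) (q.map ρ) := fun q => by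
    induction q using Polynomial.induction_on with
    | C a =>
      rw [map_C, map_C, aeval_C, eval₂_C, hρ]
      exact ⟨(l _).1 a.2, (l.isRd _ a.2).symm⟩
    | add p q hp hq =>
      rw [Polynomial.map_add, Polynomial.map_add, map_add, eval₂_add]
      exact ⟨add_mem hp.1 hq.1, by rw [Cb.rd_add hp.1 hq.1, hp.2, hq.2]⟩
    | monomial n a k =>
      rw [pow_succ, ← mul_assoc, Polynomial.map_mul, Polynomial.map_mul ρ, map_X, map_X, map_mul,
        aeval_X, eval₂_mul_X]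
      exact ⟨mul_mem k.1 hz, by rw [Cb.rd_mul k.1 hz, k.2]⟩
  refine Cx.Gav.ord_zero (k q).1 fun e => hj ?_
  have := congrArg (coeff · j) (tr _ ((k q).2 ▸ e))
  simp only [coeff_map, coeff_zero, hρ] at this
  rw [coeff_map]
  exact this

theorem ord_le (l : Lies (algebraMap K L) U R) (e1 : U.ord (algebraMap K L R.t) = 1)
    (hz : z ∈ U.ring) (tr : ∀ q : R.κ[X], eval₂ l.κ (U.rd z) q = 0 → q = 0) {a : K[X]}
    (a0 : aeval z a ≠ 0) {j : ℕ} (hj : a.coeff j ≠ 0) : U.ord (aeval z a) ≤ R.ord (a.coeff j) := by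
  obtain ⟨i, hi, mn⟩ := a.support.exists_min_image (fun i => R.ord (a.coeff i))
    ⟨j, mem_support_iff.2 hj⟩
  have t0 := zpow_ne_zero (-R.ord (a.coeff i)) R.t_ne
  have o : ∀ s, a.coeff s ≠ 0 → R.ord (R.t ^ (-R.ord (a.coeff i)) * a.coeff s) =
      R.ord (a.coeff s) - R.ord (a.coeff i) := fun s hs => by
    rw [Pl.ord_mul _ t0 hs, R.ord_t_zpow]
    ring
  have mm : ∀ s, (C (R.t ^ (-R.ord (a.coeff i))) * a).coeff s ∈ R.ring := fun s => by
    rw [coeff_C_mul]
    by_cases hs : a.coeff s = 0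
    · rw [hs, mul_zero]
      exact zero_mem _
    · exact Cb.mem_ord (by rw [o s hs]; exact sub_nonneg.2 (mn s (mem_support_iff.2 hs)))
  have := unit l hz tr mm (j := i) (by
    rw [Ne, Cb.rd_eq_zero (mm i), Cb.mx_iff, coeff_C_mul, o i (mem_support_iff.1 hi), sub_self]
    exact not_or.2 ⟨mul_ne_zero t0 (mem_support_iff.1 hi), lt_irrefl _⟩)
  rw [map_mul, aeval_C, Pl.ord_mul _ ((_root_.map_ne_zero _).2 t0) a0, l.ord, e1,
    R.ord_t_zpow] at this
  have := mn j (mem_support_iff.2 hj)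
  omega

/-- **LINE** -/
theorem line : LINE := by
  classical
  intro n K L _ _ _ _ _ _ z y m w v A hK h hy w0 hT c f c0 hf
  by_cases f0 : f = 0
  · exact ⟨0, fun _ => zero_mem _, by simp [f0]⟩
  replace hf := hf.resolve_left f0
  obtain ⟨a, rfl⟩ := poly (f := f) h fun P p hP => by
    have k := hf P
    rw [ld, kap_fin hK h hy hP.tv hP.mem, tv_ord hP.tv, Kl.inf_zero.2 fun x hx => by
      rcases Finset.mem_insert.1 hx with rfl | hx
      · exact hP.mem
      · obtain ⟨b, -, rfl⟩ := Finset.mem_image.1 hx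
        exact hP.tv b] at k
    simp only [Int.cast_zero, zero_div, mul_zero, add_zero, sub_zero] at k
    have : (0 : ℤ) < 1 + P.ord f := by exact_mod_cast k
    exact Cb.mem_ord (by omega)
  refine ⟨a, fun j => hT c _ c0 (or_iff_not_imp_left.2 fun j0 R => ?_), rfl⟩
  obtain ⟨U, l, e1, sm, hp, -⟩ := exists_gauss (y := fun _ : Fin 1 => z)
    (algebraicIndependent_unique_type_iff.2 h.1) (by rw [range_const]; exact h.2) R
  have lo : ∀ b, U.ord (algebraMap K L b) = R.ord b := fun b => by rw [l.ord, e1, one_mul]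
  have o := ord_le l e1 (sm 0) (fun q hq => by
    let _ := l.κ.toAlgebra
    have t : Transcendental R.κ (U.rd z) :=
      (algebraicIndependent_iff.2 hp : AlgebraicIndependent R.κ fun _ : Fin 1 => U.rd z
        ).transcendental 0
    exact by_contra fun q0 => t ⟨q, q0, hq⟩) f0 j0
  let e : Fin (n + 1) ≃ Fin n ⊕ Fin 1 :=
    (eq1 n).symm.trans ((Equiv.refl _).sumCongr (Equiv.ofUnique _ _))
  have ee : (fun i => Sum.elim (fun j => algebraMap K L (y j)) (fun _ : Fin 1 => z) (e i)) =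
      cw y z := funext (Fin.cases rfl fun _ => rfl)
  have k := Cx.Gav.kap_gauss hK (h.ff hK)
    (fun c => (IsScalarTower.algebraMap_apply ℂ K L c).symm) e (ee ▸ cw_ind h hy) l sm hp
  have i : inf (insert z (v.image (algebraMap K L))) U ≤ inf v R := by
    obtain ⟨k, k0, e⟩ := inf_int v R
    rw [e]
    refine inf_le k0 fun x hx x0 => ?_
    rcases Finset.mem_insert.1 hx with rfl | hx
    · have := Pl.ord_nonneg_of_mem _ (sm 0)
      omega
    · obtain ⟨b, hb, rfl⟩ := Finset.mem_image.1 hx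
      rw [lo]
      exact_mod_cast (le_inf R hb fun e => x0 (by simp [e])).trans_eq e
  have k1 := hf U
  have k2 := mul_le_mul_of_nonneg_left i c0
  have k3 : (U.ord (aeval z a) : ℝ) ≤ R.ord (a.coeff j) := by exact_mod_cast o
  rw [ee, e1] at k
  rw [ld, lo] at k1
  rw [ld]
  push_cast at k
  linarith

/-- **BLOW** -/
theorem blow : BLOW := blow_of line

end Vale.Agent.P283R.Sk1.L45
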