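import Vale.Agent.P283R.Tp.Hrt
import Vale.Agent.P283R.Be2.Nn
import Vale.Agent.P283R.Be2.Cs
import Vale.Agent.P283R.H.Adf
import Vale.Agent.P283R.H.Mch
import Vale.Agent.P287D.Pb.Up

/-!
# P283R, block BE: the projection to a hypersurface, the places over the order at the origin
-/

set_option linter.all false

open Set MvPolynomial

noncomputable section

namespace Vale.Agent.P283R.Skp

open Vale.Agent.P287D Vale.Agent.P297Z Tx

theorem dual {A K F : Type} [CommRing A] [IsDomain A] [IsIntegrallyClosed A] [Field K]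
    [Algebra A K] [IsFractionRing A K] [Field F] [Algebra K F] [Algebra A F] [IsScalarTower A K F]
    [FiniteDimensional K F] [Algebra.IsSeparable K F] {y a : F} (hy : Algebra.adjoin K {y} = ⊤)
    (hi : IsIntegral A y) (ha : IsIntegral A a) : ∃ q : Polynomial A,
      Polynomial.aeval y (Polynomial.derivative (minpoly K y)) * a = Polynomial.aeval y q := by
  have h : a ∈ (Algebra.traceForm K F).dualSubmodule
      (Subalgebra.toSubmodule (Algebra.adjoin A {y})) := fun b hb => by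
    have hb' : IsIntegral A b := adjoin_le_integralClosure hi hb
    obtain ⟨c, hc⟩ := IsIntegrallyClosed.isIntegral_iff.1
      (Algebra.isIntegral_trace (L := K) (ha.mul hb'))
    exact Submodule.mem_one.2 ⟨c, hc⟩
  rw [traceForm_dualSubmodule_adjoin A K hy hi, Submodule.mem_smul_pointwise_iff_exists] at h
  obtain ⟨b, hb, rfl⟩ := h
  rw [Subalgebra.mem_toSubmodule, Algebra.adjoin_singleton_eq_range_aeval] at hb
  obtain ⟨q, rfl⟩ := hb
  refine ⟨q, ?_⟩
  rw [smul_eq_mul, mul_inv_cancel_left₀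
    ((Algebra.IsSeparable.isSeparable K y).aeval_derivative_ne_zero (minpoly.aeval K y))]
  rfl

variable {k F : Type} [Field k] [Algebra ℂ k] [Field F] [Algebra ℂ F] {d n : ℕ}

/-- `k = ℂ(t)` -/
def Rat (t : Fin d → k) : Prop :=
  AlgebraicIndependent ℂ t ∧ ∀ z, ∃ r s : MvPolynomial (Fin d) ℂ, z = aeval t r / aeval t s

theorem rat_adjoin {t : Fin d → F} (ht : AlgebraicIndependent ℂ t) :
    Rat fun l => (⟨t l, IntermediateField.subset_adjoin _ _ ⟨l, rfl⟩⟩ :
      IntermediateField.adjoin ℂ (range t)) := by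
  refine ⟨AlgebraicIndependent.of_comp (IntermediateField.adjoin ℂ (range t)).val ht, fun z => ?_⟩
  obtain ⟨r, s, e⟩ := (IntermediateField.mem_adjoin_range_iff ℂ t z).1 z.2
  refine ⟨r, s, Subtype.ext (e.trans ?_)⟩
  have k := fun G => comp_aeval_apply (R := ℂ) (fun l => (⟨t l,
    IntermediateField.subset_adjoin _ _ ⟨l, rfl⟩⟩ : IntermediateField.adjoin ℂ (range t)))
      (IntermediateField.adjoin ℂ (range t)).val G
  exact (congrArg₂ (· / ·) (k r).symm (k s).symm).trans (map_div₀ _ _ _).symm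

theorem Rat.ff {t : Fin d → k} (h : Rat t) : FF k d := by
  have e : IntermediateField.adjoin ℂ (range t) = ⊤ :=
    eq_top_iff.2 fun z _ => (IntermediateField.mem_adjoin_range_iff ℂ t z).2 (h.2 z)
  refine ⟨t, h.1, ?_⟩
  rw [e]
  exact Module.Finite.of_surjective (Algebra.linearMap _ k) fun x => ⟨⟨x, trivial⟩, rfl⟩

section

variable [Algebra k F] [IsScalarTower ℂ k F] [FiniteDimensional k F]

/-- **the hypersurface** -/
theorem poly {t : Fin d → k} (h : Rat t) {t' : Fin d → F} (e : ∀ l, algebraMap k F (t l) = t' l)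
    {y : F} (hy : Algebra.adjoin k {y} = ⊤) (hi : IsIntegral (Algebra.adjoin ℂ (range t')) y) :
    ∃ Φ : Polynomial (MvPolynomial (Fin d) ℂ), Φ.Monic ∧ (∀ G, ev2 t' y G = 0 ↔ Φ ∣ G) ∧
      ev2 t' y Φ.derivative = Polynomial.aeval y (Polynomial.derivative (minpoly k y)) ∧
      (∀ a : F, ∃ G H, a = ev2 t' y G / ev2 t' y H) ∧
      ∀ a : F, IsIntegral (Algebra.adjoin ℂ (range t')) a →
        (∃ G : Polynomial (MvPolynomial (Fin d) ℂ), G.Monic ∧ ev2 t' a G = 0) ∧
          ∃ G, ev2 t' y Φ.derivative * a = ev2 t' y G := by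
  have : CharZero k := charZero_of_injective_algebraMap (algebraMap ℂ k).injective
  let A := MvPolynomial (Fin d) ℂ
  let : Algebra A k := (aeval t : A →ₐ[ℂ] k).toRingHom.toAlgebra
  let : Algebra A F := (aeval t' : A →ₐ[ℂ] F).toRingHom.toAlgebra
  have e' : ∀ a : A, aeval t' a = algebraMap k F (aeval t a) := fun a => by
    rw [← IsScalarTower.toAlgHom_apply ℂ k F, comp_aeval_apply]
    exact congrArg (aeval · a) (funext fun l => (e l).symm)
  have : IsScalarTower A k F := IsScalarTower.of_algebraMap_eq e'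
  have : FaithfulSMul A k := (faithfulSMul_iff_algebraMap_injective _ _).2 h.1
  have : IsFractionRing A k := IsFractionRing.of_field A k h.2
  have : FaithfulSMul A F := (faithfulSMul_iff_algebraMap_injective _ _).2 fun a b c =>
    h.1 ((algebraMap k F).injective ((e' a).symm.trans (c.trans (e' b))))
  have hI : ∀ a : F, IsIntegral (Algebra.adjoin ℂ (range t')) a → IsIntegral A a := fun a ha => by
    have m : ∀ a : A, aeval t' a ∈ Algebra.adjoin ℂ (range t') := fun a => by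
      rw [Algebra.adjoin_range_eq_range_aeval]; exact ⟨a, rfl⟩
    let : Algebra A (Algebra.adjoin ℂ (range t')) :=
      ((aeval t' : A →ₐ[ℂ] F).codRestrict _ m).toRingHom.toAlgebra
    have : IsScalarTower A (Algebra.adjoin ℂ (range t')) F :=
      IsScalarTower.of_algebraMap_eq fun _ => rfl
    have : Algebra.IsIntegral A (Algebra.adjoin ℂ (range t')) :=
      Algebra.isIntegral_of_surjective fun b => by
        have : (b : F) ∈ (aeval t' : A →ₐ[ℂ] F).range :=
          Algebra.adjoin_range_eq_range_aeval ℂ t' ▸ b.2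
        exact this.imp fun a e => Subtype.ext e
    exact isIntegral_trans a ha
  have ev : ∀ (a : F) G, ev2 t' a G = Polynomial.aeval (R := A) a G := fun _ _ => rfl
  have iy := hI y hi
  have e1 : ev2 t' y (minpoly A y).derivative =
        Polynomial.aeval y (Polynomial.derivative (minpoly k y)) := by
    rw [ev, minpoly.isIntegrallyClosed_eq_field_fractions' k iy,
      Polynomial.derivative_map, Polynomial.aeval_map_algebraMap]
  have eu : ∀ a : F, IsIntegral A a → ∃ G, ev2 t' y (minpoly A y).derivative * a = ev2 t' y G :=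
    fun a ha => (dual hy iy ha).imp fun q hq => by rw [e1, hq, ev]
  refine ⟨minpoly A y, minpoly.monic iy, fun G => minpoly.isIntegrallyClosed_dvd_iff iy G, e1,
    fun a => ?_, fun a ha => ⟨hI a ha, eu a (hI a ha)⟩⟩
  have : Algebra.IsAlgebraic A F := (IsFractionRing.comap_isAlgebraic_iff (K := k)).2 inferInstance
  obtain ⟨c, c0, hc⟩ := (Algebra.IsAlgebraic.isAlgebraic (R := A) a).exists_integral_multiple
  obtain ⟨G, hG⟩ := eu _ hc
  have n1 : ev2 t' y (minpoly A y).derivative ≠ 0 := e1 ▸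
    (Algebra.IsSeparable.isSeparable k y).aeval_derivative_ne_zero (minpoly.aeval k y)
  have n2 : algebraMap A F c ≠ 0 := (map_ne_zero_iff _ (FaithfulSMul.algebraMap_injective A F)).2 c0
  refine ⟨G, (minpoly A y).derivative * Polynomial.C c, ?_⟩
  rw [← hG, map_mul, ev y (Polynomial.C c), Polynomial.aeval_C, Algebra.smul_def]
  field_simp

/-- a valuation ring over a place is a place -/
theorem pl_over (W : Pl k) (V : ValuationSubring F) (h : ∀ a, a ∈ W.ring ↔ algebraMap k F a ∈ V) :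
    ∃ R : Pl F, R.ring = V := by
  obtain ⟨R, hR⟩ := (Pb.fund0 (K' := F) W).2.1 ⟨V, ValuationSubring.ext _ _ fun a => (h a).symm⟩
  exact ⟨R.1, congrArg P298.H416.Ovr.val hR⟩

end

/-- the chart of the blow up -/
def ch (t : Fin (n + 1) → k) : Fin (n + 1) → k := Fin.cons (t 0) fun l => t l.succ / t 0

/-- **the order at the origin** -/
theorem place {t : Fin (n + 1) → k} (h : Rat t) : ∃ W : Pl k, 0 < W.ord (t 0) ∧
    (∀ b ∈ Algebra.adjoin ℂ (range (ch t)), b ∈ W.ring) ∧
    (∀ G : MvPolynomial (Fin n) ℂ, G ≠ 0 → aeval (fun l => t l.succ / t 0) G ≠ 0 ∧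
      W.ord (aeval (fun l => t l.succ / t 0) G) = 0) ∧
    ∀ c ∈ W.ring, ∃ b ∈ Algebra.adjoin ℂ (range (ch t)), b ≠ 0 ∧ b⁻¹ ∈ W.ring ∧
      b * c ∈ Algebra.adjoin ℂ (range (ch t)) := by
  set B := Algebra.adjoin ℂ (range (ch t)) with hB
  have t0 : t 0 ≠ 0 := h.1.ne_zero 0
  have m : ∀ l, ch t l ∈ B := fun l => Algebra.subset_adjoin ⟨l, rfl⟩
  have mt : ∀ r, aeval t r ∈ B := fun r => by
    have : Algebra.adjoin ℂ (range t) ≤ B := Algebra.adjoin_le (range_subset_iff.2 fun l => by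
      refine Fin.cases (m 0) (fun l => ?_) l
      have := mul_mem (m 0) (m l.succ)
      rwa [ch, Fin.cons_zero, Fin.cons_succ, mul_div_cancel₀ _ t0] at this)
    exact this (by rw [Algebra.adjoin_range_eq_range_aeval]; exact ⟨r, rfl⟩)
  have fr : ∀ a : k, ∃ s u : B, a = s / u := fun a =>
    let ⟨r, s, e⟩ := h.2 a
    ⟨⟨_, mt r⟩, ⟨_, mt s⟩, e⟩
  have aff : Aff (n + 1) B := ⟨h.ff, Subalgebra.fg_def.2 ⟨_, finite_range _, rfl⟩, fr⟩
  have : Algebra.IsAlgebraic B k := ⟨fun a => by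
    obtain ⟨x, y, rfl⟩ := fr a
    rw [div_eq_mul_inv]
    exact (isAlgebraic_algebraMap x).mul (isAlgebraic_algebraMap y).inv⟩
  have ind := (Algebra.IsAlgebraic.isTranscendenceBasis_of_lift_le_trdeg_of_finite ℂ (ch t)
    (by simp [Bm.trdeg_eq h.ff])).1
  have nor : IsIntegrallyClosed B := IsIntegrallyClosed.of_equiv ind.aevalEquiv.toRingEquiv
  have := aff.noeth
  have e : ind.aevalEquiv (X 0) = ⟨ch t 0, m 0⟩ := Subtype.ext (by simp)
  have pr : Prime (⟨ch t 0, m 0⟩ : B) := e ▸ (MulEquiv.prime_iff ind.aevalEquiv).2 X_prime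
  set q := Ideal.span {(⟨ch t 0, m 0⟩ : B)} with hq
  have qp : q.IsPrime := (Ideal.span_singleton_prime pr.ne_zero).2 pr
  have q0 : (⟨ch t 0, m 0⟩ : B) ∈ q := Ideal.mem_span_singleton_self _
  have q1 : q.height = 1 := le_antisymm
    (Ideal.height_le_one_of_isPrincipal_of_mem_minimalPrimes q q
      (by rw [Ideal.minimalPrimes_eq_subsingleton_self]; rfl))
    (Order.one_le_iff_ne_zero.2 fun e => t0 (by
      rw [Ideal.height_eq_zero_iff_eq_bot.1 e, Ideal.mem_bot] at q0
      exact congrArg Subtype.val q0))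
  obtain ⟨W, c, lo⟩ := Hr.exists_pl aff nor qp q1
  refine ⟨W, ((Hr.cen_iff c _).1 q0).resolve_left t0, fun b hb => (c ⟨b, hb⟩).1, fun G G0 => ?_,
    fun x hx => ?_⟩
  · have k1 : ind.aevalEquiv (rename Fin.succ G) ∉ q := fun u => by
      rw [hq, Ideal.mem_span_singleton, ← e, map_dvd_iff] at u
      have := map_dvd (aeval (Fin.cons 0 X : Fin (n + 1) → MvPolynomial (Fin n) ℂ)) u
      rw [aeval_X, Fin.cons_zero, zero_dvd_iff, aeval_rename] at this
      exact G0 ((aeval_X_left_apply G).symm.trans this)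
    have k2 : (ind.aevalEquiv (rename Fin.succ G) : k) = aeval (fun l => t l.succ / t 0) G := by
      rw [AlgebraicIndependent.aevalEquiv_apply_coe, aeval_rename]
      rfl
    exact ⟨fun u => k1 ((Subtype.ext (k2.trans u) : _ = (0 : B)) ▸ q.zero_mem),
      k2 ▸ Hr.cen_ord c k1⟩
  obtain ⟨s, u, hu, rfl⟩ := lo x hx
  have u0 : (u : k) ≠ 0 := fun e => hu ((Subtype.ext e : u = 0) ▸ q.zero_mem)
  refine ⟨u, u.2, u0, (Pl.ord_nonneg_iff W.toPlace (inv_ne_zero u0)).1 ?_, ?_⟩
  · rw [Pl.ord_inv, Hr.cen_ord c hu, neg_zero]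
  · rw [mul_div_cancel₀ _ u0]; exact s.2

/-- a valuation ring over a place, in any extension -/
theorem val_over {Ω : Type} [Field Ω] (φ : k →+* Ω) (W : Pl k) :
    ∃ V : ValuationSubring Ω, ∀ a, a ∈ W.ring ↔ φ a ∈ V := by
  have tm : W.t ∈ W.ring := (Pl.ord_nonneg_iff W.toPlace W.t_ne).1 (by rw [W.ord_t]; omega)
  obtain ⟨V, r1, r2⟩ := Ideal.image_subset_nonunits_valuationSubring
    (A := W.ring.toSubring.map φ) (Ideal.span {⟨φ W.t, W.t, tm, rfl⟩}) (by
      rw [Ne, Ideal.span_singleton_eq_top, isUnit_iff_exists_inv]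
      rintro ⟨⟨_, q, hq, rfl⟩, e⟩
      have e' : W.t * q = 1 := φ.injective (by
        rw [map_mul, map_one]; exact congrArg Subtype.val e)
      have := congrArg W.ord e'
      rw [Pl.ord_mul _ W.t_ne (right_ne_zero_of_mul_eq_one e'), W.ord_t, Pl.ord_one] at this
      have := Pl.ord_nonneg_of_mem W.toPlace hq
      omega)
  have r3 : φ W.t ∈ V.nonunits := r2 ⟨_, Ideal.mem_span_singleton_self _, rfl⟩
  refine ⟨V, fun a => ⟨fun ha => r1 ⟨a, ha, rfl⟩, fun ha => by_contra fun hn => ?_⟩⟩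
  have a0 : a ≠ 0 := fun e => hn (e ▸ zero_mem _)
  have o : W.ord a < 0 := not_le.1 fun e => hn ((Pl.ord_nonneg_iff W.toPlace a0).1 e)
  have c : (a * W.t)⁻¹ ∈ W.ring := (Pl.ord_nonneg_iff W.toPlace
    (inv_ne_zero (mul_ne_zero a0 W.t_ne))).1 (by
      rw [Pl.ord_inv, Pl.ord_mul _ a0 W.t_ne, W.ord_t]; omega)
  have := mul_mem ha (r1 ⟨_, c, rfl⟩)
  rw [← map_mul, mul_inv, mul_inv_cancel_left₀ a0, map_inv₀] at this
  exact (V.mem_nonunits_iff_or.1 r3).elim ((map_ne_zero φ).2 W.t_ne) fun e => e this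

/-- the log discrepancy of a place over the order at the origin -/
theorem kap_ch (hF : FF F (n + 1)) {t : Fin (n + 1) → F} (ht : AlgebraicIndependent ℂ t)
    (R : Pl F) (h0 : 0 < R.ord (t 0)) (hu : ∀ G : MvPolynomial (Fin n) ℂ, G ≠ 0 →
      aeval (fun l => t l.succ / t 0) G ≠ 0 ∧ R.ord (aeval (fun l => t l.succ / t 0) G) = 0) :
    (∀ l, R.ord (t l) = R.ord (t 0)) ∧ 1 + kap t R = (n + 1 : ℕ) * R.ord (t 0) := by
  have o : ∀ l : Fin n, R.ord (t l.succ / t 0) = 0 := fun l => by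
    simpa using (hu (X l) (X_ne_zero l)).2
  have o' : ∀ l, R.ord (t l) = R.ord (t 0) := fun l => Fin.cases rfl (fun l => by
    have := o l
    rw [Pl.ord_div _ (ht.ne_zero _) (ht.ne_zero _)] at this
    omega) l
  have m : ∀ l : Fin n, t l.succ / t 0 ∈ R.ring := fun l => Cb.mem_ord (o l).ge
  have ind : AlgebraicIndependent ℂ fun l : Fin n => R.rd (t l.succ / t 0) :=
    algebraicIndependent_iff.2 fun G e => by_contra fun G0 => by
      let B := Algebra.adjoin ℂ (range fun l : Fin n => t l.succ / t 0)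
      have hB : ∀ b ∈ B, b ∈ R.ring := fun b hb => Algebra.adjoin_induction
        (fun _ ⟨l, e⟩ => e ▸ m l) R.con (fun _ _ _ _ => add_mem) (fun _ _ _ _ => mul_mem) hb
      let u : Fin n → B := fun l => ⟨_, Algebra.subset_adjoin ⟨l, rfl⟩⟩
      have e1 : ((aeval u G : B) : F) = aeval (fun l : Fin n => t l.succ / t 0) G :=
        comp_aeval_apply u B.val G
      have e2 : R.rd (aeval u G : B) = 0 := (comp_aeval_apply u (Bm.rdh R B hB) G).trans e
      rw [Bm.rd_zero_iff R (hB _ (aeval u G).2), e1] at e2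
      exact e2.elim (hu G G0).1 (hu G G0).2.symm.not_lt.elim
  obtain ⟨⟨D, hD⟩, -, h3, -⟩ := H.adf0 hF R h0.ne' m (Cb.fr_of (Bm.ff_κ hF R) ind)
  have dl : ∀ j, H.Dlg t (ch t j) := fun j => Fin.cases (H.Dlg.self 0 (ht.ne_zero 0))
    (fun l => (H.Dlg.self _ (ht.ne_zero _)).div (H.Dlg.self 0 (ht.ne_zero 0))) j
  have h4 := congrFun (H.kp_log hF (Equiv.refl _) ht.ne_zero dl (H.ind_of_fr hD)).2 R
  rw [H.kp_eq hF _ (Equiv.refl _), H.kp_eq hF _ (Equiv.refl _)] at h4
  refine ⟨o', ?_⟩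
  simp only [dsc, Pi.sub_apply, Pi.add_apply, Finset.sum_apply, dv, o', Equiv.coe_refl,
    Function.comp_id, Finset.sum_const, Finset.card_univ, Fintype.card_fin, nsmul_eq_mul] at h3 h4
  rw [Fin.sum_univ_succ] at h4
  simp only [ch, Fin.cons_zero, Fin.cons_succ, o, Int.cast_zero, Finset.sum_const_zero] at h4
  linarith

end Vale.Agent.P283R.Skp
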