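import Vale.Agent.P283R.Co.St

/-!
# P283R, block BE: twisted evaluation of polynomials, class by class
-/

attribute [-instance] HahnSeries.powerSeriesAlgebra

open MvPolynomial

noncomputable section

namespace Vale.Agent.P283R.Btw

open Vale.Agent.P283R.Co

variable {E : ℕ} {ι : Type}

/-- the value of the monomial `m` at `c` -/
def mv (c : Fin E → ℂ) (m : Fin E →₀ ℕ) : ℂ := ∏ j, c j ^ m j

/-- the weight of a monomial -/
def wt (w : Fin E → ℝ) (m : Fin E →₀ ℕ) : ℝ := ∑ j, (m j : ℝ) * w j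

/-- the diagonal substitution -/
def scl (c : Fin E → ℂ) : MvPolynomial (Fin E) ℂ →ₐ[ℂ] MvPolynomial (Fin E) ℂ :=
  aeval fun j => c j • X j

theorem aeval_scl {R : Type} [CommRing R] [Algebra ℂ R] (y : Fin E → R) (c : Fin E → ℂ)
    (G : MvPolynomial (Fin E) ℂ) : aeval y (scl c G) = aeval (fun j => c j • y j) G := by
  rw [scl, ← AlgHom.comp_apply, comp_aeval]
  simp

theorem scl_mon (c : Fin E → ℂ) (m : Fin E →₀ ℕ) (a : ℂ) :
    scl c (monomial m a) = monomial m (mv c m * a) := by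
  rw [scl, aeval_monomial, monomial_eq, Finsupp.prod_fintype _ _ fun _ => pow_zero _,
    Finsupp.prod_fintype _ _ fun _ => pow_zero _]
  simp only [smul_eq_C_mul, mul_pow, Finset.prod_mul_distrib, mv, map_mul, map_prod, map_pow,
    algebraMap_eq]
  ring

theorem coeff_scl (c : Fin E → ℂ) (G : MvPolynomial (Fin E) ℂ) (m : Fin E →₀ ℕ) :
    coeff m (scl c G) = mv c m * coeff m G := by
  classical
  induction G using MvPolynomial.induction_on' with
  | monomial u a =>
    rw [scl_mon, coeff_monomial, coeff_monomial]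
    split_ifs with h
    · rw [h]
    · simp
  | add p q hp hq => rw [map_add, coeff_add, coeff_add, hp, hq, mul_add]

open Classical in
/-- the part of `G` with the exponents in `q` -/
def pc (q : (Fin E →₀ ℕ) → Prop) (G : MvPolynomial (Fin E) ℂ) : MvPolynomial (Fin E) ℂ :=
  ∑ m ∈ G.support.filter q, monomial m (coeff m G)

open Classical in
theorem coeff_pc (q : (Fin E →₀ ℕ) → Prop) (G : MvPolynomial (Fin E) ℂ) (m : Fin E →₀ ℕ) :
    coeff m (pc q G) = if q m then coeff m G else 0 := by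
  rw [pc, coeff_sum]
  simp only [coeff_monomial, Finset.sum_ite_eq', Finset.mem_filter, mem_support_iff]
  by_cases a : coeff m G = 0 <;> simp [a]

theorem pc_supp {q : (Fin E →₀ ℕ) → Prop} {G : MvPolynomial (Fin E) ℂ} {m : Fin E →₀ ℕ}
    (h : m ∈ (pc q G).support) : q m ∧ m ∈ G.support := by
  rw [mem_support_iff, coeff_pc] at h
  split_ifs at h with a
  exacts [⟨a, mem_support_iff.2 h⟩, (h rfl).elim]

theorem sub_pc_supp {q : (Fin E →₀ ℕ) → Prop} {G : MvPolynomial (Fin E) ℂ} {m : Fin E →₀ ℕ}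
    (h : m ∈ (G - pc q G).support) : ¬q m ∧ m ∈ G.support := by
  rw [mem_support_iff, coeff_sub, coeff_pc] at h
  split_ifs at h with a
  · exact (h (sub_self _)).elim
  · exact ⟨a, mem_support_iff.2 (by simpa using h)⟩

/-- the projection to an eigenspace -/
theorem proj (χ : ι → Fin E → ℂ) (l : ι → ℂ) (W : Set (MvPolynomial (Fin E) ℂ))
    (hW : ∀ G ∈ W, ∀ i μ, μ ≠ l i → (l i - μ)⁻¹ • (scl (χ i) G - μ • G) ∈ W) :
    ∀ G ∈ W, pc (fun m => ∀ i, mv (χ i) m = l i) G ∈ W := by
  classical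
  intro G
  induction h : G.support.card using Nat.strong_induction_on generalizing G with
  | _ n ih =>
    intro hG
    by_cases a : ∀ m ∈ G.support, ∀ i, mv (χ i) m = l i
    · convert hG
      ext m
      rw [coeff_pc]
      split_ifs with b
      exacts [rfl, (notMem_support_iff.1 fun c => b (a m c)).symm]
    · push Not at a
      obtain ⟨m, hm, i, hi⟩ := a
      have e : ∀ u, coeff u ((l i - mv (χ i) m)⁻¹ • (scl (χ i) G - mv (χ i) m • G)) =
          (l i - mv (χ i) m)⁻¹ * (mv (χ i) u - mv (χ i) m) * coeff u G := fun u => by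
        rw [coeff_smul, coeff_sub, coeff_smul, coeff_scl]
        simp only [smul_eq_mul]
        ring
      have r := ih _ (h ▸ Finset.card_lt_card ⟨fun u hu => by
        rw [mem_support_iff, e] at hu
        exact mem_support_iff.2 (right_ne_zero_of_mul hu), fun k => by
        have := mem_support_iff.1 (k hm)
        rw [e] at this
        simp at this⟩) _ rfl (hW G hG i _ hi)
      convert r using 1
      ext u
      rw [coeff_pc, coeff_pc, e]
      split_ifs with b
      · rw [b i, inv_mul_cancel₀ (sub_ne_zero.2 hi.symm), one_mul]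
      · rfl

/-- all the monomials of `G` have the same character -/
def Sc (χ : ι → Fin E → ℂ) (G : MvPolynomial (Fin E) ℂ) : Prop :=
  ∀ m ∈ G.support, ∀ m' ∈ G.support, ∀ i, mv (χ i) m = mv (χ i) m'

/-- induction on the classes -/
theorem cls_ind (χ : ι → Fin E → ℂ) (V : Submodule ℂ (MvPolynomial (Fin E) ℂ))
    (hV : ∀ G ∈ V, ∀ i, scl (χ i) G ∈ V) (q : MvPolynomial (Fin E) ℂ → Prop)
    (h1 : ∀ G ∈ V, Sc χ G → q G) (h2 : ∀ G H, q G → q H → q (G + H)) : ∀ G ∈ V, q G := by
  classical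
  intro G
  induction h : G.support.card using Nat.strong_induction_on generalizing G with
  | _ n ih =>
    intro hG
    rcases G.support.eq_empty_or_nonempty with a | ⟨m, hm⟩
    · exact h1 G hG fun m hm => by simp [a] at hm
    · have k := proj χ (fun i => mv (χ i) m) V (fun H hH i μ _ =>
        V.smul_mem _ (V.sub_mem (hV H hH i) (V.smul_mem _ hH))) G hG
      have := h2 _ _ (h1 _ k fun u hu v hv i => ((pc_supp hu).1 i).trans ((pc_supp hv).1 i).symm)
        (ih _ (h ▸ Finset.card_lt_card ⟨fun u hu => (sub_pc_supp hu).2,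
          fun c => (sub_pc_supp (c hm)).1 fun _ => rfl⟩) _ rfl (V.sub_mem hG k))
      rwa [add_sub_cancel] at this

variable {κ : Type} [Field κ] [Algebra ℂ κ]

theorem ge_const (c : ℂ) : Ge 0 (algebraMap ℂ (HahnSeries ℝ κ) c) := by
  rw [HahnSeries.algebraMap_apply, HahnSeries.C_apply]
  exact ge_single _ _

theorem ge_smul {r : ℝ} {a : HahnSeries ℝ κ} (h : Ge r a) (c : ℂ) : Ge r (c • a) := by
  rw [Algebra.smul_def]
  exact (ge_const c).zero_mul h

theorem ge_aeval {y : Fin E → HahnSeries ℝ κ} {w : Fin E → ℝ} (hy : ∀ j, Ge (w j) (y j)) {r : ℝ}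
    {G : MvPolynomial (Fin E) ℂ} (h : ∀ m ∈ G.support, r ≤ wt w m) : Ge r (aeval y G) := by
  rw [G.as_sum, map_sum]
  refine Ge.sum fun m hm => ?_
  rw [aeval_monomial, Finsupp.prod_fintype _ _ fun _ => pow_zero _]
  exact (ge_const _).zero_mul ((Ge.prod fun j _ => (hy j).pow (m j)).mono (h m hm))

/-- the twisted arc -/
def tw (ζ : Fin E → ℝ) (y : Fin E → HahnSeries ℝ κ) (j : Fin E) : HahnSeries ℝ κ :=
  HahnSeries.single (ζ j) 1 * y j

omit [Algebra ℂ κ] in
theorem ge_tw {y : Fin E → HahnSeries ℝ κ} {w : Fin E → ℝ} (hy : ∀ j, Ge (w j) (y j))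
    (ζ : Fin E → ℝ) (j : Fin E) : Ge (w j + ζ j) (tw ζ y j) :=
  add_comm (ζ j) (w j) ▸ (ge_single _ _).mul (hy j)

omit [Algebra ℂ κ] in
theorem prod_single {α : Type} (s : Finset α) (r : α → ℝ) :
    ∏ i ∈ s, HahnSeries.single (r i) (1 : κ) = HahnSeries.single (∑ i ∈ s, r i) 1 := by
  classical
  induction s using Finset.induction_on with
  | empty => simp
  | insert i s hi ih =>
    rw [Finset.prod_insert hi, Finset.sum_insert hi, ih, HahnSeries.single_mul_single, mul_one]

theorem aeval_tw (ζ : Fin E → ℝ) (y : Fin E → HahnSeries ℝ κ) {s : ℝ}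
    {G : MvPolynomial (Fin E) ℂ} (h : ∀ m ∈ G.support, wt ζ m = s) :
    aeval (tw ζ y) G = HahnSeries.single s 1 * aeval y G := by
  rw [G.as_sum, map_sum, map_sum, Finset.mul_sum]
  refine Finset.sum_congr rfl fun m hm => ?_
  rw [aeval_monomial, aeval_monomial, Finsupp.prod_fintype _ _ fun _ => pow_zero _,
    Finsupp.prod_fintype _ _ fun _ => pow_zero _, ← h m hm, wt, ← prod_single]
  simp only [tw, mul_pow, Finset.prod_mul_distrib, HahnSeries.single_pow, one_pow, nsmul_eq_mul]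
  ring

/-- the numerical data of a twist -/
structure Td (χ : ι → Fin E → ℂ) (y : Fin E → HahnSeries ℝ κ) (w ζ : Fin E → ℝ) (η Z k : ℝ) :
    Prop where
  ge : ∀ j, Ge (w j) (y j)
  one : ∀ j, 1 ≤ w j
  pos : 0 < η
  le : η ≤ 1
  lo : ∀ j, η * w j ≤ w j + ζ j
  nn : 0 ≤ Z
  hi : ∀ j, ζ j ≤ Z
  hl : ∀ m m', wt w m < k → wt w m' < k → (∀ i, mv (χ i) m = mv (χ i) m') → wt ζ m = wt ζ m'

variable {χ : ι → Fin E → ℂ} {y : Fin E → HahnSeries ℝ κ} {w ζ : Fin E → ℝ} {η Z k : ℝ}
  {G : MvPolynomial (Fin E) ℂ}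

omit [Algebra ℂ κ] in
theorem Td.wt_lo (h : Td χ y w ζ η Z k) (m : Fin E →₀ ℕ) : η * wt w m ≤ wt w m + wt ζ m := by
  rw [wt, wt, Finset.mul_sum, ← Finset.sum_add_distrib]
  refine Finset.sum_le_sum fun j _ => ?_
  have := mul_le_mul_of_nonneg_left (h.lo j) (Nat.cast_nonneg (α := ℝ) (m j))
  linarith

omit [Algebra ℂ κ] in
theorem Td.wt_hi (h : Td χ y w ζ η Z k) (m : Fin E →₀ ℕ) : wt ζ m ≤ Z * wt w m := by
  rw [wt, wt, Finset.mul_sum]
  refine Finset.sum_le_sum fun j _ => ?_
  have := mul_le_mul_of_nonneg_left ((h.hi j).trans (le_mul_of_one_le_right h.nn (h.one j)))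
    (Nat.cast_nonneg (α := ℝ) (m j))
  linarith

omit [Algebra ℂ κ] in
theorem Td.low (h : Td χ y w ζ η Z k) {b : Fin E →₀ ℕ} (hb : wt w b < k) :
    η * k ≤ k + wt ζ b := by
  have := h.wt_lo b
  have := mul_le_mul_of_nonneg_left hb.le (sub_nonneg.2 h.le)
  linarith

theorem Td.high (h : Td χ y w ζ η Z k) (hG : ∀ m ∈ G.support, k ≤ wt w m) :
    Ge (η * k) (aeval (tw ζ y) G) :=
  ge_aeval (ge_tw h.ge ζ) fun m hm => by
    have := h.wt_lo m
    have := mul_le_mul_of_nonneg_left (hG m hm) h.pos.le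
    have e : wt (fun j => w j + ζ j) m = wt w m + wt ζ m := by
      simp only [wt, mul_add, Finset.sum_add_distrib]
    linarith

/-- one class -/
theorem Td.sc (h : Td χ y w ζ η Z k) (hG : Sc χ G) {b : Fin E →₀ ℕ} (hb : b ∈ G.support)
    (lb : wt w b < k) :
    Ge (η * k) (aeval (tw ζ y) G - HahnSeries.single (wt ζ b) 1 * aeval y G) := by
  have a := aeval_tw ζ y (s := wt ζ b) (G := pc (fun m => wt w m < k) G) fun m hm =>
    h.hl _ _ (pc_supp hm).1 lb (hG _ (pc_supp hm).2 _ hb)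
  have hi : ∀ m ∈ (G - pc (fun m => wt w m < k) G).support, k ≤ wt w m := fun m hm =>
    not_lt.1 (sub_pc_supp hm).1
  have c := ((ge_single (wt ζ b) (1 : κ)).mul (ge_aeval h.ge hi)).mono
    (s := η * k) (by linarith [h.low lb])
  convert (h.high hi).sub c using 1
  rw [map_sub, map_sub, a]
  ring

/-- the twisted arc kills a stable space which the arc kills -/
theorem Td.kill (h : Td χ y w ζ η Z k) (V : Submodule ℂ (MvPolynomial (Fin E) ℂ))
    (hV : ∀ G ∈ V, ∀ i, scl (χ i) G ∈ V) (h0 : ∀ G ∈ V, Ge k (aeval y G)) :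
    ∀ G ∈ V, Ge (η * k) (aeval (tw ζ y) G) := by
  refine cls_ind χ V hV _ (fun G hG s => ?_) fun G H a b => by rw [map_add]; exact a.add b
  by_cases e : ∃ b ∈ G.support, wt w b < k
  · obtain ⟨b, hb, lb⟩ := e
    have := (h.sc s hb lb).add (((ge_single (wt ζ b) (1 : κ)).mul (h0 G hG)).mono
      (by linarith [h.low lb]))
    rwa [sub_add_cancel] at this
  · exact h.high fun m hm => not_lt.1 fun c => e ⟨m, hm, c⟩

/-- a conjugate of the twisted arc keeps a bounded order -/
theorem Td.bound (h : Td χ y w ζ η Z k) (h1 : ∃ i, χ i = 1)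
    (hm : ∀ i i', ∃ i'', ∀ j, χ i'' j = χ i j * χ i' j) {ρ : ℝ} (k1 : ρ ≤ k)
    (k2 : (1 + Z) * ρ ≤ η * k) (hG : ¬Ge ρ (aeval y G)) :
    ∃ i, ¬Ge ((1 + Z) * ρ) (aeval (fun j => χ i j • tw ζ y j) G) := by
  by_contra hn
  push Not at hn
  let V : Submodule ℂ (MvPolynomial (Fin E) ℂ) :=
    { carrier := {G | ∀ i, Ge ((1 + Z) * ρ) (aeval (fun j => χ i j • tw ζ y j) G)}
      add_mem' := fun a b i => by rw [map_add]; exact (a i).add (b i)
      zero_mem' := fun i => by rw [map_zero]; exact ge_zero _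
      smul_mem' := fun c _ a i => by rw [map_smul]; exact ge_smul (a i) c }
  refine hG (cls_ind χ V (fun H hH i i' => ?_) (fun H => Ge ρ (aeval y H)) (fun H hH s => ?_)
    (fun G H a b => by rw [map_add]; exact a.add b) G hn)
  · obtain ⟨i'', e⟩ := hm i i'
    rw [aeval_scl]
    simpa only [smul_smul, ← e] using hH i''
  · by_cases e : ∃ b ∈ H.support, wt w b < ρ
    · obtain ⟨b, hb, lb⟩ := e
      obtain ⟨i, hi⟩ := h1
      have a : Ge ((1 + Z) * ρ) (aeval (tw ζ y) H) := by simpa [hi] using hH i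
      have c := (ge_single (-wt ζ b) (1 : κ)).mul (a.sub ((h.sc s hb (lb.trans_le k1)).mono k2))
      rw [sub_sub_cancel, ← mul_assoc, HahnSeries.single_mul_single, neg_add_cancel, mul_one,
        HahnSeries.single_zero_one, one_mul] at c
      have := h.wt_hi b
      have := mul_le_mul_of_nonneg_left lb.le h.nn
      exact c.mono (by linarith)
    · exact ge_aeval h.ge fun m hm => not_lt.1 fun c => e ⟨m, hm, c⟩

end Vale.Agent.P283R.Btw
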