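import Vale.Agent.P283R.Be2.Tw1
import Vale.Agent.P283R.Be2.Cs
import Vale.Agent.P283R.Be2.Arc
import Vale.Agent.P283R.Be2.Jt
import Vale.Agent.P283R.Be2.Om

/-!
# P283R, block BE: an approximate arc is close to a unique exact arc
-/

attribute [-instance] HahnSeries.powerSeriesAlgebra

open MvPolynomial

noncomputable section

namespace Vale.Agent.P283R.Btw

open Vale.Agent.P283R.Co Vale.Agent.P283R.Tx

variable {F κ : Type} [Field F] [Algebra ℂ F] [Field κ] [Algebra ℂ κ] {d N : ℕ}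
  {A : Subgroup (F ≃ₐ[ℂ] F)} {S : Subalgebra ℂ F} {p : Ideal S} {z : Fin N → F}

/-- the function `a` vanishes to the order `K` along all arcs -/
def Mk (κ : Type) [Field κ] [Algebra ℂ κ] (S : Subalgebra ℂ F) (p : Ideal S) (z : Fin N → F)
    (K : ℝ) (a : F) : Prop :=
  ∀ (ψ : F →ₐ[ℂ] HahnSeries ℝ κ) (β : ℝ), 0 ≤ β → Arc S p ψ → (∀ j, Ge β (ψ (z j))) →
    Ge (K * β) (ψ a)

theorem mk_zero (K : ℝ) : Mk κ S p z K 0 := fun ψ β _ _ _ => by rw [map_zero]; exact ge_zero _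

theorem arc_comp {ψ : F →ₐ[ℂ] HahnSeries ℝ κ} (h : Arc S p ψ) {σ : F ≃ₐ[ℂ] F} (hσ : Inr S p σ) :
    Arc S p (ψ.comp σ) := by
  refine ⟨fun a ha => ?_, fun a ha => ?_⟩
  · obtain ⟨b, -, e⟩ := hσ ⟨a, ha⟩
    exact h.ge _ (sub_eq_iff_eq_add.1 e ▸ add_mem b.2 ha)
  · obtain ⟨b, hb, e⟩ := hσ a
    have := h.pos _ (add_mem hb ha)
    rwa [Subalgebra.coe_add, ← sub_eq_iff_eq_add.1 e] at this

theorem le_lo (h : Pt d A S p z) {a : F} (ha : a ∈ S) : a ∈ Lo S p :=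
  ⟨⟨a, ha⟩, 1, (Ideal.ne_top_iff_one p).1 h.pri.ne_top, by simp⟩

theorem z_mem (h : Pt d A S p z) (j : Fin N) : z j ∈ S := let ⟨s, _, e⟩ := h.mem j; e ▸ s.2

theorem lo_dec (h : Pt d A S p z) {a : F} (ha : a ∈ Lo S p) :
    ∃ (c : ℂ) (e : Fin N → F), (∀ j, e j ∈ Lo S p) ∧ a = algebraMap ℂ F c + ∑ j, e j * z j := by
  obtain ⟨s, u, hu, rfl⟩ := ha
  obtain ⟨c₁, h1⟩ := h.res s
  obtain ⟨c₂, h2⟩ := h.res u
  have c0 : c₂ ≠ 0 := fun e => hu (by simpa [e] using h2)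
  have u0 : (u : F) ≠ 0 := fun e => hu ((show u = 0 from Subtype.ext e) ▸ zero_mem p)
  obtain ⟨e, he, k⟩ := h.gen _ (sub_mem h1 (p.mul_mem_left (algebraMap ℂ S (c₁ / c₂)) h2))
  refine ⟨c₁ / c₂, fun j => e j / u, fun j => ?_, ?_⟩
  · obtain ⟨s', u', h', k'⟩ := he j
    exact ⟨s', u' * u, fun m => (h.pri.mem_or_mem m).elim h' hu, by
      simp only [k', div_div, Subalgebra.coe_mul]⟩
  · simp only [div_mul_eq_mul_div, ← Finset.sum_div, ← k]
    have : algebraMap ℂ F c₂ ≠ 0 := by simpa using c0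
    simp only [Subalgebra.coe_sub, Subalgebra.coe_mul, Subalgebra.coe_algebraMap, map_div₀]
    field_simp
    ring

theorem mk_sum {K : ℝ} {e : Fin N → F} (h : ∀ j, Mk κ S p z K (e j)) :
    Mk κ S p z (K + 1) (∑ j, e j * z j) := fun ψ β b a g => by
  rw [map_sum, add_mul, one_mul]
  exact Ge.sum fun j _ => by rw [map_mul]; exact (h j ψ β b a g).mul (g j)

theorem approx (h : Pt d A S p z) (K : ℕ) :
    ∀ a ∈ Lo S p, ∃ G : MvPolynomial (Fin N) ℂ, Mk κ S p z K (a - aeval z G) := by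
  induction K with
  | zero =>
    exact fun a ha => ⟨0, fun ψ β _ b _ => by simpa using Barc.ge_lo b h.res ha⟩
  | succ K ih =>
    intro a ha
    obtain ⟨c, e, he, rfl⟩ := lo_dec h ha
    choose G hG using fun j => ih _ (he j)
    refine ⟨C c + ∑ j, G j * X j, ?_⟩
    convert mk_sum hG using 1
    · simp
    · simp [sub_mul]

theorem approx_p (h : Pt d A S p z) (K : ℕ) {a : S} (ha : a ∈ p) :
    ∃ G : Fin N → MvPolynomial (Fin N) ℂ, Mk κ S p z K (a - aeval z (∑ j, G j * X j)) := by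
  obtain ⟨e, he, k⟩ := h.gen a ha
  choose G hG using fun j => approx (κ := κ) h K _ (he j)
  refine ⟨G, fun ψ β b a g => ?_⟩
  convert (mk_sum hG ψ β b a g).mono (s := K * β) (by linarith) using 2
  simp [k, sub_mul]

/-- the determinant of the system times the derivative -/
def g0 {R : Type} [CommRing R] [Algebra ℂ R] (P : MvPolynomial (Fin (d + 1)) ℂ)
    (Q : Fin d → MvPolynomial (Fin (d + 1)) ℂ) (b : Fin (d + 1) → R) (c : Fin d → R) : R :=
  (mt P Q b c).det * aeval b (pderiv 0 P)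

theorem map_g0 {R R' : Type} [CommRing R] [Algebra ℂ R] [CommRing R'] [Algebra ℂ R']
    (P : MvPolynomial (Fin (d + 1)) ℂ) (Q : Fin d → MvPolynomial (Fin (d + 1)) ℂ)
    (f : R →ₐ[ℂ] R') (b : Fin (d + 1) → R) (c : Fin d → R) :
    f (g0 P Q b c) = g0 P Q (fun o => f (b o)) fun i => f (c i) := by
  rw [g0, g0, map_mul, map_mt, comp_aeval_apply]

/-- the arc `ψ` is exact on `J` and close to `y` -/
structure Ey (n : ℝ) (S : Subalgebra ℂ F) (p : Ideal S) (z : Fin N → F) (J : Fin d → Fin N)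
    (y : Fin N → HahnSeries ℝ κ) (ψ : F →ₐ[ℂ] HahnSeries ℝ κ) : Prop where
  arc : Arc S p ψ
  exa : ∀ i, ψ (z (J i)) = y (J i)
  near : ∀ j, Ge n (ψ (z j) - y j)

variable {t : Fin d → F} {w : F} {Φ : Polynomial (MvPolynomial (Fin d) ℂ)}

theorem map_mp (ψ : F →ₐ[ℂ] HahnSeries ℝ κ) (G : Polynomial (MvPolynomial (Fin d) ℂ)) :
    aeval (fun o => ψ ((Fin.cons w t : Fin (d + 1) → F) o)) (mp G) = ψ (ev2 t w G) := by
  rw [aeval_mp, map_ev2]
  simp

theorem u_mem (hp : Prj S p t w Φ) (o : Fin (d + 1)) : (Fin.cons w t : Fin (d + 1) → F) o ∈ S := by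
  refine Fin.cases hp.wm (fun l => ?_) o
  obtain ⟨s, -, e⟩ := hp.mem l
  exact (e ▸ s.2 : t l ∈ S)

theorem mk_rel {K : ℕ} {U : Fin (d + 1) → MvPolynomial (Fin N) ℂ} (hp : Prj S p t w Φ)
    (hU : ∀ o, Mk κ S p z K ((Fin.cons w t : Fin (d + 1) → F) o - aeval z (U o))) {a : F}
    {G : MvPolynomial (Fin N) ℂ} (hG : Mk κ S p z K (a - aeval z G))
    {Q : Polynomial (MvPolynomial (Fin d) ℂ)} (hQ : ev2 t w Φ.derivative * a = ev2 t w Q) :
    Mk κ S p z K (aeval z (aeval U (pderiv 0 (mp Φ)) * G - aeval U (mp Q))) := by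
  intro ψ β b0 ha g
  have l := fun H => lipH (b' := fun o => ψ (aeval z (U o))) (fun o => ha.ge _ (u_mem hp o))
    (r := K * β) (by positivity) (fun o => by simpa using (hU o ψ β b0 ha g).neg) H
  have g0 := (lipH (b' := fun j => ψ (z j)) (fun j => (g j).mono b0) le_rfl
    (fun j => by simpa using ge_zero _) G).2
  have e := congrArg ψ hQ
  rw [map_mul, ← map_mp, ← map_mp, ← pderiv_mp] at e
  convert (((l (pderiv 0 (mp Φ))).1.mul0 g0).sub
    ((l (pderiv 0 (mp Φ))).2.zero_mul (hG ψ β b0 ha g))).sub (l (mp Q)).1 using 1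
  simp only [map_sub, map_mul, comp_aeval_apply, ← e]
  ring

/-- **the exact arc** -/
theorem core1 (exa : Be2.EXA) (eul : Be2.EUL) (h : Pt d A S p z) (hp : Prj S p t w Φ)
    (δ : Fin d → Derivation ℂ κ κ) (J : Fin d → Fin N) {K ρ n : ℕ} {β : ℝ} (hβ : 0 < β)
    (b1 : β ≤ 1) (hn : ρ + 1 ≤ n) (hK : ρ + 1 ≤ K * β)
    {U : Fin (d + 1) → MvPolynomial (Fin N) ℂ}
    (hU : ∀ o, Mk κ S p z K ((Fin.cons w t : Fin (d + 1) → F) o - aeval z (U o)))
    {Q : Fin d → Polynomial (MvPolynomial (Fin d) ℂ)}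
    (hQ : ∀ i, ev2 t w Φ.derivative * z (J i) = ev2 t w (Q i))
    {y : Fin N → HahnSeries ℝ κ} (hy : ∀ j, Ge β (y j))
    (kill : ∀ G : MvPolynomial (Fin N) ℂ, Mk κ S p z K (aeval z G) → Ge (2 * ρ + n) (aeval y G))
    (bd : ¬Ge ρ (aeval y (g0 (mp Φ) (fun i => mp (Q i)) U fun i => X (J i))))
    (hJ : (Jx δ fun i => y (J i)) ≠ 0) :
    ∃ ψ, Ey n S p z J y ψ ∧ ∀ ψ₁, Ey n S p z J y ψ₁ → ψ₁ = ψ := by
  have n1 : (ρ : ℝ) + 1 ≤ n := by exact_mod_cast hn
  have r0 : (0 : ℝ) ≤ ρ := by positivity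
  have y0 : ∀ j, Ge 0 (y j) := fun j => (hy j).mono hβ.le
  have g1 : ∀ G : MvPolynomial (Fin N) ℂ, Ge 0 (aeval y G) := fun G =>
    (lipH (b' := y) y0 le_rfl (fun j => by simpa using ge_zero _) G).2
  have key : ∀ {a} {G : MvPolynomial (Fin N) ℂ} {Q'}, Mk κ S p z K (a - aeval z G) →
      ev2 t w Φ.derivative * a = ev2 t w Q' →
      Ge (2 * ρ + n) (aeval (fun o => aeval y (U o)) (pderiv 0 (mp Φ)) * aeval y G -
        aeval (fun o => aeval y (U o)) (mp Q')) := fun a b => by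
    simpa only [map_sub, map_mul, comp_aeval_apply] using kill _ (mk_rel hp hU a b)
  have mx : ∀ j, Mk κ S p z K (z j - aeval z (X j : MvPolynomial (Fin N) ℂ)) := fun j => by
    simpa using mk_zero _
  have e0 : ev2 t w Φ = 0 := (hp.ker Φ).2 dvd_rfl
  rw [map_g0, g0] at bd
  simp only [aeval_X] at bd
  have g2 : ∀ G : MvPolynomial (Fin (d + 1)) ℂ, Ge 0 (aeval (fun o => aeval y (U o)) G) := fun G => by
    rw [← comp_aeval_apply]; exact g1 _
  obtain ⟨b, h1, h2, h3, h4, h5⟩ := newtonH (mp Φ) (fun i => mp (Q i))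
    (b₀ := fun o => aeval y (U o)) (c := fun i => y (J i)) (fun o => g1 _) (fun i => y0 _)
    (ρ := ρ) (n := n) (by omega) (fun e => bd (e.mul0 (g2 _)))
    (by simpa using (key (a := 0) (G := 0) (Q' := Φ) (by simpa using mk_zero _)
      (by rw [e0, mul_zero])).neg)
    fun i => by simpa using key (mx (J i)) (hQ i)
  have l := fun H => (lipH (b' := b) (fun o => g1 (U o)) (by positivity) h1 H).1
  have d1 : ¬Ge ρ (aeval b (pderiv 0 (mp Φ))) := fun e => bd (by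
    have := e.sub ((l (pderiv 0 (mp Φ))).mono (s := ρ) (by linarith))
    rw [sub_sub_cancel] at this
    have m := g1 (mt (mp Φ) (fun i => mp (Q i)) U fun i => X (J i)).det
    rw [map_mt] at m
    simp only [aeval_X] at m
    exact m.zero_mul this)
  have d0 : aeval b (pderiv 0 (mp Φ)) ≠ 0 := fun e => d1 (e ▸ ge_zero _)
  obtain ⟨ψ, k1, k2⟩ := exa d F κ S p t w Φ δ (fun l => b l.succ) (b 0) hp (fun e => by
    have := det_id (mp Φ) (fun i => mp (Q i)) (fun k => thl 0 (δ k)) h2 h3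
    rw [Jx] at e hJ
    rw [e, mul_zero] at this
    exact mul_ne_zero d0 (mul_ne_zero (pow_ne_zero _ (neg_ne_zero.2 d0)) hJ) this.symm)
    (by rw [← aeval_mp, h2])
  have kb : (fun o => ψ ((Fin.cons w t : Fin (d + 1) → F) o)) = b :=
    funext fun o => Fin.cases k2 k1 o
  have rel : ∀ (φ : F →ₐ[ℂ] HahnSeries ℝ κ) {a Q'}, ev2 t w Φ.derivative * a = ev2 t w Q' →
      aeval (fun o => φ ((Fin.cons w t : Fin (d + 1) → F) o)) (pderiv 0 (mp Φ)) * φ a =
        aeval (fun o => φ ((Fin.cons w t : Fin (d + 1) → F) o)) (mp Q') := fun φ a Q' e => by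
    rw [pderiv_mp, map_mp, map_mp, ← map_mul, e]
  have cl : ∀ a ∈ S, ∀ G : MvPolynomial (Fin N) ℂ, Mk κ S p z K (a - aeval z G) →
      Ge n (ψ a - aeval y G) := by
    intro a ha G hG
    obtain ⟨Q', e⟩ := eul d F S p t w Φ hp a ha
    have r := rel ψ e
    rw [kb] at r
    have := Jt.ge_of_mul (v := ρ + n) (u := ψ a - aeval y G) (not_le.1 d1).le (by
      convert ((l (mp Q')).sub ((key hG e).mono (by linarith))).sub
        ((l (pderiv 0 (mp Φ))).mul0 (g1 G)) using 1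
      rw [mul_sub, r]
      ring)
    simpa using this
  refine ⟨ψ, ⟨⟨fun a ha => ?_, fun a ha => ?_⟩, fun i => ?_, fun j => ?_⟩, fun ψ₁ k => ?_⟩
  · obtain ⟨G, hG⟩ := approx (κ := κ) h K a (le_lo h ha)
    simpa using ((cl a ha G hG).mono (s := 0) (by positivity)).add (g1 G)
  · obtain ⟨G, hG⟩ := approx_p (κ := κ) h K ha
    have := ((cl a a.2 _ hG).mono (s := β) (by linarith)).add (b := aeval y (∑ j, G j * X j)) (by
      rw [map_sum]
      exact Ge.sum fun j _ => by rw [map_mul, aeval_X]; exact (g1 _).zero_mul (hy j))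
    rw [sub_add_cancel] at this
    exact lt_of_lt_of_le (by exact_mod_cast hβ) this
  · have r := rel ψ (hQ i)
    rw [kb, ← h3] at r
    exact mul_left_cancel₀ d0 r
  · simpa using cl _ (z_mem h j) _ (mx j)
  · have gz : ∀ j, Ge β (ψ₁ (z j)) := fun j => by
      simpa using ((k.near j).mono (s := β) (by linarith)).add (hy j)
    have e := h5 (fun o => ψ₁ ((Fin.cons w t : Fin (d + 1) → F) o)) (fun o => by
      have := ((hU o ψ₁ β hβ.le k.arc gz).mono hK).add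
        ((lipH (b' := fun j => ψ₁ (z j)) y0 (by positivity) k.near (U o)).1.mono n1)
      rwa [map_sub, comp_aeval_apply, sub_add_sub_cancel] at this)
      (by rw [map_mp, e0, map_zero]) fun i => by rw [← k.exa, rel ψ₁ (hQ i)]
    rw [← kb] at e
    exact Om.arc_ext hp (fun l => congrFun e l.succ) (congrFun e 0)

end Vale.Agent.P283R.Btw
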