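import Vale.Agent.P283R.Be2.TwS

/-!
# P283R, block BE: the core of the twist, the statement
-/

attribute [-instance] HahnSeries.powerSeriesAlgebra

noncomputable section

namespace Vale.Agent.P283R.Tx

open Co (Ge)

variable {F κ : Type} [Field F] [Algebra ℂ F] [Field κ] [Algebra ℂ κ] {d N : ℕ}

/-- the arc `ψ` is the twist of `x` on the coordinates `J`, and it is close to the twist -/
structure Ex (n : ℝ) (S : Subalgebra ℂ F) (p : Ideal S) (z : Fin N → F)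
    (x : F →ₐ[ℂ] HahnSeries ℝ κ) (r : ℕ) (χ : Fin N → ℤ) (J : Fin d → Fin N)
    (ψ : F →ₐ[ℂ] HahnSeries ℝ κ) : Prop where
  arc : Arc S p ψ
  exa : ∀ i, ψ (z (J i)) = HahnSeries.single (χ (J i) / r : ℝ) 1 * x (z (J i))
  near : ∀ j, Ge n (ψ (z j) - HahnSeries.single (χ j / r : ℝ) 1 * x (z j))

/-- **TWC**: the twisted arc is made exact, uniquely -/
def TWC : Prop := ∀ (d N : ℕ) (a c η : ℝ), 0 < d → 0 < η → ∃ a₂ : ℝ, ∀ n₀ : ℝ, ∃ n : ℝ, n₀ ≤ n ∧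
  ∃ k : ℕ, ∀ (F κ : Type) [Field F] [Algebra ℂ F] [Field κ] [Algebra ℂ κ]
    (A : Subgroup (F ≃ₐ[ℂ] F)) (S : Subalgebra ℂ F) (p : Ideal S) (z : Fin N → F) (t : Fin d → F)
    (w : F) (Φ : Polynomial (MvPolynomial (Fin d) ℂ)) (δ : Fin d → Derivation ℂ κ κ)
    (x : F →ₐ[ℂ] HahnSeries ℝ κ) (r : ℕ) (χ : Fin N → ℤ), Pt d A S p z → Prj S p t w Φ →
    Arc S p x → (∀ f, Zs (x f)) → (Jx δ fun l => x (t l)).orderTop ≤ (a : WithTop ℝ) →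
    (x (ev2 t w Φ.derivative)).orderTop ≤ (a : WithTop ℝ) → Dua c η k A z x r χ →
    ∃ (J : Fin d → Fin N) (ψ : F →ₐ[ℂ] HahnSeries ℝ κ),
      (Jx δ fun i => x (z (J i))).orderTop ≤ (a₂ : WithTop ℝ) ∧ Ex n S p z x r χ J ψ ∧
      ∀ ψ₁, Ex n S p z x r χ J ψ₁ → ψ₁ = ψ

end Vale.Agent.P283R.Tx
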