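import Vale.Agent.P283R.Be2.Tw2
import Vale.Agent.P283R.Be2.TwK
import Vale.Agent.P283R.Be2.Exa
import Vale.Agent.P283R.Be2.Eul

/-!
# P283R, block BE: the twisted arc is made exact
-/

attribute [-instance] HahnSeries.powerSeriesAlgebra

open MvPolynomial

noncomputable section

namespace Vale.Agent.P283R.Btw

open Vale.Agent.P283R.Co Vale.Agent.P283R.Tx

variable {F κ : Type} [Field F] [Algebra ℂ F] [Field κ] [Algebra ℂ κ] {d N : ℕ}
  {A : Subgroup (F ≃ₐ[ℂ] F)} {S : Subalgebra ℂ F} {p : Ideal S} {z : Fin N → F}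

omit [Algebra ℂ κ] in
/-- the choice of a minor -/
theorem pick {M : Fin d → Fin N → HahnSeries ℝ κ} (hM : ∀ l j, Ge 0 (M l j))
    (v : Fin N → Fin d → HahnSeries ℝ κ) {a : ℝ}
    (h : (Matrix.of fun k l => ∑ j, M l j * v j k).det.orderTop ≤ (a : WithTop ℝ)) :
    ∃ J : Fin d → Fin N, (Matrix.of fun k l => v (J l) k).det.orderTop ≤ (a : WithTop ℝ) := by
  by_contra hc
  push Not at hc
  refine not_lt.2 h ?_
  have h2 : (Matrix.of fun k l => ∑ j, M l j * v j k).det =
      Matrix.detRowAlternating.toMultilinearMap fun l => ∑ j, M l j • v j := by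
    rw [← Matrix.det_transpose]
    refine congrArg Matrix.det (Matrix.ext fun l k => ?_)
    simp
  rw [h2, MultilinearMap.map_sum]
  refine (HahnSeries.addVal ℝ κ).map_lt_sum WithTop.coe_ne_top fun J _ => ?_
  rw [MultilinearMap.map_smul_univ, smul_eq_mul, HahnSeries.addVal_apply, HahnSeries.orderTop_mul]
  have g : Ge 0 (∏ l, M l (J l)) := by simpa using Ge.prod (s := Finset.univ) fun l _ => hM l (J l)
  refine lt_of_lt_of_le ?_ (le_add_of_nonneg_left g)
  have := hc J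
  rwa [← Matrix.det_transpose] at this

omit [Algebra ℂ κ] in
theorem le_pow {D : HahnSeries ℝ κ} {a : ℝ} (h : D.orderTop ≤ (a : WithTop ℝ)) (n : ℕ) :
    (D ^ n).orderTop ≤ ((n * a : ℝ) : WithTop ℝ) := by
  induction n with
  | zero => simp
  | succ n ih =>
    rw [pow_succ, HahnSeries.orderTop_mul, Nat.cast_succ, add_mul, one_mul, WithTop.coe_add]
    exact add_le_add ih h

omit [Algebra ℂ κ] in
theorem ord_aux {D m T B : HahnSeries ℝ κ} {a : ℝ} (e : m * T = D * ((-D) ^ d * B)) (g : Ge 0 T)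
    (h2 : D.orderTop ≤ (a : WithTop ℝ)) (h3 : B.orderTop ≤ (a : WithTop ℝ)) :
    ¬Ge ((d + 3) * a + 1) (m * D) := fun h => by
  have k : Ge ((d + 3) * a + 1) (D * (D * ((-D) ^ d * B))) := by
    rw [← e, mul_left_comm, ← mul_assoc]; exact h.mul0 g
  have u : (-D).orderTop ≤ (a : WithTop ℝ) := HahnSeries.orderTop_neg.trans_le h2
  have v1 : Ge ((d + 3) * a + 1 - a) (D * ((-D) ^ d * B)) := Jt.ge_of_mul h2 k
  have v2 : Ge ((d + 3) * a + 1 - a - a) ((-D) ^ d * B) := Jt.ge_of_mul h2 v1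
  have v3 : Ge ((d + 3) * a + 1 - a - a - d * a) B := Jt.ge_of_mul (le_pow u d) v2
  have v4 : (d + 3) * a + 1 - a - a - d * a ≤ a := WithTop.coe_le_coe.1 (le_trans v3 h3)
  linarith

variable (P : MvPolynomial (Fin (d + 1)) ℂ) (Q : Fin d → MvPolynomial (Fin (d + 1)) ℂ)

theorem lip_g0 {b b' : Fin (d + 1) → HahnSeries ℝ κ} {c : Fin d → HahnSeries ℝ κ}
    (hb : ∀ o, Ge 0 (b o)) (hc : ∀ i, Ge 0 (c i)) {r : ℝ} (hr : 0 ≤ r)
    (h : ∀ o, Ge r (b' o - b o)) : Ge r (g0 P Q b' c - g0 P Q b c) := by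
  have := (lipH (b := Sum.elim b c) (b' := Sum.elim b' c) (fun o => by cases o <;> simp [*]) hr
    (fun o => by cases o <;> simp [h, ge_zero])
    (g0 P Q (fun o => X (Sum.inl o)) fun i => X (Sum.inr i))).1
  simpa only [map_g0, aeval_X, Sum.elim_inl, Sum.elim_inr] using this

theorem g0_ord (δ : Fin d → Derivation ℂ κ κ) {b : Fin (d + 1) → HahnSeries ℝ κ}
    {c : Fin d → HahnSeries ℝ κ} (hb : ∀ o, Ge 0 (b o)) (h0 : aeval b P = 0)
    (h1 : ∀ i, aeval b (pderiv 0 P) * c i = aeval b (Q i)) {a : ℝ}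
    (h2 : (aeval b (pderiv 0 P)).orderTop ≤ (a : WithTop ℝ))
    (h3 : (Jx δ c).orderTop ≤ (a : WithTop ℝ)) : ¬Ge ((d + 3) * a + 1) (g0 P Q b c) := fun h => by
  have e := det_id P Q (fun k => thl 0 (δ k)) h0 h1
  have g : Ge 0 (Matrix.of fun k l => thl 0 (δ k) (b (Fin.succ l))).det := by
    simpa using ge_det (M := Matrix.of fun k l => thl 0 (δ k) (b (Fin.succ l))) (w := fun _ => 0)
      fun k l => (ctr_thl _ _).ge (hb _)
  exact ord_aux e g h2 h3 h

theorem jx_ne (δ : Fin d → Derivation ℂ κ κ) {c : Fin d → HahnSeries ℝ κ} (h : Jx δ c ≠ 0)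
    {e : Fin d → ℂ} (he : ∀ i, e i ≠ 0) (s : Fin d → ℝ) :
    (Jx δ fun i => e i • (HahnSeries.single (s i) 1 * c i)) ≠ 0 := by
  have : (Jx δ fun i => e i • (HahnSeries.single (s i) 1 * c i)) =
      (∏ i, e i • HahnSeries.single (s i) (1 : κ)) * Jx δ c := by
    rw [Jx, Jx, ← Matrix.det_mul_row]
    congr 1
    ext1 k l
    simp [Derivation.leibniz, thl_single]
  rw [this]
  exact mul_ne_zero (Finset.prod_ne_zero_iff.2 fun i _ => smul_ne_zero (he i) (by simp)) h

theorem wt_le {w : Fin N → ℝ} (h : ∀ j, 1 ≤ w j) (m : Fin N →₀ ℕ) (j : Fin N) :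
    (m j : ℝ) ≤ wt w m :=
  (le_mul_of_one_le_right (by positivity) (h j)).trans
    (Finset.single_le_sum (f := fun j => (m j : ℝ) * w j)
      (fun i _ => mul_nonneg (by positivity) (zero_le_one.trans (h i))) (Finset.mem_univ j))

theorem map_mon {σ : F ≃ₐ[ℂ] F} {e : Fin N → ℂ} (he : ∀ j, σ (z j) = e j • z j)
    (m : Fin N →₀ ℕ) : σ (∏ j, z j ^ m j) = mv e m • ∏ j, z j ^ m j := by
  simp only [map_prod, map_pow, he, smul_pow, Finset.prod_smul, mv]

theorem e_ne (h : Pt d A S p z) {σ : F ≃ₐ[ℂ] F} {e : Fin N → ℂ} (he : ∀ j, σ (z j) = e j • z j)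
    (j : Fin N) : e j ≠ 0 := fun k => h.ne j (by simpa [k] using he j)

theorem td_of {c η : ℝ} {k r : ℕ} {x : F →ₐ[ℂ] HahnSeries ℝ κ} {χ : Fin N → ℤ} (hη : 0 < η)
    (h : Pt d A S p z) (h1 : ∀ j, Ge 1 (x (z j))) (hd : Dua c η k A z x r χ)
    {e : A → Fin N → ℂ} (he : ∀ σ j, σ.1 (z j) = e σ j • z j) :
    Td e (fun j => x (z j)) (fun j => max 1 (η - χ j / r)) (fun j => χ j / r)
      (η / (1 + η + |c|)) |c| k := by
  have c0 := abs_nonneg c
  have bd := fun j => abs_le.1 ((hd.bd j).trans (le_abs_self c))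
  refine ⟨fun j => ?_, fun j => le_max_left _ _, by positivity,
    (div_le_one (by positivity)).2 (by linarith), fun j => ?_, c0, fun j => (bd j).2,
    fun m m' a a' b => ?_⟩
  · rcases max_choice 1 (η - χ j / r) with k | k <;> rw [k]
    exacts [h1 j, hd.ge j]
  · have u : max 1 (η - χ j / r) ≤ 1 + η + |c| := max_le (by linarith) (by linarith [(bd j).1])
    have := le_max_right 1 (η - χ j / r)
    have v := mul_le_mul_of_nonneg_left u (show 0 ≤ η / (1 + η + |c|) by positivity)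
    rw [div_mul_cancel₀ _ (by positivity)] at v
    linarith
  · have := hd.low (fun j => (m j : ℤ) - m' j) (fun j => by
      have u : m j < k := by
        exact_mod_cast (wt_le (fun j => le_max_left _ _) m j).trans_lt a
      have v : m' j < k := by
        exact_mod_cast (wt_le (fun j => le_max_left _ _) m' j).trans_lt a'
      rw [abs_le]
      omega) fun σ hσ => by
      have m0 : mv (e ⟨σ, hσ⟩) m' ≠ 0 :=
        Finset.prod_ne_zero_iff.2 fun j _ => pow_ne_zero _ (e_ne h (he ⟨σ, hσ⟩) j)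
      simp only [zpow_sub₀ (h.ne _), zpow_natCast, Finset.prod_div_distrib]
      rw [map_div₀, map_mon (he ⟨σ, hσ⟩), map_mon (he ⟨σ, hσ⟩), b, Algebra.smul_def,
        Algebra.smul_def, mul_div_mul_left _ _ (by simpa using m0)]
    have e2 : (∑ j, (χ j : ℝ) * ((m j : ℝ) - m' j)) = 0 := by exact_mod_cast this
    rw [← sub_eq_zero, wt, wt, ← Finset.sum_sub_distrib, ← zero_div (r : ℝ), ← e2, Finset.sum_div]
    exact Finset.sum_congr rfl fun j _ => by ring

/-- **TWC** -/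
theorem twc_of (exa : Be2.EXA) (eul : Be2.EUL) : TWC := by
  intro d N a c η _ hη
  have c0 := abs_nonneg c
  have a0 := abs_nonneg a
  obtain ⟨β, hβ⟩ : ∃ β, β = η / (1 + η + |c|) := ⟨_, rfl⟩
  have b0 : 0 < β := by rw [hβ]; positivity
  have b1 : β ≤ 1 := hβ ▸ (div_le_one (by positivity)).2 (by linarith)
  have b2 : β ≤ η := hβ ▸ div_le_self hη.le (by linarith)
  obtain ⟨ρ₁, hρ⟩ : ∃ ρ₁ : ℝ, ρ₁ = (d + 3) * |a| + 1 := ⟨_, rfl⟩
  have r0 : |a| < ρ₁ := by
    have : (0 : ℝ) ≤ (d + 2) * |a| := by positivity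
    linarith
  obtain ⟨ρ, r1⟩ := exists_nat_ge ((1 + |c|) * ρ₁)
  have r2 : ρ₁ ≤ ρ := le_trans (le_mul_of_one_le_left (by linarith) (by linarith)) r1
  refine ⟨|a|, fun n₀ => ?_⟩
  obtain ⟨n, n1⟩ := exists_nat_ge (max n₀ (ρ + 1))
  have n2 := (le_max_right _ _).trans n1
  obtain ⟨k, k1⟩ := exists_nat_ge ((2 * ρ + n) / β)
  rw [div_le_iff₀ b0] at k1
  have k2 : k * β ≤ k := mul_le_of_le_one_right (by positivity) b1
  refine ⟨n, (le_max_left _ _).trans n1, k, ?_⟩
  intro F κ _ _ _ _ A S p z t w Φ δ x r χ h hp hx zs hj hw hd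
  replace hj := hj.trans (WithTop.coe_le_coe.2 (le_abs_self a))
  replace hw := hw.trans (WithTop.coe_le_coe.2 (le_abs_self a))
  choose e he using fun (σ : A) j => h.eig j σ.1 σ.2
  have h1 : ∀ j, Ge 1 (x (z j)) := fun j => ge_iff.2 fun g hg => by
    by_contra k
    obtain ⟨m, rfl⟩ := zs _ g k
    obtain ⟨s, hs, e⟩ := h.mem j
    have := (e ▸ hx.pos s hs).trans_le (HahnSeries.orderTop_le_of_coeff_ne_zero k)
    have u : 0 < m := by exact_mod_cast this
    have v : m < 1 := by exact_mod_cast hg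
    omega
  have y0 : ∀ j, Ge 0 (x (z j)) := fun j => (h1 j).mono zero_le_one
  have td := td_of hη h h1 hd he
  rw [← hβ] at td
  choose U hU using fun o => approx (κ := κ) h k _ (le_lo h (u_mem hp o))
  choose Q hQ using fun j => eul d F S p t w Φ hp _ (z_mem h j)
  have u0 : ∀ o, Ge 0 (x ((Fin.cons w t : Fin (d + 1) → F) o)) := fun o => hx.ge _ (u_mem hp o)
  have u1 : ∀ o, Ge k (aeval (fun j => x (z j)) (U o) - x ((Fin.cons w t : Fin (d + 1) → F) o)) :=
    fun o => by simpa [comp_aeval_apply] using (hU o x 1 zero_le_one hx h1).neg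
  obtain ⟨J, hJ⟩ := pick (M := fun l j => aeval (fun j => x (z j)) (pderiv j (U (Fin.succ l))))
    (fun l j => (lipH (b' := fun j => x (z j)) y0 le_rfl (fun j => by simpa using ge_zero _) _).2)
    (fun j k => thl 0 (δ k) (x (z j))) (a := |a|) (by
      have := Jt.jx_jac (y' := fun l => aeval (fun j => x (z j)) (U (Fin.succ l)))
        (fun l => u0 l.succ) hj (fun l => u1 l.succ) (by linarith) (by positivity)
      simp only [← Td.chain]
      exact this.trans_le hj)
  have g1 : ¬Ge ρ₁ (aeval (fun j => x (z j))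
      (g0 (mp Φ) (fun i => mp (Q (J i))) U fun i => X (J i))) := fun g => by
    rw [map_g0] at g
    simp only [aeval_X] at g
    have := g.sub ((lip_g0 (mp Φ) (fun i => mp (Q (J i))) u0 (fun i => y0 (J i))
      (by positivity) u1).mono (by linarith))
    rw [sub_sub_cancel, hρ] at this
    refine g0_ord _ _ δ u0 ?_ (fun i => ?_) ?_ hJ this
    · rw [map_mp, (hp.ker Φ).2 dvd_rfl, map_zero]
    · rw [pderiv_mp, map_mp, map_mp, ← map_mul, hQ]
    · rwa [pderiv_mp, map_mp]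
  obtain ⟨σ, hσ⟩ := td.bound ⟨1, funext fun j => smul_left_injective ℂ (h.ne j) (by
      simpa using (he 1 j).symm)⟩
    (fun i i' => ⟨i * i', fun j => smul_left_injective ℂ (h.ne j) (by
      have := he (i * i') j
      rw [Subgroup.coe_mul, AlgEquiv.mul_apply, he, map_smul, he, smul_smul, mul_comm] at this
      exact this.symm)⟩) (by linarith) (by linarith) g1
  let V : Submodule ℂ (MvPolynomial (Fin N) ℂ) :=
    { carrier := {G | Mk κ S p z k (aeval z G)}
      add_mem' := fun a b ψ β u v g => by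
        rw [map_add, map_add]; exact (a ψ β u v g).add (b ψ β u v g)
      zero_mem' := by simpa using mk_zero _
      smul_mem' := fun c _ a ψ β u v g => by
        rw [map_smul, map_smul]; exact ge_smul (a ψ β u v g) c }
  have hV : ∀ G ∈ V, ∀ i, scl (e i) G ∈ V := fun G a i ψ β u v g => by
    have := a (ψ.comp i.1) β u (arc_comp v (h.inr _ i.2)) fun j => by
      simpa [he] using ge_smul (g j) (e i j)
    rw [aeval_scl]
    simp only [← he]
    rwa [AlgHom.comp_apply, comp_aeval_apply] at this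
  have e0 := e_ne h (he σ)
  obtain ⟨ψ, k3, k4⟩ := core1 exa eul h hp δ J (K := k) (ρ := ρ) (n := n) b0 b1
    (by exact_mod_cast n2) (by linarith) hU (fun i => hQ (J i))
    (y := fun j => e σ j • tw (fun j => χ j / r) (fun j => x (z j)) j)
    (fun j => ge_smul ((ge_tw td.ge _ j).mono (by
      linarith [le_max_right 1 (η - χ j / r)])) _)
    (fun G hG => by
      have := td.kill V hV (fun G a => by
        simpa [comp_aeval_apply] using a x 1 zero_le_one hx h1) _ (hV G hG σ)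
      rw [aeval_scl] at this
      exact this.mono (by linarith))
    (fun g => hσ (g.mono r1))
    (jx_ne δ (fun k => by simp [Jx] at k; simp [k] at hJ) (fun i => e0 (J i)) _)
  have es : ∀ j, (σ⁻¹ : A).1 (z j) = (e σ j)⁻¹ • z j := fun j => by
    rw [eq_inv_smul_iff₀ (e0 j), ← map_smul, ← he, ← AlgEquiv.mul_apply, ← Subgroup.coe_mul]
    simp
  refine ⟨J, ψ.comp (σ⁻¹ : A).1, hJ, ⟨arc_comp k3.arc (h.inr _ (σ⁻¹ : A).2), fun i => ?_,
    fun j => ?_⟩, fun ψ₁ k5 => ?_⟩
  · change ψ ((σ⁻¹ : A).1 _) = _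
    rw [es, map_smul, k3.exa, inv_smul_smul₀ (e0 _), tw]
  · change Ge _ (ψ ((σ⁻¹ : A).1 _) - _)
    have := ge_smul (k3.near j) (e σ j)⁻¹
    rwa [smul_sub, inv_smul_smul₀ (e0 _), ← map_smul, ← es] at this
  · rw [← k4 (ψ₁.comp σ.1) ⟨arc_comp k5.arc (h.inr _ σ.2), fun i => ?_, fun j => ?_⟩]
    · ext1 a
      simp
    · change ψ₁ (σ.1 _) = _
      rw [he, map_smul, k5.exa, tw]
    · change Ge _ (ψ₁ (σ.1 _) - _)
      rw [he, map_smul, ← smul_sub]
      exact ge_smul (k5.near j) _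

theorem twc : TWC := twc_of Be2.exa Be2.eul

end Vale.Agent.P283R.Btw
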