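import Vale.Agent.P283R.Be2.TwA
import Vale.Agent.P283R.Co.Ap

/-!
# P283R, block BE: arcs on a hypersurface, a jet determines the valuation
-/

attribute [-instance] HahnSeries.powerSeriesAlgebra

open Polynomial

noncomputable section

namespace Vale.Agent.P283R.Tx

open Co

section field

variable {K L : Type} [Field K] [Field L] [Algebra K L]

theorem mem_vs {R : Type} [CommRing R] (φ : R →+* L) (V : ValuationSubring L) (h : ∀ r, φ r ∈ V)
    {b : L} {p : R[X]} (hp : p.Monic) (e : p.eval₂ φ b = 0) : b ∈ V := by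
  have k : IsIntegral V b := ⟨p.map (φ.codRestrict V h), hp.map _, by
    rw [eval₂_map]; exact e⟩
  obtain ⟨y, rfl⟩ := IsIntegrallyClosed.isIntegral_iff.1 k
  exact y.2

theorem int_of_all {R : Type} [CommRing R] [Algebra R L] {b : L}
    (h : ∀ V : ValuationSubring L, (∀ r, algebraMap R L r ∈ V) → b ∈ V) : IsIntegral R b := by
  have e := iInf_valuationSubring_superset (s := ((algebraMap R L).range : Set L))
  rw [Subring.closure_eq] at e
  have k : b ∈ (integralClosure (algebraMap R L).range L).toSubring := by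
    rw [← e, Subring.mem_iInf]
    exact fun V => h V.1 fun r => V.2 ⟨r, rfl⟩
  let _ := (algebraMap R L).rangeRestrict.toAlgebra
  have : IsScalarTower R (algebraMap R L).range L := .of_algebraMap_eq fun _ => rfl
  have : Algebra.IsIntegral R (algebraMap R L).range :=
    Algebra.isIntegral_of_surjective (algebraMap R L).rangeRestrict_surjective
  exact isIntegral_trans (A := (algebraMap R L).range) b k

/-- Euler's lemma -/
theorem eul0 {A : Type} [CommRing A] [IsDomain A] [IsIntegrallyClosed A] [Algebra A K]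
    [IsFractionRing A K] [Algebra A L] [IsScalarTower A K L] [FiniteDimensional K L]
    [Algebra.IsSeparable K L] {w b : L} (hw : Algebra.adjoin K {w} = ⊤) (hi : IsIntegral A w)
    (hb : IsIntegral A b) : aeval w (derivative (minpoly K w)) * b ∈ Algebra.adjoin A {w} := by
  have k : b ∈ (Algebra.traceForm K L).dualSubmodule
      (Subalgebra.toSubmodule (Algebra.adjoin A {w})) := fun a ha => by
    have : IsIntegral A a := (adjoin_le_integralClosure hi) ha
    obtain ⟨y, hy⟩ := IsIntegrallyClosed.isIntegral_iff.1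
      (Algebra.isIntegral_trace (L := K) (hb.mul this))
    exact Submodule.mem_one.2 ⟨y, hy⟩
  rw [traceForm_dualSubmodule_adjoin A K hw hi] at k
  obtain ⟨c, hc, rfl⟩ := k
  have h0 : aeval w (derivative (minpoly K w)) ≠ 0 :=
    (Algebra.IsSeparable.isSeparable K w).aeval_derivative_ne_zero (minpoly.aeval K w)
  simpa [h0] using hc

variable {κ : Type} [Field κ] [FiniteDimensional K L]

theorem s0 (x : L →+* HahnSeries ℝ κ) (O : ValuationSubring K)
    (hO : ∀ c, Ge 0 (x (algebraMap K L c)) → c ∈ O) {f : L} (hf : Ge 0 (x f)) :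
    ∃ s, IsIntegral O s ∧ IsIntegral O (f * s) ∧ (x s).orderTop = 0 := by
  classical
  set q := minpoly K f
  have qm : q.Monic := minpoly.monic (Algebra.IsIntegral.isIntegral f)
  set n := q.natDegree
  let o : ℕ → WithTop ℝ := fun i => (x (algebraMap K L (q.coeff i))).orderTop
  obtain ⟨i₀, hi, mn⟩ := (Finset.range (n + 1)).exists_min_image o ⟨0, by simp⟩
  obtain ⟨j, hj, mx⟩ := ((Finset.range (n + 1)).filter (o · = o i₀)).exists_max_image id
    ⟨i₀, by simpa using hi⟩
  obtain ⟨hj, ej⟩ := Finset.mem_filter.1 hj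
  have jt : o j ≠ ⊤ := ne_top_of_le_ne_top (b := o n) (by simp [o, n, qm.coeff_natDegree])
    (ej ▸ mn n (by simp))
  have j0 : q.coeff j ≠ 0 := fun e => jt (by simp [o, e])
  let c : ℕ → L := fun i => algebraMap K L (q.coeff i / q.coeff j)
  have oc : ∀ i, o i = o j + (x (c i)).orderTop := fun i => by
    simp only [o, c]
    rw [← HahnSeries.orderTop_mul, ← map_mul, ← map_mul, mul_div_cancel₀ _ j0]
  have c0 : ∀ i < n + 1, Ge 0 (x (c i)) := fun i hi => by
    have := ej ▸ mn i (Finset.mem_range.2 hi)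
    rw [oc i] at this
    exact (WithTop.add_le_add_iff_left jt).1 ((add_zero _).trans_le this)
  have c1 : ∀ i < n + 1, j < i → 0 < (x (c i)).orderTop := fun i hi l =>
    lt_of_le_of_ne (c0 i hi) fun e => l.not_ge (mx i (Finset.mem_filter.2
      ⟨Finset.mem_range.2 hi, by rw [oc i, ← e, add_zero, ej]⟩))
  obtain ⟨m, hm⟩ : ∃ m, n + 1 = j + (m + 1) := ⟨n - j, by have := Finset.mem_range.1 hj; omega⟩
  have e : ∑ i ∈ Finset.range j, c i * f ^ i +
      f ^ j * ∑ i ∈ Finset.range (m + 1), c (j + i) * f ^ i = 0 := by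
    have e1 := congrArg (· * (algebraMap K L (q.coeff j))⁻¹) (minpoly.aeval K f)
    simp only [aeval_eq_sum_range, zero_mul] at e1
    rw [← e1, Finset.sum_mul, hm, Finset.sum_range_add _ j, Finset.mul_sum]
    congr 1 <;> refine Finset.sum_congr rfl fun i _ => ?_ <;>
      simp only [c, map_div₀, Algebra.smul_def, pow_add] <;> ring
  have all : ∀ V : ValuationSubring L, (∀ r : O, algebraMap O L r ∈ V) →
      f * ∑ i ∈ Finset.range (m + 1), c (j + i) * f ^ i ∈ V ∧
        ∑ i ∈ Finset.range (m + 1), c (j + i) * f ^ i ∈ V := fun V hV => by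
    have cV : ∀ i < n + 1, c i ∈ V := fun i hi => hV ⟨_, hO _ (c0 i hi)⟩
    by_cases k : f ∈ V
    · have := sum_mem (S := V) (t := Finset.range (m + 1)) (f := fun i => c (j + i) * f ^ i)
        fun i hi => mul_mem (cV _ (by have := Finset.mem_range.1 hi; omega)) (pow_mem k _)
      exact ⟨mul_mem k this, this⟩
    have f0 : f ≠ 0 := fun e => k (e ▸ zero_mem V)
    have k' := (V.mem_or_inv_mem f).resolve_left k
    have : f * ∑ i ∈ Finset.range (m + 1), c (j + i) * f ^ i ∈ V := by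
      rw [show f * ∑ i ∈ Finset.range (m + 1), c (j + i) * f ^ i =
        -∑ i ∈ Finset.range j, c i * f⁻¹ ^ (j - 1 - i) from mul_left_cancel₀ (pow_ne_zero j f0) (by
          rw [mul_left_comm, eq_neg_of_add_eq_zero_right e, mul_neg, mul_neg, Finset.mul_sum,
            Finset.mul_sum]
          refine congrArg _ (Finset.sum_congr rfl fun i hi => ?_)
          obtain ⟨u, rfl⟩ := Nat.exists_eq_add_of_lt (Finset.mem_range.1 hi)
          rw [show i + u + 1 - 1 - i = u by omega, inv_pow]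
          field_simp
          ring)]
      exact neg_mem (sum_mem fun i hi => mul_mem
        (cV _ (by have := Finset.mem_range.1 hi; omega)) (pow_mem k' _))
    exact ⟨this, by simpa [f0] using mul_mem k' this⟩
  refine ⟨_, int_of_all fun V hV => (all V hV).2, int_of_all fun V hV => (all V hV).1, ?_⟩
  have c2 : x (c (j + 0) * f ^ 0) = 1 := by simp [c, j0]
  rw [Finset.sum_range_succ', map_add, c2, map_sum, HahnSeries.orderTop_add_eq_right,
    HahnSeries.orderTop_one]
  rw [HahnSeries.orderTop_one]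
  refine (HahnSeries.addVal ℝ κ).map_lt_sum WithTop.zero_ne_top fun i hi => ?_
  rw [HahnSeries.addVal_apply, map_mul, map_pow, HahnSeries.orderTop_mul]
  exact add_pos_of_pos_of_nonneg (c1 _ (by have := Finset.mem_range.1 hi; omega) (by omega))
    (by simpa [Ge] using hf.pow (i + 1))

/-- two embeddings which are close on the base field and at the primitive element are close -/
theorem rc0 [Algebra.IsSeparable K L] {w : L} (hw : Algebra.adjoin K {w} = ⊤)
    (x x' : L →+* HahnSeries ℝ κ) {m a ρ : ℝ}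
    (h1 : ∀ c, Cl m (x (algebraMap K L c)) (x' (algebraMap K L c))) (h0 : Ge 0 (x w))
    (h2 : Ge m (x' w - x w)) (hi : ∀ i, Ge 0 (x (algebraMap K L ((minpoly K w).coeff i))))
    (h3 : (x (aeval w (derivative (minpoly K w)))).orderTop ≤ (ρ : WithTop ℝ))
    (h4 : ∃ (c : K) (g : ℝ), (x (algebraMap K L c)).orderTop = g ∧ 0 < g ∧ g ≤ a) (ρ0 : 0 ≤ ρ)
    (h5 : a + ρ < m) {f : L} (f0 : f ≠ 0) : Cl (m - ρ - a) (x f) (x' f) := by
  obtain ⟨c, g, hc, g0, ga⟩ := h4
  let O := Ap.vr (HahnSeries.addVal ℝ κ) (x.comp (algebraMap K L))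
  have wi : IsIntegral O w := by
    refine ⟨(minpoly K w).toSubring O.toSubring fun a ha => ?_,
      (monic_toSubring _ _ _).2 (minpoly.monic (Algebra.IsIntegral.isIntegral w)), ?_⟩
    · obtain ⟨i, -, rfl⟩ := mem_coeffs_iff.1 (Finset.mem_coe.1 ha)
      exact hi i
    · have := minpoly.aeval K w
      rw [← map_toSubring (minpoly K w) O.toSubring, aeval_def, eval₂_map] at this
      exact this
  have T : ∀ b ∈ Algebra.adjoin O {w}, Ge 0 (x b) ∧ Ge m (x' b - x b) := fun b hb => by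
    induction hb using Algebra.adjoin_induction with
    | mem b hb => exact hb ▸ ⟨h0, h2⟩
    | algebraMap r => exact ⟨r.2, ((h1 r).ge r.2).mono (zero_add _).ge⟩
    | add u v _ _ hu hv =>
      rw [map_add, map_add, add_sub_add_comm]
      exact ⟨hu.1.add hv.1, hu.2.add hv.2⟩
    | mul u v _ _ hu hv =>
      rw [map_mul, map_mul, show x' u * x' v - x u * x v =
        (x' u - x u) * (x' v - x v) + (x' u - x u) * x v + (x' v - x v) * x u by ring]
      exact ⟨hu.1.mul0 hv.1, ((hu.2.mul0 (hv.2.mono (by linarith))).add (hu.2.mul0 hv.1)).add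
        (hv.2.mul0 hu.1)⟩
  have I : ∀ b, IsIntegral O b → Ge (m - ρ) (x' b - x b) := fun b hb => by
    have k1 := T _ (eul0 hw wi hb)
    have k2 := T _ (eul0 hw wi isIntegral_one)
    obtain ⟨p, pm, e⟩ := hb
    have k3 : Ge 0 (x b) := mem_vs _ (Ap.vr (HahnSeries.addVal ℝ κ) x) (fun r : O => r.2) pm e
    rw [mul_one] at k2
    refine ge_of_mul ?_ ((le_of_sub h3 k2.2 (by linarith)).trans_le h3)
    have := k1.2.sub (k2.2.mul0 k3)
    rw [map_mul, map_mul] at this
    exact Eq.mp (congrArg _ (by ring)) this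
  obtain ⟨γ, hγ⟩ := ex_ord ((_root_.map_ne_zero x).2 f0)
  have c0 : algebraMap K L c ≠ 0 := fun e => by simp [e] at hc
  set f' := f * algebraMap K L (c ^ (-⌊γ / g⌋)) with hf'
  have o : (x f').orderTop = (γ + g * (-⌊γ / g⌋ : ℤ) : ℝ) := by
    rw [hf', map_mul, HahnSeries.orderTop_mul, hγ, map_zpow₀, map_zpow₀, WithTop.coe_add]
    exact congrArg _ (Ap.val_zpow (v := HahnSeries.addVal ℝ κ) hc _)
  have l1 := (le_div_iff₀ g0).1 (Int.floor_le (γ / g))
  have l2 := (div_lt_iff₀ g0).1 (Int.lt_floor_add_one (γ / g))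
  obtain ⟨s, s1, s2, s3⟩ := s0 x O (fun _ h => h) (f := f')
    (le_trans (WithTop.coe_le_coe.2 (by push_cast; linarith)) o.ge)
  have s0 : s ≠ 0 := fun e => by simp [e] at s3
  have k1 : Cl (m - ρ - a) (x (f' * s)) (x' (f' * s)) := cl_of (n := a) (by
    rw [map_mul, HahnSeries.orderTop_mul, s3, add_zero, o]
    exact WithTop.coe_le_coe.2 (by push_cast; linarith)) ((I _ s2).mono (by linarith))
  have k2 : Cl (m - ρ - a) (x s) (x' s) := cl_of (n := 0) s3.le ((I _ s1).mono (by linarith))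
  have k3 := (k1.mul (by linarith) (k2.inv (by linarith))).mul (by linarith)
    ((h1 (c ^ ⌊γ / g⌋)).mono (by linarith))
  have e : f' * s * s⁻¹ * algebraMap K L (c ^ ⌊γ / g⌋) = f := by
    rw [mul_inv_cancel_right₀ s0, hf', mul_assoc, ← map_mul, zpow_neg, inv_mul_cancel₀
      (zpow_ne_zero _ fun e => c0 (by rw [e, map_zero])), map_one, mul_one]
  simp only [← map_inv₀, ← map_mul] at k3
  rwa [e] at k3

end field

section prj

variable {d : ℕ}

theorem map_ev2 {R R' : Type} [CommRing R] [Algebra ℂ R] [CommRing R'] [Algebra ℂ R']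
    (x : R →ₐ[ℂ] R') (t : Fin d → R) (w : R) (G : (MvPolynomial (Fin d) ℂ)[X]) :
    x (ev2 t w G) = ev2 (fun l => x (t l)) (x w) G := by
  simp only [ev2, coe_eval₂RingHom]
  rw [← MvPolynomial.comp_aeval]
  exact hom_eval₂ G _ (x : R →+* R') w

theorem ev2_C {R : Type} [CommRing R] [Algebra ℂ R] (t : Fin d → R) (w : R)
    (g : MvPolynomial (Fin d) ℂ) : ev2 t w (C g) = MvPolynomial.aeval t g := eval₂_C _ _

variable {F : Type} [Field F] [Algebra ℂ F] {S : Subalgebra ℂ F} {p : Ideal S} {t : Fin d → F}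
  {w : F} {Φ : (MvPolynomial (Fin d) ℂ)[X]}

theorem Prj.inj (h : Prj S p t w Φ) :
    Function.Injective (MvPolynomial.aeval t : MvPolynomial (Fin d) ℂ →ₐ[ℂ] F) :=
  (injective_iff_map_eq_zero _).2 fun g e => by
    by_contra k
    have k1 := natDegree_le_of_dvd ((h.ker _).1 ((ev2_C t w g).trans e)) (C_ne_zero.2 k)
    rw [natDegree_C, Nat.le_zero, h.mon.natDegree_eq_zero] at k1
    simpa using (h.ker 1).2 (k1 ▸ dvd_rfl)

theorem Prj.ext (h : Prj S p t w Φ) {R : Type} [Field R] [Algebra ℂ R] {x x' : F →ₐ[ℂ] R}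
    (h1 : ∀ l, x (t l) = x' (t l)) (h2 : x w = x' w) : x = x' := AlgHom.ext fun a => by
  obtain ⟨G, H, rfl⟩ := h.top a
  simp only [map_div₀, map_ev2, h1, h2]

section

variable (h : Prj S p t w Φ) [Algebra (MvPolynomial (Fin d) ℂ) F]
  (hA : ∀ g, algebraMap (MvPolynomial (Fin d) ℂ) F g = MvPolynomial.aeval t g)
include hA

theorem aeval_ev2 (a : F) (G : (MvPolynomial (Fin d) ℂ)[X]) : aeval a G = ev2 t a G := by
  rw [aeval_def, show algebraMap (MvPolynomial (Fin d) ℂ) F = _ from RingHom.ext hA]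
  rfl

include h

theorem Prj.isInt {a : F} (ha : a ∈ S) : IsIntegral (MvPolynomial (Fin d) ℂ) a :=
  let ⟨G, k, e⟩ := h.int a ha
  ⟨G, k, (aeval_ev2 hA a G).trans e⟩

variable [Algebra (FractionRing (MvPolynomial (Fin d) ℂ)) F]
  [IsScalarTower (MvPolynomial (Fin d) ℂ) (FractionRing (MvPolynomial (Fin d) ℂ)) F]

theorem Prj.min : minpoly (FractionRing (MvPolynomial (Fin d) ℂ)) w = Φ.map (algebraMap _ _) := by
  rw [minpoly.isIntegrallyClosed_eq_field_fractions' _ (h.isInt hA h.wm),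
    ← minpoly.unique' _ _ h.mon ((aeval_ev2 hA _ _).trans ((h.ker _).2 dvd_rfl)) fun q hq =>
      or_iff_not_imp_right.2 fun k => eq_zero_of_dvd_of_degree_lt
        ((h.ker _).1 ((aeval_ev2 hA _ _).symm.trans (not_not.1 k))) hq]

theorem Prj.adj : Algebra.adjoin (FractionRing (MvPolynomial (Fin d) ℂ)) {w} = ⊤ := by
  rw [← IntermediateField.adjoin_simple_toSubalgebra_of_isAlgebraic
    (h.isInt hA h.wm).tower_top.isAlgebraic]
  refine eq_top_iff.2 fun a _ => ?_
  obtain ⟨G, H, rfl⟩ := h.top a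
  have k : ∀ G, ev2 t w G ∈ IntermediateField.adjoin (FractionRing (MvPolynomial (Fin d) ℂ)) {w} :=
    fun G => by
      rw [← aeval_ev2 hA, ← aeval_map_algebraMap (FractionRing (MvPolynomial (Fin d) ℂ))]
      exact IntermediateField.algebra_adjoin_le_adjoin _ _ (aeval_mem_adjoin_singleton _ _)
  exact IntermediateField.div_mem _ (k G) (k H)

theorem Prj.fin : FiniteDimensional (FractionRing (MvPolynomial (Fin d) ℂ)) F :=
  (PowerBasis.ofAdjoinEqTop (h.isInt hA h.wm).tower_top (h.adj hA)).finite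

theorem Prj.der : aeval w (derivative (minpoly (FractionRing (MvPolynomial (Fin d) ℂ)) w)) =
    ev2 t w (derivative Φ) := by
  rw [h.min hA, derivative_map, aeval_map_algebraMap, aeval_ev2 hA]

end

theorem Prj.alg (h : Prj S p t w Φ) : ∃ (_ : Algebra (MvPolynomial (Fin d) ℂ) F)
    (_ : Algebra (FractionRing (MvPolynomial (Fin d) ℂ)) F),
    IsScalarTower (MvPolynomial (Fin d) ℂ) (FractionRing (MvPolynomial (Fin d) ℂ)) F ∧
      ∀ g, algebraMap (MvPolynomial (Fin d) ℂ) F g = MvPolynomial.aeval t g := by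
  let _ := (MvPolynomial.aeval t : MvPolynomial (Fin d) ℂ →ₐ[ℂ] F).toRingHom.toAlgebra
  let _ := (IsFractionRing.lift (K := FractionRing (MvPolynomial (Fin d) ℂ))
    (g := (MvPolynomial.aeval t : MvPolynomial (Fin d) ℂ →ₐ[ℂ] F).toRingHom) h.inj).toAlgebra
  exact ⟨_, _, .of_algebraMap_eq fun g => (IsFractionRing.lift_algebraMap h.inj g).symm,
    fun _ => rfl⟩

/-- the different kills the normalisation -/
theorem Prj.eul (h : Prj S p t w Φ) {a : F} (ha : a ∈ S) :
    ∃ Q, ev2 t w (derivative Φ) * a = ev2 t w Q := by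
  obtain ⟨_, _, _, hA⟩ := h.alg
  have := h.fin hA
  have k := eul0 (h.adj hA) (h.isInt hA h.wm) (h.isInt hA ha)
  rw [h.der hA, Algebra.adjoin_singleton_eq_range_aeval] at k
  obtain ⟨Q, e⟩ := k
  exact ⟨Q, e.symm.trans (aeval_ev2 hA _ _)⟩

/-- a generic point of the hypersurface is an embedding of the function field -/
theorem Prj.exa (h : Prj S p t w Φ) {R : Type} [Field R] [Algebra ℂ R] {t' : Fin d → R} {w' : R}
    (hi : AlgebraicIndependent ℂ t') (e : ev2 t' w' Φ = 0) :
    ∃ x : F →ₐ[ℂ] R, (∀ l, x (t l) = t' l) ∧ x w = w' := by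
  obtain ⟨_, _, _, hA⟩ := h.alg
  let _ := (IsFractionRing.lift (K := FractionRing (MvPolynomial (Fin d) ℂ))
    (g := (MvPolynomial.aeval t' : MvPolynomial (Fin d) ℂ →ₐ[ℂ] R).toRingHom) hi).toAlgebra
  have k : ∀ g, algebraMap (FractionRing (MvPolynomial (Fin d) ℂ)) R (algebraMap _ _ g) =
      MvPolynomial.aeval t' g := IsFractionRing.lift_algebraMap hi
  let b := PowerBasis.ofAdjoinEqTop (h.isInt hA h.wm).tower_top (h.adj hA)
  have hb : aeval w' (minpoly (FractionRing (MvPolynomial (Fin d) ℂ)) b.gen) = 0 := by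
    rw [show b.gen = w from rfl, h.min hA, aeval_def, eval₂_map,
      show (algebraMap _ R).comp (algebraMap _ _) = _ from RingHom.ext k]
    exact e
  have k2 : ∀ g, b.lift w' hb (MvPolynomial.aeval t g) = MvPolynomial.aeval t' g := fun g => by
    rw [← hA, IsScalarTower.algebraMap_apply _ (FractionRing (MvPolynomial (Fin d) ℂ)),
      AlgHom.commutes, k]
  refine ⟨⟨(b.lift w' hb : F →+* R), fun c => ?_⟩, fun l => ?_, b.lift_gen w' hb⟩
  · simpa using k2 (MvPolynomial.C c)
  · simpa using k2 (MvPolynomial.X l)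

variable {κ : Type} [Field κ] [Algebra ℂ κ] {δ : Fin d → Derivation ℂ κ κ} {b M : ℝ}

theorem le_jx {x : Fin d → HahnSeries ℝ κ} (hx : ∀ l, Ge 0 (x l))
    (hJ : (Jx δ x).orderTop ≤ (b : WithTop ℝ)) (l : Fin d) : (x l).orderTop ≤ (b : WithTop ℝ) := by
  have k : ∀ r : ℝ, Ge r (x l) → r ≤ b := fun r hr => by
    have := ge_det (M := Matrix.of fun i k => thl 0 (δ k) (x i)) (w := Pi.single l r)
      fun i k => (ctr_thl _ _).ge (by
        rw [Pi.single_apply]
        split_ifs with e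
        exacts [e ▸ hr, hx i])
    rw [Finset.sum_pi_single', if_pos (Finset.mem_univ _), ← Matrix.det_transpose] at this
    exact WithTop.coe_le_coe.1 (le_trans this hJ)
  obtain ⟨r, hr⟩ := ex_ord (a := x l) fun e => by linarith [k (b + 1) (e ▸ ge_zero _)]
  exact hr.trans_le (WithTop.coe_le_coe.2 (k r hr.ge))

theorem jx_ind {x : Fin d → HahnSeries ℝ κ} (hJ : Jx δ x ≠ 0) : AlgebraicIndependent ℂ x :=
  P285N.Brep.TbAux.ind (fun k => thl 0 (δ k)) x hJ

/-- **a jet of an arc determines the initial parts of all functions** -/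
theorem Prj.rc (h : Prj S p t w Φ) (hd : 0 < d) (x x' : F →ₐ[ℂ] HahnSeries ℝ κ)
    (pos : ∀ l, 0 < (x (t l)).orderTop) (hw : Ge 0 (x w))
    (hJ : (Jx δ fun l => x (t l)).orderTop ≤ (b : WithTop ℝ))
    (hΦ : (x (ev2 t w (derivative Φ))).orderTop ≤ (b : WithTop ℝ))
    (ht : ∀ l, Ge M (x' (t l) - x (t l))) (hw' : Ge M (x' w - x w)) (hM : 3 * b < M) {f : F}
    (f0 : f ≠ 0) : Cl (M - 3 * b) (x f) (x' f) := by
  obtain ⟨_, _, _, hA⟩ := h.alg
  have := h.fin hA
  have ge : ∀ l, Ge 0 (x (t l)) := fun l => (pos l).le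
  obtain ⟨g, hg, l⟩ := ex_le (le_jx ge hJ ⟨0, hd⟩)
  have g0 : 0 < g := WithTop.coe_pos.1 (hg ▸ pos _)
  have ev : ∀ (y : F →ₐ[ℂ] HahnSeries ℝ κ) q, y (algebraMap
      (FractionRing (MvPolynomial (Fin d) ℂ)) F (algebraMap (MvPolynomial (Fin d) ℂ) _ q)) =
        MvPolynomial.aeval (fun l => y (t l)) q := fun y q => by
      rw [← IsScalarTower.algebraMap_apply, hA, ← MvPolynomial.comp_aeval, AlgHom.comp_apply]
  have k : ∀ q : MvPolynomial (Fin d) ℂ, Cl (M - b) (MvPolynomial.aeval (fun l => x (t l)) q)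
      (MvPolynomial.aeval (fun l => x' (t l)) q) := fun q => by
    by_cases q0 : q = 0
    · exact ⟨0, ge_zero _, by simp [q0]⟩
    obtain ⟨r, hr⟩ := ex_ord (a := MvPolynomial.aeval (fun l => x (t l)) q) fun e =>
      q0 (algebraicIndependent_iff.1 (jx_ind (δ := δ) fun e => by simp [e] at hJ) q e)
    exact cl_of hr.le (jet ge hJ (by linarith) ht hr.ge)
  have := rc0 (h.adj hA) (x : F →+* HahnSeries ℝ κ) (x' : F →+* HahnSeries ℝ κ) (m := M - b)
    (a := b) (ρ := b) (fun c => by
      obtain ⟨r, s, -, rfl⟩ := IsFractionRing.div_surjective (A := MvPolynomial (Fin d) ℂ) c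
      simp only [div_eq_mul_inv, map_mul, map_inv₀, RingHom.coe_coe, ev]
      exact (k r).mul (by linarith) ((k s).inv (by linarith)))
    hw (hw'.mono (by linarith)) (fun i => by
      rw [h.min hA, coeff_map, RingHom.coe_coe, ev]
      exact ge_aeval ge _) (by rwa [h.der hA])
    ⟨algebraMap (MvPolynomial (Fin d) ℂ) _ (MvPolynomial.X ⟨0, hd⟩), g, by
      rwa [RingHom.coe_coe, ev, MvPolynomial.aeval_X], g0, l⟩ (by linarith) (by linarith) f0
  exact this.mono (by linarith)

end prj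

end Vale.Agent.P283R.Tx
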