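import Vale.Agent.P283R.Be2.Tw1
import Vale.Agent.P283R.Be2.TwB
import Vale.Agent.P283R.Be2.TwK
import Vale.Agent.P283R.Be2.Kb
import Vale.Agent.P283R.Be2.Arc

/-!
# P283R, block BE: tools for the core of the twist
-/

attribute [-instance] HahnSeries.powerSeriesAlgebra

open MvPolynomial

noncomputable section

namespace Vale.Agent.P283R.Tw8

open Co Tx Dr13 _root_.Vale.Agent.P283R.Btw
open Bkb (Wk)

variable {F κ : Type} [Field F] [Algebra ℂ F] [Field κ] [Algebra ℂ κ] {d N K : ℕ}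
  {A : Subgroup (F ≃ₐ[ℂ] F)} {S : Subalgebra ℂ F} {p : Ideal S} {z : Fin N → F}

theorem stab (h : Pt d A S p z) : Stab A S := fun σ hσ a ha => by
  obtain ⟨b, -, e⟩ := h.inr σ hσ ⟨a, ha⟩
  simpa [← e] using add_mem b.2 ha

theorem z_mem (h : Pt d A S p z) (j : Fin N) : z j ∈ S := by
  obtain ⟨s, -, e⟩ := h.mem j
  exact e ▸ s.2

theorem av_lo (h : Pt d A S p z) (G : MvPolynomial (Fin N) ℂ) : aeval z G ∈ loc h.pri := by
  induction G using MvPolynomial.induction_on with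
  | C a => rw [aeval_C]; exact Subalgebra.algebraMap_mem _ a
  | add f g hf hg => rw [map_add]; exact add_mem hf hg
  | mul_X f s hf => rw [map_mul, aeval_X]; exact mul_mem hf (coe_mem h.pri ⟨_, z_mem h s⟩)

theorem wk_mul (h : Pt d A S p z) {c a : F} (hc : c ∈ loc h.pri) (ha : a ∈ Wk S p z K) :
    c * a ∈ Wk S p z K := by
  induction ha using Submodule.span_induction with
  | mem u hu =>
    obtain ⟨e, he, b, hb, rfl⟩ := hu
    exact Submodule.subset_span ⟨c * e, (loc h.pri).mul_mem hc he, b, hb, by ring⟩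
  | zero => simp
  | add x y _ _ a b => rw [mul_add]; exact add_mem a b
  | smul a x _ b => rw [mul_smul_comm]; exact Submodule.smul_mem _ _ b

theorem wk_ge (h : Pt d A S p z) {ψ : F →ₐ[ℂ] HahnSeries ℝ κ} (hψ : Arc S p ψ) {β : ℝ}
    (hβ : ∀ j, Ge β (ψ (z j))) {a : F} (ha : a ∈ Wk S p z K) : Ge (K * β) (ψ a) := by
  induction ha using Submodule.span_induction with
  | mem u hu =>
    obtain ⟨e, he, b, rfl, rfl⟩ := hu
    rw [map_mul, map_prod]
    refine (Barc.ge_lo hψ h.res he).zero_mul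
      ((Ge.prod fun j _ => map_pow ψ _ _ ▸ (hβ j).pow (b j)).mono ?_)
    rw [← Finset.sum_mul]
    simp
  | zero => rw [map_zero]; exact ge_zero _
  | add x y _ _ a b => rw [map_add]; exact a.add b
  | smul a x _ b => rw [map_smul]; exact Btw.ge_smul b a

theorem approx (h : Pt d A S p z) (K : ℕ) {a : F} (ha : a ∈ Lo S p) :
    ∃ G : MvPolynomial (Fin N) ℂ, a - aeval z G ∈ Wk S p z K := by
  obtain ⟨w, hw, x, hx, e⟩ := Submodule.mem_sup.1 (Bkb.expk h ha K)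
  obtain ⟨G, rfl⟩ : x ∈ LinearMap.range (aeval z : MvPolynomial (Fin N) ℂ →ₐ[ℂ] F).toLinearMap := by
    refine Submodule.span_le.2 ?_ hx
    rintro _ ⟨b, -, rfl⟩
    exact ⟨∏ j, X j ^ b j, by simp⟩
  exact ⟨G, by rw [← e]; simpa using hw⟩

theorem approx_p (h : Pt d A S p z) (K : ℕ) {a : S} (ha : a ∈ p) :
    ∃ G : Fin N → MvPolynomial (Fin N) ℂ, a - aeval z (∑ j, X j * G j) ∈ Wk S p z K := by
  obtain ⟨c, hc, e⟩ := h.gen a ha
  choose G hG using fun j => approx h K (hc j)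
  refine ⟨G, ?_⟩
  rw [e, map_sum, ← Finset.sum_sub_distrib]
  refine Submodule.sum_mem _ fun j _ => ?_
  rw [map_mul, aeval_X, mul_comm, ← mul_sub]
  exact wk_mul h (coe_mem h.pri ⟨_, z_mem h j⟩) (hG j)

theorem wk_cong (h : Pt d A S p z) {σ : Type} {u u' : σ → F} (hu : ∀ o, u o ∈ loc h.pri)
    (hu' : ∀ o, u' o ∈ loc h.pri) (e : ∀ o, u o - u' o ∈ Wk S p z K) (H : MvPolynomial σ ℂ) :
    aeval u H - aeval u' H ∈ Wk S p z K ∧ aeval u H ∈ loc h.pri := by
  induction H using MvPolynomial.induction_on with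
  | C a => exact ⟨by simp, by rw [aeval_C]; exact Subalgebra.algebraMap_mem _ a⟩
  | add f g hf hg =>
    exact ⟨by rw [map_add, map_add, add_sub_add_comm]; exact add_mem hf.1 hg.1,
      by rw [map_add]; exact add_mem hf.2 hg.2⟩
  | mul_X f s hf =>
    refine ⟨?_, by rw [map_mul, aeval_X]; exact mul_mem hf.2 (hu s)⟩
    convert add_mem (wk_mul h (hu' s) hf.1) (wk_mul h hf.2 (e s)) using 1
    simp only [map_mul, aeval_X]
    ring

theorem arc_comp (h : Pt d A S p z) {ψ : F →ₐ[ℂ] HahnSeries ℝ κ} (hψ : Arc S p ψ)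
    {σ : F ≃ₐ[ℂ] F} (hσ : σ ∈ A) : Arc S p (ψ.comp (σ : F →ₐ[ℂ] F)) := by
  refine ⟨fun a ha => hψ.ge _ (stab h σ hσ a ha), fun a ha => ?_⟩
  obtain ⟨b, hb, e⟩ := h.inr σ hσ a
  have := hψ.pos _ (p.add_mem hb ha)
  rwa [Subalgebra.coe_add, ← e, sub_add_cancel] at this

variable {δ : Fin d → Derivation ℂ κ κ}

theorem ge_jx {y : Fin d → HahnSeries ℝ κ} (hy : ∀ l, Ge 0 (y l)) : Ge 0 (Jx δ y) :=
  ge_det0 fun _ _ => (ctr_thl _ _).ge (hy _)

theorem jx_sum (y : Fin N → HahnSeries ℝ κ) (U : Fin d → MvPolynomial (Fin N) ℂ) :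
    Jx δ (fun l => aeval y (U l)) =
      ∑ J : Fin d → Fin N, (∏ l, aeval y (pderiv (J l) (U l))) * Jx δ fun l => y (J l) := by
  simp only [Jx, Matrix.det_apply', Matrix.of_apply, da, Finset.prod_univ_sum, Finset.mul_sum,
    Fintype.piFinset_univ, Finset.prod_mul_distrib]
  rw [Finset.sum_comm]
  exact Finset.sum_congr rfl fun _ _ => Finset.sum_congr rfl fun _ _ => by ring

theorem jx_tw (e : Fin d → ℂ) (g : Fin d → ℝ) (y : Fin d → HahnSeries ℝ κ) :
    Jx δ (fun l => e l • (HahnSeries.single (g l) 1 * y l)) =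
      (∏ l, e l • HahnSeries.single (g l) (1 : κ)) * Jx δ y := by
  rw [Jx, Jx, ← Matrix.det_mul_row]
  congr 1
  ext k l : 2
  simp only [Matrix.of_apply, Derivation.map_smul, Derivation.leibniz, thl_single, smul_eq_mul]
  simp

variable (P : MvPolynomial (Fin (d + 1)) ℂ) (Q : Fin d → MvPolynomial (Fin (d + 1)) ℂ)

/-- the derivative times the Jacobian of the system -/
def Xi {R : Type} [CommRing R] [Algebra ℂ R] (b : Fin (d + 1) → R) (c : Fin d → R) : R :=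
  aeval b (pderiv 0 P) * (mt P Q b c).det

theorem map_xi {R R' : Type} [CommRing R] [Algebra ℂ R] [CommRing R'] [Algebra ℂ R']
    (f : R →ₐ[ℂ] R') (b : Fin (d + 1) → R) (c : Fin d → R) :
    f (Xi P Q b c) = Xi P Q (fun o => f (b o)) fun i => f (c i) := by
  rw [Xi, Xi, map_mul, map_mt, comp_aeval_apply]

theorem xi_lip {b b' : Fin (d + 1) → HahnSeries ℝ κ} {c : Fin d → HahnSeries ℝ κ}
    (hb : ∀ o, Ge 0 (b o)) (hc : ∀ i, Ge 0 (c i)) {r : ℝ} (hr : 0 ≤ r)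
    (h : ∀ o, Ge r (b' o - b o)) : Ge r (Xi P Q b' c - Xi P Q b c) := by
  have := (lipH (b := Sum.elim b c) (b' := Sum.elim b' c) (Sum.rec hb hc) hr
    (Sum.rec h fun i => by simpa using ge_zero r)
    (Xi P Q (fun o => X (Sum.inl o)) fun i => X (Sum.inr i))).1
  simpa [map_xi] using this

theorem ge_mt {b : Fin (d + 1) → HahnSeries ℝ κ} {c : Fin d → HahnSeries ℝ κ}
    (hb : ∀ o, Ge 0 (b o)) (hc : ∀ i, Ge 0 (c i)) : Ge 0 (mt P Q b c).det := by
  have := Tx.ge_aeval (x := Sum.elim b c) (Sum.rec hb hc)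
    (mt P Q (fun o => X (Sum.inl o)) fun i => X (Sum.inr i)).det
  simpa [map_mt] using this

omit [Algebra ℂ κ] in
theorem ord_mul_le {a b : HahnSeries ℝ κ} {r s : ℝ} (ha : a.orderTop ≤ (r : WithTop ℝ))
    (hb : b.orderTop ≤ (s : WithTop ℝ)) : (a * b).orderTop ≤ ((r + s : ℝ) : WithTop ℝ) := by
  rw [HahnSeries.orderTop_mul, WithTop.coe_add]
  exact add_le_add ha hb

omit [Algebra ℂ κ] in
theorem ord_pow_le {a : HahnSeries ℝ κ} {r : ℝ} (ha : a.orderTop ≤ (r : WithTop ℝ)) (n : ℕ) :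
    (a ^ n).orderTop ≤ ((n * r : ℝ) : WithTop ℝ) := by
  induction n with
  | zero => simp
  | succ n ih => rw [pow_succ, Nat.cast_succ, add_mul, one_mul]; exact ord_mul_le ih ha

/-- the order of the Jacobian at an exact solution -/
theorem xi_le {b : Fin (d + 1) → HahnSeries ℝ κ} {c : Fin d → HahnSeries ℝ κ}
    (hb : ∀ o, Ge 0 (b o)) (h0 : aeval b P = 0)
    (h1 : ∀ i, aeval b (pderiv 0 P) * c i = aeval b (Q i)) {a a' : ℝ}
    (ha : (aeval b (pderiv 0 P)).orderTop ≤ (a : WithTop ℝ))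
    (hc : (Jx δ c).orderTop ≤ (a' : WithTop ℝ)) :
    (Xi P Q b c).orderTop ≤ ((a + (a + (d * a + a')) : ℝ) : WithTop ℝ) := by
  refine ord_mul_le ha (le_left (b := Jx δ fun l => b l.succ) ?_ (ge_jx fun l => hb _))
  rw [Jx, det_id P Q _ h0 h1]
  exact ord_mul_le ha (ord_mul_le (ord_pow_le (by rwa [HahnSeries.orderTop_neg]) d) hc)

end Vale.Agent.P283R.Tw8
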