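import Vale.Agent.P283R.Be2.TwS
import Vale.Agent.P283R.Be2.Hen

/-!
# P283R, block BE: Hahn series, rotations, jets and generic twists
-/

attribute [-instance] HahnSeries.powerSeriesAlgebra

open MvPolynomial

noncomputable section

namespace Vale.Agent.P283R.Tx

open Co

variable {κ : Type} [Field κ]

section basic

variable {a b c e : HahnSeries ℝ κ} {m n : ℝ}

theorem ex_ord (h : a ≠ 0) : ∃ r : ℝ, a.orderTop = r :=
  (WithTop.ne_top_iff_exists.1 (HahnSeries.orderTop_ne_top.2 h)).imp fun _ => Eq.symm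

theorem ex_le (h : a.orderTop ≤ (n : WithTop ℝ)) : ∃ r : ℝ, a.orderTop = r ∧ r ≤ n := by
  obtain ⟨r, hr⟩ := ex_ord (a := a) fun e => by simp [e] at h
  exact ⟨r, hr, WithTop.coe_le_coe.1 (hr ▸ h)⟩

theorem ge_of_mul (h : Ge m (a * b)) (ha : a.orderTop ≤ (n : WithTop ℝ)) : Ge (m - n) b := by
  obtain ⟨r, hr, l⟩ := ex_le ha
  obtain ⟨a0, k⟩ := Hn.ge_inv hr
  have := k.mul h
  rw [inv_mul_cancel_left₀ a0] at this
  exact this.mono (by linarith)

theorem le_of_sub (ha : a.orderTop ≤ (n : WithTop ℝ)) (h : Ge m (b - a)) (l : n < m) :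
    b.orderTop = a.orderTop := by
  have := HahnSeries.orderTop_add_eq_left (x := a) (y := b - a)
    (lt_of_le_of_lt ha (lt_of_lt_of_le (WithTop.coe_lt_coe.2 l) h))
  rwa [add_sub_cancel] at this

theorem le_left (h : (a * b).orderTop ≤ (n : WithTop ℝ)) (hb : Ge 0 b) :
    a.orderTop ≤ (n : WithTop ℝ) := by
  rw [HahnSeries.orderTop_mul] at h
  exact le_trans (le_add_of_nonneg_right hb) h

/-- `b` and `a` have the same initial part -/
def Cl (m : ℝ) (a b : HahnSeries ℝ κ) : Prop := ∃ u, Ge m u ∧ b = a * (1 + u)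

theorem Cl.mono (h : Cl m a b) (l : n ≤ m) : Cl n a b := h.imp fun _ k => ⟨k.1.mono l, k.2⟩

theorem Cl.mul (l : 0 ≤ m) (h : Cl m a b) (h' : Cl m c e) : Cl m (a * c) (b * e) := by
  obtain ⟨u, hu, rfl⟩ := h
  obtain ⟨v, hv, rfl⟩ := h'
  exact ⟨u + v + u * v, (hu.add hv).add (hu.mul0 (hv.mono l)), by ring⟩

theorem Cl.inv (l : 0 < m) (h : Cl m a b) : Cl m a⁻¹ b⁻¹ := by
  obtain ⟨u, hu, rfl⟩ := h
  obtain ⟨u0, k⟩ := Hn.ge_inv (u := 1 + u) (D := 0)
    (Hn.ord_add HahnSeries.orderTop_one (by rwa [zero_add]) l)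
  refine ⟨-(u * (1 + u)⁻¹), (hu.mul0 (by simpa using k)).neg, ?_⟩
  rw [mul_inv]
  congr 1
  field_simp
  ring

theorem cl_of (ha : a.orderTop ≤ (n : WithTop ℝ)) (h : Ge (n + m) (b - a)) : Cl m a b := by
  have a0 : a ≠ 0 := fun e => by simp [e] at ha
  refine ⟨(b - a) / a, ?_, by field_simp; ring⟩
  have := ge_of_mul (a := a) (b := (b - a) / a) (by rwa [mul_div_cancel₀ _ a0]) ha
  rwa [add_sub_cancel_left] at this

theorem Cl.ge (h : Cl m a b) (ha : Ge n a) : Ge (n + m) (b - a) := by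
  obtain ⟨u, hu, rfl⟩ := h
  rw [show a * (1 + u) - a = a * u by ring]
  exact ha.mul hu

theorem zpow_single (β : ℝ) (u : κ) (n : ℤ) :
    HahnSeries.single β u ^ n = HahnSeries.single (n * β) (u ^ n) := by
  obtain ⟨k, rfl | rfl⟩ := n.eq_nat_or_neg
  · rw [zpow_natCast, HahnSeries.single_pow, zpow_natCast, nsmul_eq_mul, Int.cast_natCast]
  · rw [zpow_neg, zpow_natCast, HahnSeries.single_pow, HahnSeries.inv_single, zpow_neg,
      zpow_natCast, nsmul_eq_mul, Int.cast_neg, Int.cast_natCast, neg_mul]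

end basic

variable [Algebra ℂ κ]

theorem ge_c (c : ℂ) : Ge 0 (algebraMap ℂ (HahnSeries ℝ κ) c) := by
  rw [HahnSeries.algebraMap_apply]
  exact ge_single 0 _

section rot

/-- the character of the rotation -/
def ex (g : ℝ) : ℂ := Complex.exp (2 * Real.pi * Complex.I * g)

theorem ex_add (a b : ℝ) : ex (a + b) = ex a * ex b := by
  rw [ex, ex, ex, ← Complex.exp_add, Complex.ofReal_add, mul_add]

theorem ex_ne (a : ℝ) : ex a ≠ 0 := Complex.exp_ne_zero _

theorem ex_one {a : ℝ} : ex a = 1 ↔ ∃ n : ℤ, a = n := by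
  rw [ex, Complex.exp_eq_one_iff]
  refine exists_congr fun n => ?_
  rw [mul_comm, mul_left_inj' Complex.two_pi_I_ne_zero]
  exact_mod_cast Iff.rfl

/-- the rotation `t ^ g ↦ exp (2 π i ρ g) t ^ g` -/
def rot (ρ : ℝ) : HahnSeries ℝ κ →ₐ[ℂ] HahnSeries ℝ κ :=
  have hs (a : HahnSeries ℝ κ) :
      (Function.support fun g => ex (ρ * g) • a.coeff g) ⊆ a.support := fun g hg h =>
    hg (by simp [h])
  AlgHom.ofLinearMap
    { toFun a := ⟨fun g => ex (ρ * g) • a.coeff g, a.isPWO_support.mono (hs a)⟩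
      map_add' a b := by ext g; simp
      map_smul' c a := by ext g; simp [smul_comm c] }
    (by
      ext g
      by_cases h : g = 0
      · simp [h, ex]
      · simp [h])
    fun a b => by
      ext g
      simp only [LinearMap.coe_mk, AddHom.coe_mk]
      rw [HahnSeries.coeff_mul_right' (y := ⟨_, _⟩) b.isPWO_support (hs b),
        HahnSeries.coeff_mul, Finset.smul_sum]
      refine (Finset.sum_subset_zero_on_sdiff
        (Finset.antidiagonal_mono_left (hs a)) (fun ij hij => ?_) fun ij hij => ?_).symm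
      · have : ex (ρ * ij.1) • a.coeff ij.1 = 0 := by
          by_contra k
          obtain ⟨h1, h2⟩ := Finset.mem_sdiff.1 hij
          exact h2 (Finset.mem_antidiagonal.2 ⟨k, (Finset.mem_antidiagonal.1 h1).2⟩)
        rw [(smul_eq_zero.1 this).resolve_left (ex_ne _), zero_mul, smul_zero]
      · rw [← (Finset.mem_antidiagonal.1 hij).2.2, mul_add, ex_add, smul_mul_smul_comm]

theorem coeff_rot (ρ : ℝ) (a : HahnSeries ℝ κ) (g : ℝ) :
    (rot ρ a).coeff g = ex (ρ * g) • a.coeff g := rfl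

theorem ge_rot (ρ : ℝ) {a : HahnSeries ℝ κ} {r : ℝ} (h : Ge r a) : Ge r (rot ρ a) :=
  ge_iff.2 fun g hg => by rw [coeff_rot, ge_iff.1 h g hg, smul_zero]

theorem rot_single (ρ g : ℝ) (c : κ) :
    rot ρ (HahnSeries.single g c) = ex (ρ * g) • HahnSeries.single g c := by
  ext g'
  rw [coeff_rot]
  by_cases h : g' = g
  · simp [h]
  · simp [HahnSeries.coeff_single_of_ne h]

theorem int_of {ρ g : ℝ} {a : HahnSeries ℝ κ} (h : a.coeff g ≠ 0)
    (e : (rot ρ a).coeff g = a.coeff g) : ∃ n : ℤ, ρ * g = n :=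
  ex_one.1 (smul_left_injective ℂ h (e.trans (one_smul _ _).symm))

theorem zs_iff {a : HahnSeries ℝ κ} : Zs a ↔ rot 1 a = a := by
  refine ⟨fun h => HahnSeries.ext (funext fun g => ?_), fun h g hg => ?_⟩
  · rw [coeff_rot]
    by_cases k : a.coeff g = 0
    · rw [k, smul_zero]
    · rw [one_mul, ex_one.2 (h g k), one_smul]
  · simpa using int_of (ρ := 1) hg (by rw [h])

theorem Zs.rot {a : HahnSeries ℝ κ} (h : Zs a) (n : ℕ) : rot n a = a := by
  ext g
  rw [coeff_rot]
  by_cases k : a.coeff g = 0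
  · rw [k, smul_zero]
  · obtain ⟨m, rfl⟩ := h g k
    rw [ex_one.2 ⟨n * m, by push_cast; rfl⟩, one_smul]

omit [Algebra ℂ κ] in
theorem Zs.one {a : HahnSeries ℝ κ} (h : Zs a) (h0 : 0 < a.orderTop) : Ge 1 a :=
  ge_iff.2 fun g hg => by
    by_contra k
    obtain ⟨m, rfl⟩ := h g k
    have h1 : (0 : ℝ) < m :=
      WithTop.coe_lt_coe.1 (h0.trans_le (HahnSeries.orderTop_le_of_coeff_ne_zero k))
    have h2 : 0 < m := by exact_mod_cast h1
    have h3 : m < 1 := by exact_mod_cast hg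
    omega

theorem int_of_cl {ρ g m : ℝ} {a : HahnSeries ℝ κ} (hm : 0 < m) (h : Cl m a (rot ρ a))
    (hg : a.orderTop = g) : ∃ n : ℤ, ρ * g = n :=
  int_of (HahnSeries.coeff_orderTop_ne hg) (by
    have := ge_iff.1 (h.ge hg.ge) g (by linarith)
    rwa [HahnSeries.coeff_sub, sub_eq_zero] at this)

end rot

section jet

variable {σ : Type}

theorem ge_aeval {x : σ → HahnSeries ℝ κ} (hx : ∀ j, Ge 0 (x j)) (p : MvPolynomial σ ℂ) :
    Ge 0 (aeval x p) := by
  induction p using MvPolynomial.induction_on with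
  | C a => rw [aeval_C]; exact ge_c a
  | add p q hp hq => rw [map_add]; exact hp.add hq
  | mul_X p j hp => rw [map_mul, aeval_X]; exact hp.mul0 (hx j)

theorem lip {x x' : σ → HahnSeries ℝ κ} (hx : ∀ j, Ge 0 (x j)) (hx' : ∀ j, Ge 0 (x' j)) {M : ℝ}
    (h : ∀ j, Ge M (x' j - x j)) (p : MvPolynomial σ ℂ) : Ge M (aeval x' p - aeval x p) := by
  induction p using MvPolynomial.induction_on with
  | C a => simpa using ge_zero M
  | add p q hp hq => rw [map_add, map_add, add_sub_add_comm]; exact hp.add hq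
  | mul_X p j hp =>
    rw [map_mul, map_mul, aeval_X, aeval_X, show aeval x' p * x' j - aeval x p * x j =
      (aeval x' p - aeval x p) * x' j + (x' j - x j) * aeval x p by ring]
    exact (hp.mul0 (hx' j)).add ((h j).mul0 (ge_aeval hx p))

theorem da [Fintype σ] {R : Type} [CommRing R] [Algebra ℂ R] (D : Derivation ℂ R R) (z : σ → R)
    (p : MvPolynomial σ ℂ) : D (aeval z p) = ∑ j, D (z j) * aeval z (pderiv j p) := by
  classical
  induction p using MvPolynomial.induction_on with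
  | C a => simp
  | add p q hp hq => simp only [map_add, hp, hq, mul_add, Finset.sum_add_distrib]
  | mul_X p i hp =>
    simp only [map_mul, aeval_X, Derivation.leibniz, smul_eq_mul, hp, map_add, mul_add,
      Finset.sum_add_distrib, Finset.mul_sum, pderiv_X, Pi.single_apply]
    congr 1
    · rw [Finset.sum_eq_single i (fun j _ hj => by simp [hj.symm]) (by simp)]
      simp [mul_comm]
    · exact Finset.sum_congr rfl fun j _ => mul_left_comm _ _ _

omit [Algebra ℂ κ] in
theorem ge_det0 [Fintype σ] [DecidableEq σ] {A : Matrix σ σ (HahnSeries ℝ κ)}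
    (h : ∀ i j, Ge 0 (A i j)) : Ge 0 A.det := by
  simpa using ge_det (w := fun _ => 0) h

theorem det_lip [Fintype σ] [DecidableEq σ] {A B : Matrix σ σ (HahnSeries ℝ κ)}
    (hA : ∀ i j, Ge 0 (A i j)) (hB : ∀ i j, Ge 0 (B i j)) {M : ℝ}
    (h : ∀ i j, Ge M (B i j - A i j)) : Ge M (B.det - A.det) := by
  have k := lip (x := fun q : σ × σ => A q.1 q.2) (x' := fun q => B q.1 q.2)
    (fun q => hA _ _) (fun q => hB _ _) (fun q => h _ _)
    (Matrix.of fun i j => (X (i, j) : MvPolynomial (σ × σ) ℂ)).det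
  rw [AlgHom.map_det, AlgHom.map_det] at k
  have e : ∀ C : Matrix σ σ (HahnSeries ℝ κ), (aeval fun q : σ × σ => C q.1 q.2).mapMatrix
      (Matrix.of fun i j => (X (i, j) : MvPolynomial (σ × σ) ℂ)) = C := fun C => by
    ext1 i j
    simp
  rwa [e, e] at k

variable {d : ℕ} {δ : Fin d → Derivation ℂ κ κ} {t t' : Fin d → HahnSeries ℝ κ} {a M n : ℝ}

theorem jx_lip (ht : ∀ l, Ge 0 (t l)) (ht' : ∀ l, Ge 0 (t' l)) (h : ∀ l, Ge M (t' l - t l)) :
    Ge M (Jx δ t' - Jx δ t) :=
  det_lip (fun _ _ => (ctr_thl _ _).ge (ht _)) (fun _ _ => (ctr_thl _ _).ge (ht' _))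
    fun k l => by
      have := (ctr_thl 0 (δ k)).ge (h l)
      rwa [map_sub] at this

theorem cramer {R : Type} [CommRing R] (A : Matrix (Fin d) (Fin d) R) (v w : Fin d → R)
    (e : ∀ k, w k = ∑ l, A k l * v l) (l : Fin d) :
    A.det * v l = ∑ k, A.adjugate l k * w k := by
  have e2 := congrFun (congrArg A.adjugate.mulVec (show A.mulVec v = w from (funext e).symm)) l
  rw [Matrix.mulVec_mulVec, Matrix.adjugate_mul, Matrix.smul_mulVec, Matrix.one_mulVec] at e2
  exact e2

omit [Algebra ℂ κ] in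
theorem ge_adj {A : Matrix (Fin d) (Fin d) (HahnSeries ℝ κ)} (h : ∀ i j, Ge 0 (A i j))
    (l k : Fin d) : Ge 0 (A.adjugate l k) := by
  rw [Matrix.adjugate_apply]
  refine ge_det0 fun i j => ?_
  rw [Matrix.updateRow_apply]
  split_ifs
  · rw [Pi.single_apply]
    split_ifs
    exacts [ge_one, ge_zero 0]
  · exact h _ _

theorem ge_pderiv (ht : ∀ l, Ge 0 (t l)) (hJ : (Jx δ t).orderTop ≤ (a : WithTop ℝ))
    {p : MvPolynomial (Fin d) ℂ} (hp : Ge n (aeval t p)) (l : Fin d) :
    Ge (n - a) (aeval t (pderiv l p)) := by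
  refine ge_of_mul ?_ hJ
  rw [Jx, cramer (Matrix.of fun k l => thl 0 (δ k) (t l)) (fun l => aeval t (pderiv l p)) 
    (fun k => thl 0 (δ k) (aeval t p)) (fun k => da _ t p) l]
  exact Ge.sum fun k _ => Ge.zero_mul (ge_adj (fun _ _ => (ctr_thl _ _).ge (ht _)) _ _)
    ((ctr_thl _ _).ge hp)

section line

variable {R : Type} [CommRing R] [Algebra ℂ R] (t h : Fin d → R)

/-- the restriction to a line -/
def lin : MvPolynomial (Fin d) ℂ →ₐ[ℂ] Polynomial R :=
  aeval fun l => Polynomial.C (t l) + Polynomial.C (h l) * Polynomial.X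

theorem lin_eval (s : R) (q : MvPolynomial (Fin d) ℂ) :
    (lin t h q).eval s = aeval (fun l => t l + h l * s) q := by
  have := comp_aeval (R := ℂ) (fun l => Polynomial.C (t l) + Polynomial.C (h l) * Polynomial.X)
    ((Polynomial.aeval s : Polynomial R →ₐ[_] _).restrictScalars ℂ)
  simpa [lin] using DFunLike.congr_fun this q

theorem lin_zero (q : MvPolynomial (Fin d) ℂ) : (lin t h q).coeff 0 = aeval t q := by
  rw [Polynomial.coeff_zero_eq_eval_zero, lin_eval]
  simp

theorem lin_succ (q : MvPolynomial (Fin d) ℂ) (i : ℕ) : (lin t h q).coeff (i + 1) =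
    ∑ l, ((i + 1 : ℕ) : ℂ)⁻¹ • (h l * (lin t h (pderiv l q)).coeff i) := by
  have e := congrArg (·.coeff i) (da (Polynomial.derivative'.restrictScalars ℂ)
    (fun l => Polynomial.C (t l) + Polynomial.C (h l) * Polynomial.X) q)
  change (Polynomial.derivative (lin t h q)).coeff i = _ at e
  have e1 : ∀ l, Polynomial.derivative'.restrictScalars ℂ (Polynomial.C (t l) +
      Polynomial.C (h l) * Polynomial.X) = Polynomial.C (h l) := fun l => by
    change Polynomial.derivative _ = _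
    simp
  simp only [Polynomial.coeff_derivative, Polynomial.finsetSum_coeff, e1,
    Polynomial.coeff_C_mul] at e
  rw [← Finset.smul_sum, show ∑ l, h l * (lin t h (pderiv l q)).coeff i = _ from e.symm,
    ← Nat.cast_succ, mul_comm, ← nsmul_eq_mul, ← Nat.cast_smul_eq_nsmul ℂ, smul_smul,
    inv_mul_cancel₀ (Nat.cast_ne_zero.2 i.succ_ne_zero), one_smul]

theorem lin_one (q : MvPolynomial (Fin d) ℂ) : aeval (fun l => t l + h l) q - aeval t q =
    ∑ i ∈ Finset.range (lin t h q).natDegree, (lin t h q).coeff (i + 1) := by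
  have := lin_eval t h 1 q
  rw [Polynomial.eval_eq_sum_range, Finset.sum_range_succ', lin_zero] at this
  simpa using (eq_sub_of_add_eq this).symm

end line

theorem ge_smul (c : ℂ) {b : HahnSeries ℝ κ} (h : Ge n b) : Ge n (c • b) := by
  rw [Algebra.smul_def]
  exact (ge_c c).zero_mul h

/-- **a jet of high order determines the initial parts of all polynomials** -/
theorem jet (ht : ∀ l, Ge 0 (t l)) (hJ : (Jx δ t).orderTop ≤ (a : WithTop ℝ)) (hM : a ≤ M)
    (h : ∀ l, Ge M (t' l - t l)) {p : MvPolynomial (Fin d) ℂ} (hp : Ge n (aeval t p)) :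
    Ge (n + (M - a)) (aeval t' p - aeval t p) := by
  have key : ∀ (i : ℕ) (q : MvPolynomial (Fin d) ℂ) (n : ℝ), Ge n (aeval t q) →
      Ge (n + i * (M - a)) ((lin t (fun l => t' l - t l) q).coeff i) := fun i => by
    induction i with
    | zero =>
      intro q n hq
      rw [lin_zero]
      simpa using hq
    | succ i ih =>
      intro q n hq
      rw [lin_succ]
      refine Ge.sum fun l _ => ge_smul _
        (((h l).mul (ih _ _ (ge_pderiv ht hJ hq l))).mono (le_of_eq ?_))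
      push_cast
      ring
  have e := lin_one t (fun l => t' l - t l) p
  simp only [add_sub_cancel] at e
  rw [e]
  refine Ge.sum fun i _ => (key _ p n hp).mono ?_
  push_cast
  nlinarith [mul_nonneg (Nat.cast_nonneg (α := ℝ) i) (sub_nonneg.2 hM)]

end jet

section gr

variable {T : Type} (U : T → HahnSeries ℝ κ) (μ : ℝ)

/-- Laurent polynomials in `U` whose coefficients have a large order -/
def WW : Subring (T → HahnSeries ℝ κ) :=
  Subring.closure {Λ | ∃ (n : ℤ) (a : HahnSeries ℝ κ), Ge (μ * |(n : ℝ)|) a ∧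
    Λ = fun s => U s ^ n * a}

variable {U μ}

omit [Algebra ℂ κ] in
theorem ww_gen (n : ℤ) {a : HahnSeries ℝ κ} (h : Ge (μ * |(n : ℝ)|) a) :
    (fun s => U s ^ n * a) ∈ WW U μ := Subring.subset_closure ⟨n, a, h, rfl⟩

theorem ww_der {θ : Derivation ℂ (HahnSeries ℝ κ) (HahnSeries ℝ κ)} (hθ : Ctr θ)
    (hU : ∀ s, θ (U s) = 0) {Λ} (h : Λ ∈ WW U μ) : (fun s => θ (Λ s)) ∈ WW U μ := by
  induction h using Subring.closure_induction with
  | mem Λ h =>
    obtain ⟨n, a, h, rfl⟩ := h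
    simpa [Derivation.leibniz_zpow, hU] using ww_gen n (hθ.ge h)
  | zero => simp only [Pi.zero_apply, map_zero]; exact (WW U μ).zero_mem
  | one => simp only [Pi.one_apply, Derivation.map_one_eq_zero]; exact (WW U μ).zero_mem
  | add a b _ _ ha hb => simp only [Pi.add_apply, map_add]; exact (WW U μ).add_mem ha hb
  | neg a _ ha => simp only [Pi.neg_apply, map_neg]; exact (WW U μ).neg_mem ha
  | mul a b h1 h2 ha hb =>
    simp only [Pi.mul_apply, Derivation.leibniz, smul_eq_mul]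
    exact (WW U μ).add_mem ((WW U μ).mul_mem h1 hb) ((WW U μ).mul_mem h2 ha)

theorem ww_aeval {σ : Type} {x : σ → T → HahnSeries ℝ κ} (h : ∀ j, x j ∈ WW U μ)
    (p : MvPolynomial σ ℂ) : (fun s => aeval (fun j => x j s) p) ∈ WW U μ := by
  induction p using MvPolynomial.induction_on with
  | C a => simpa using ww_gen (U := U) (μ := μ) 0 (by simpa using ge_c a)
  | add p q hp hq => simp only [map_add]; exact (WW U μ).add_mem hp hq
  | mul_X p j hp => simp only [map_mul, aeval_X]; exact (WW U μ).mul_mem hp (h j)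

theorem ww_jx {d : ℕ} (δ : Fin d → Derivation ℂ κ κ) (hU : ∀ k s, thl 0 (δ k) (U s) = 0)
    {x : Fin d → T → HahnSeries ℝ κ} (h : ∀ l, x l ∈ WW U μ) :
    (fun s => Jx δ fun l => x l s) ∈ WW U μ := by
  have e : (fun s => Jx δ fun l => x l s) =
      (Matrix.of fun k l => fun s => thl 0 (δ k) (x l s)).det := _root_.funext fun s =>
    ((Pi.evalRingHom (fun _ : T => HahnSeries ℝ κ) s).map_det
      (Matrix.of fun k l => fun s => thl 0 (δ k) (x l s))).symm
  rw [e, Matrix.det_apply']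
  exact sum_mem fun p _ => mul_mem (intCast_mem _ _)
    (prod_mem fun i _ => ww_der (ctr_thl _ _) (hU _) (h _))

omit [Algebra ℂ κ] in
theorem ww_rep (hμ : 0 ≤ μ) (hU : ∀ s, U s ≠ 0) {Λ} (h : Λ ∈ WW U μ) :
    ∃ L : ℤ →₀ HahnSeries ℝ κ, (∀ n : ℤ, Ge (μ * |(n : ℝ)|) (L n)) ∧
      ∀ s, Λ s = L.sum fun n a => U s ^ n * a := by
  rw [WW, Subring.mem_closure_iff] at h
  induction h using AddSubgroup.closure_induction with
  | mem Λ h =>
    obtain ⟨n, a, h', rfl⟩ : ∃ (n : ℤ) (a : HahnSeries ℝ κ), Ge (μ * |(n : ℝ)|) a ∧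
        Λ = fun s => U s ^ n * a := by
      induction h using Submonoid.closure_induction with
      | mem Λ h => exact h
      | one => exact ⟨0, 1, by simpa using ge_one, funext fun s => by simp⟩
      | mul a b _ _ ha hb =>
        obtain ⟨n, a, h, rfl⟩ := ha
        obtain ⟨n', a', h', rfl⟩ := hb
        refine ⟨n + n', a * a', (h.mul h').mono ?_, funext fun s => ?_⟩
        · rw [← mul_add, Int.cast_add]
          exact mul_le_mul_of_nonneg_left (abs_add_le _ _) hμ
        · rw [zpow_add₀ (hU s), Pi.mul_apply, mul_mul_mul_comm]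
    refine ⟨Finsupp.single n a, fun m => ?_, fun s => by simp⟩
    rw [Finsupp.single_apply]
    split_ifs with e
    exacts [e ▸ h', ge_zero _]
  | zero => exact ⟨0, fun _ => ge_zero _, fun s => by simp⟩
  | add a b _ _ ha hb =>
    obtain ⟨L, h, e⟩ := ha
    obtain ⟨L', h', e'⟩ := hb
    exact ⟨L + L', fun n => (h n).add (h' n), fun s => by
      rw [Finsupp.sum_add_index' (by simp) (fun _ _ _ => mul_add _ _ _), Pi.add_apply, e, e']⟩
  | neg a _ ha =>
    obtain ⟨L, h, e⟩ := ha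
    exact ⟨-L, fun n => (h n).neg, fun s => by
      rw [Finsupp.sum_neg_index (by simp), Pi.neg_apply, e]
      simp⟩

/-- the parameter of the twist -/
def tu (κ : Type) [Field κ] [Algebra ℂ κ] (s : ℂˣ × ℝ) : HahnSeries ℝ κ :=
  HahnSeries.single s.2 (algebraMap ℂ κ s.1)

theorem tu_ne (s : ℂˣ × ℝ) : tu κ s ≠ 0 :=
  HahnSeries.single_ne_zero ((map_ne_zero _).2 s.1.ne_zero)

theorem tu_one : tu κ (1, 0) = 1 := by simp [tu]

theorem thl_tu (δ : Derivation ℂ κ κ) (s : ℂˣ × ℝ) : thl 0 δ (tu κ s) = 0 := by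
  rw [tu, thl_single]
  simp

/-- **a general twist does not raise the order much** -/
theorem gr {Λ} {c a : ℝ} (hμ : 0 < μ) (hc : 0 ≤ c) (h : Λ ∈ WW (tu κ) μ)
    (ha : (Λ (1, 0)).orderTop ≤ (a : WithTop ℝ)) :
    ∃ u, (Λ (u, c * μ)).orderTop ≤ ((1 + c) * a : ℝ) := by
  obtain ⟨L, hL, e⟩ := ww_rep hμ.le tu_ne h
  obtain ⟨n, hn, k⟩ : ∃ n ∈ L.support, (L n).orderTop ≤ (a : WithTop ℝ) := by
    by_contra k
    push Not at k
    rw [e] at ha
    simp only [tu_one, one_zpow, one_mul] at ha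
    exact not_lt.2 ha ((HahnSeries.addVal ℝ κ).map_lt_sum WithTop.coe_ne_top k)
  obtain ⟨g, hg, l⟩ := ex_le k
  let ch : ℤ → ℂˣ →* κ := fun m =>
    ((algebraMap ℂ κ).toMonoidHom.comp (Units.coeHom ℂ)).comp (zpowGroupHom m)
  have inj : Function.Injective ch := fun m m' q => by
    have q1 : (((Units.mk0 (2 : ℂ) two_ne_zero) ^ m : ℂˣ) : ℂ) =
        ((Units.mk0 (2 : ℂ) two_ne_zero) ^ m' : ℂˣ) :=
      (algebraMap ℂ κ).injective (DFunLike.congr_fun q _)
    have q2 := congrArg norm q1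
    simp only [Units.val_zpow_eq_zpow_val, Units.val_mk0, norm_zpow, Complex.norm_ofNat] at q2
    exact zpow_right_injective₀ two_pos (by norm_num) q2
  have li := linearIndependent_iff'.1 ((linearIndependent_monoidHom ℂˣ κ).comp ch inj) L.support
    fun m => (L m).coeff (g + n * (c * μ) - m * (c * μ))
  by_contra k1
  push Not at k1
  have l1 : μ * |(n : ℝ)| ≤ g := WithTop.coe_le_coe.1 (hg ▸ hL n)
  have l2 : g + n * (c * μ) ≤ (1 + c) * a := by
    have := le_abs_self (n : ℝ)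
    nlinarith [mul_le_mul_of_nonneg_left (l1.trans l) hc, mul_nonneg hc hμ.le]
  refine HahnSeries.coeff_orderTop_ne hg ?_
  have := li (funext fun u => ?_) n hn
  · simpa using this
  · have k2 := HahnSeries.coeff_eq_zero_of_lt_orderTop
      (lt_of_le_of_lt (WithTop.coe_le_coe.2 l2) (k1 u))
    rw [e, Finsupp.sum, HahnSeries.coeff_sum] at k2
    rw [Finset.sum_apply, Pi.zero_apply, ← k2]
    refine Finset.sum_congr rfl fun m _ => ?_
    rw [tu, zpow_single, HahnSeries.coeff_single_mul]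
    simp [ch, mul_comm]

end gr

end Vale.Agent.P283R.Tx
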