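import Vale.Agent.P283R.Be2.TwK
import Vale.Agent.P283R.Be2.Apy
import Vale.Agent.P283R.Be2.Om
import Vale.Agent.P283R.Tp.Hrt
import Vale.Agent.P287D.Cb.Row

/-!
# P283R, block BE: the place of the twisted arc from the core
-/

attribute [-instance] HahnSeries.powerSeriesAlgebra

open Vale.Agent.P285N.Brep (jac Fr)
open Vale.Agent.P287D Vale.Agent.P297Z

noncomputable section

namespace Vale.Agent.P283R.Tx

open Co (Ge thl)
open Om (om omc ch)

/-- **CLS**: the order of a semi-invariant function along the twisted arc -/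
def CLS : Prop := ∀ (d N : ℕ) (a c η : ℝ) (B : ℕ), 0 < η → ∃ (n₀ : ℝ) (k₀ : ℕ), ∀ (n : ℝ) (k : ℕ),
  n₀ ≤ n → k₀ ≤ k → ∀ (F κ : Type) [Field F] [Algebra ℂ F] [Field κ] [Algebra ℂ κ]
    (A : Subgroup (F ≃ₐ[ℂ] F)) (S : Subalgebra ℂ F) (p : Ideal S) (z : Fin N → F)
    (x : F →ₐ[ℂ] HahnSeries ℝ κ) (r : ℕ) (χ : Fin N → ℤ) (J : Fin d → Fin N)
    (ψ : F →ₐ[ℂ] HahnSeries ℝ κ), Pt d A S p z → Arc S p x → (∀ f, Zs (x f)) →
    Dua c η k A z x r χ → Ex n S p z x r χ J ψ → ∀ f ∈ Lo S p, ∀ m : Fin N → ℤ,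
    (∀ j, |m j| ≤ B) → Fix A (f / ∏ j, z j ^ m j) → ∀ v : ℝ, (x f).orderTop = v → v ≤ a →
    Ge (v + ∑ j, (χ j / r : ℝ) * m j) (ψ f)

namespace Tl

variable {F κ : Type} [Field F] [Algebra ℂ F] [Field κ] [Algebra ℂ κ] {d N : ℕ}
  {A : Subgroup (F ≃ₐ[ℂ] F)} {S : Subalgebra ℂ F} {p : Ideal S} {z : Fin N → F}
  {y : Fin d → F} {D : Fin d → Derivation ℂ F F} {x ψ : F →ₐ[ℂ] HahnSeries ℝ κ}

/-- the chain rule for arcs -/
theorem jx_chain (h : Fr y D) (δ : Fin d → Derivation ℂ κ κ) (x : F →ₐ[ℂ] HahnSeries ℝ κ)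
    (u : Fin d → F) : (Jx δ fun l => x (u l)) = (Jx δ fun l => x (y l)) * x (jac D u) := by
  rw [Jx, Jx, jac, AlgHom.map_det, ← Matrix.det_mul]
  congr 1
  refine Matrix.ext fun i j => ?_
  rw [Matrix.mul_apply]
  exact Cb.expand (φ := (x : F →+* HahnSeries ℝ κ)) (d := fun a => thl 0 (δ i) (x a))
    ⟨fun a b => by rw [map_add, map_add], fun a b => by
      rw [map_mul, Derivation.leibniz, smul_eq_mul, smul_eq_mul]; rfl⟩ (fun c => by simp) h (u j)

theorem jx_tw (δ : Fin d → Derivation ℂ κ κ) (ζ : Fin d → ℝ) (u : Fin d → HahnSeries ℝ κ) :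
    (Jx δ fun l => HahnSeries.single (ζ l) 1 * u l) =
      HahnSeries.single (∑ l, ζ l) 1 * Jx δ u := by
  have e : ∏ l, HahnSeries.single (ζ l) (1 : κ) = HahnSeries.single (∑ l, ζ l) 1 := by
    classical
    induction (Finset.univ : Finset (Fin d)) using Finset.induction_on with
    | empty => simp
    | insert i s hi ih =>
      rw [Finset.prod_insert hi, Finset.sum_insert hi, ih, HahnSeries.single_mul_single, mul_one]
  rw [Jx, Jx, ← e, ← Matrix.det_mul_row]
  congr 1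
  refine Matrix.ext fun i j => ?_
  simp [Derivation.leibniz, Co.thl_single]

theorem jx_ge {δ : Fin d → Derivation ℂ κ κ} {u : Fin d → HahnSeries ℝ κ} (h : ∀ l, Ge 0 (u l)) :
    Ge 0 (Jx δ u) := by
  have := Co.ge_det (M := Matrix.of fun k l => thl 0 (δ k) (u l)) (w := fun _ => 0)
    fun k l => (Co.ctr_thl _ _).ge (h l)
  simpa [Jx] using this

theorem der_fix (h : Fr y D) {σ : F ≃ₐ[ℂ] F} (hσ : ∀ i, σ (y i) = y i) (i : Fin d) (a : F) :
    D i (σ a) = σ (D i a) := by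
  have := Cb.expand (φ := (σ : F →+* F)) (d := fun a => D i (σ a))
    ⟨fun a b => by rw [map_add, map_add], fun a b => by
      rw [map_mul, Derivation.leibniz, smul_eq_mul, smul_eq_mul]; rfl⟩ (fun c => by simp) h a
  simpa [hσ, h.dual] using this

theorem fix_jac (h : Fr y D) (hy : ∀ i, Fix A (y i)) {u : Fin d → F} (hu : ∀ i, Eig A (u i)) :
    Fix A (jac D u / ∏ i, u i) := fun σ hσ => by
  choose c hc using fun i => hu i σ hσ
  have c0 : ∀ i, u i ≠ 0 → c i ≠ 0 := fun i a e => a (by simpa [e] using hc i)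
  by_cases u0 : ∏ i, u i = 0
  · simp [u0]
  have e : σ (jac D u) = (∏ i, algebraMap ℂ F (c i)) * jac D u := by
    rw [jac, AlgEquiv.map_det, ← Matrix.det_mul_row]
    congr 1
    refine Matrix.ext fun i j => ?_
    simp [← der_fix h (fun i => hy i σ hσ), hc, Algebra.smul_def]
  have p0 : (∏ i, algebraMap ℂ F (c i)) ≠ 0 := Finset.prod_ne_zero_iff.2 fun i _ =>
    (map_ne_zero _).2 (c0 i (Finset.prod_ne_zero_iff.1 u0 i (Finset.mem_univ _)))
  rw [map_div₀, e, map_prod]
  simp only [hc, Algebra.smul_def, Finset.prod_mul_distrib]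
  rw [mul_div_mul_left _ _ p0]

theorem arc_comp (h : Arc S p ψ) {σ : F ≃ₐ[ℂ] F} (hσ : Inr S p σ) (s : ℝ) :
    Arc S p ((omc s).comp (ψ.comp (σ : F →ₐ[ℂ] F))) := by
  refine ⟨fun a ha => ?_, fun a ha => ?_⟩
  · obtain ⟨b, -, e⟩ := hσ ⟨a, ha⟩
    have : σ a ∈ S := by rw [sub_eq_iff_eq_add.1 e]; exact add_mem b.2 ha
    exact Om.ge_om.2 (h.ge _ this)
  · obtain ⟨b, hb, e⟩ := hσ a
    change 0 < (om s (ψ (σ a))).orderTop
    rw [Om.orderTop_om, sub_eq_iff_eq_add.1 e]
    exact h.pos (b + a) (add_mem hb ha)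

theorem ex_comp {n : ℝ} {r : ℕ} {χ : Fin N → ℤ} {J : Fin d → Fin N}
    (h : Ex n S p z x r χ J ψ) {σ : F ≃ₐ[ℂ] F} (hσ : Inr S p σ) {s : ℝ}
    (hz : ∀ j, σ (z j) = (ch s (χ j / r))⁻¹ • z j) (hx : ∀ j, om s (x (z j)) = x (z j)) :
    Ex n S p z x r χ J ((omc s).comp (ψ.comp (σ : F →ₐ[ℂ] F))) := by
  have e : ∀ j, (omc s).comp (ψ.comp (σ : F →ₐ[ℂ] F)) (z j) -
      HahnSeries.single (χ j / r : ℝ) 1 * x (z j) =
      (ch s (χ j / r))⁻¹ • om s (ψ (z j) - HahnSeries.single (χ j / r : ℝ) 1 * x (z j)) := by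
    intro j
    change om s (ψ (σ (z j))) - _ = _
    rw [hz, map_smul, Om.om_smul, map_sub, map_mul, Om.om_single, hx, smul_sub, smul_mul_assoc,
      smul_smul, inv_mul_cancel₀ (Om.ch_ne _ _), one_smul]
  refine ⟨arc_comp h.arc hσ s, fun i => ?_, fun j => ?_⟩
  · rw [← sub_eq_zero, e, h.exa, sub_self, map_zero, smul_zero]
  · rw [e, Algebra.smul_def]
    exact Ge.zero_mul (Ay.ge_c _) (Om.ge_om.2 (h.near j))

omit [Algebra ℂ κ] in
theorem fin_ord {a : HahnSeries ℝ κ} (h : a ≠ 0) : ∃ v : ℝ, a.orderTop = v :=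
  ⟨a.order, (HahnSeries.order_eq_orderTop_of_ne_zero h).symm⟩

omit [Algebra ℂ κ] in
theorem ord_tw {a : HahnSeries ℝ κ} {v : ℝ} (h : a.orderTop = v) (s : ℝ) :
    (HahnSeries.single s (1 : κ) * a).orderTop = (v + s : ℝ) := by
  rw [HahnSeries.orderTop_mul, HahnSeries.orderTop_single one_ne_zero, h, add_comm,
    WithTop.coe_add]

omit [Algebra ℂ F] in
theorem prod_cnt (hz : ∀ j, z j ≠ 0) (J : Fin d → Fin N) :
    ∏ j, z j ^ (∑ i, if J i = j then (1 : ℤ) else 0) = ∏ i, z (J i) := by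
  have : ∀ j, z j ^ (∑ i, if J i = j then (1 : ℤ) else 0) = ∏ i, if J i = j then z j else 1 := by
    intro j
    classical
    induction (Finset.univ : Finset (Fin d)) using Finset.induction_on with
    | empty => simp
    | insert i s hi ih =>
      rw [Finset.prod_insert hi, Finset.sum_insert hi, zpow_add₀ (hz j), ih]
      split_ifs <;> simp
  simp only [this]
  rw [Finset.prod_comm]
  simp

end Tl

open Tl

/-- **TW** from the core -/
theorem tw_of (hC : TWC) (hS : CLS) : TW := by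
  intro d N q a c η κv hd hq hη
  obtain ⟨a₂, hC⟩ := hC d N a c η hd hη
  obtain ⟨n₀, k₀, hS⟩ := hS d N (a + q * a₂) c η (q * d + ∑ j, (κv j).natAbs) hη
  obtain ⟨n, hn, k₁, hC⟩ := hC (max n₀ (a + |c| + 1))
  refine ⟨max k₀ k₁, fun F κ _ _ _ _ A S p z y D h t w Φ δ x a' E r χ L T U ⟨g, hg, hgz⟩ => ?_⟩
  have zs := Om.zs_all L.prj T.zt T.zw
  have U' : Dua c η k₁ A z x r χ := ⟨U.pos, U.bd, U.ge, fun m hm => U.low m fun j =>
    (hm j).trans (by exact_mod_cast le_max_right _ _)⟩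
  obtain ⟨J, ψ, hJ, X, uq⟩ := hC F κ A S p z t w Φ δ x r χ L.pt L.prj T.arc zs
    (T.jac.trans (WithTop.coe_le_coe.2 T.le)) T.der U'
  have r0 : (0 : ℝ) < r := by exact_mod_cast U.pos
  have q0 : (0 : ℝ) < q := by exact_mod_cast hq
  have e1 : ∀ f, Fix A f → om 1 (ψ f) = ψ f := fun f hf => by
    have := uq _ (ex_comp X (L.pt.inr _ (A.inv_mem hg)) (s := 1) (fun j => by
      have := congrArg (fun b => (ch 1 (χ j / r))⁻¹ • g⁻¹ b) (hgz j)
      simp only [map_smul, smul_smul] at this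
      rw [show Complex.exp _ = ch 1 (χ j / r) by simp [ch], inv_mul_cancel₀ (Om.ch_ne _ _),
        one_smul] at this
      rw [← this]
      simp) fun j => Om.zs_iff.1 (zs _))
    have := DFunLike.congr_fun this f
    rwa [show (omc 1).comp (ψ.comp ((g⁻¹ : F ≃ₐ[ℂ] F) : F →ₐ[ℂ] F)) f = om 1 (ψ (g⁻¹ f)) from rfl,
      hf _ (A.inv_mem hg)] at this
  have e2 : ∀ f, om r (ψ f) = ψ f := fun f => by
    have := uq _ (ex_comp X (L.pt.inr _ A.one_mem) (s := r) (fun j => by
      rw [Om.ch_eq_one.2 ⟨χ j, by field_simp⟩]; simp) fun j => by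
        simpa using Om.Zs.om_int (zs (z j)) r)
    exact DFunLike.congr_fun this f
  have jz0 : (Jx δ fun i => x (z (J i))) ≠ 0 := fun e => by simp [e] at hJ
  obtain ⟨aJ, haJ⟩ := fin_ord jz0
  have jψ : (Jx δ fun i => ψ (z (J i))).orderTop = (aJ + ∑ i, (χ (J i) / r : ℝ) : ℝ) := by
    simp only [X.exa]
    rw [jx_tw, ord_tw haJ]
  obtain ⟨P, e, hP, e0, ho, hk⟩ := apx L.pt.aff.ff L.pt.res X.arc (δ := 1 / r) (by positivity)
    (fun f f0 => by
      obtain ⟨v, hv⟩ := fin_ord ((map_ne_zero ψ).2 f0)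
      obtain ⟨m, hm⟩ := Om.int_of_eq hv (e2 f)
      exact ⟨m, by rw [hv, ← hm]; congr 1; field_simp⟩)
    (by
      obtain ⟨s, hs, e⟩ := L.pt.mem (J ⟨0, hd⟩)
      exact ⟨s, hs, fun c => L.pt.ne (J ⟨0, hd⟩) (by simp [← e, c])⟩) δ (fun i => z (J i)) jψ.le
  have e0' : (0 : ℝ) < e * (1 / r) := by positivity
  refine ⟨P, e * (1 / r), hP, e0', ⟨e, by field_simp⟩, fun f f0 hf => ?_, ?_, fun j v hv hva => ?_⟩
  · simpa using Om.int_of_eq (ho f f0) (e1 f hf)
  · have c1 := jx_chain L.fr δ x fun i => z (J i)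
    have c2 := jx_chain L.fr δ x t
    have j0 : jac D (fun i => z (J i)) ≠ 0 := fun e => jz0 (by rw [c1, e, map_zero, mul_zero])
    set ρ := jac D (fun i => z (J i)) ^ q * h with hρ
    have ρ0 : ρ ≠ 0 := mul_ne_zero (pow_ne_zero _ j0) L.h0
    have el : ∀ R : Pl F, ld y q h R = 1 + kap (fun i => z (J i)) R - (R.ord ρ : ℝ) / q :=
      fun R => by
        rw [ld, Cb.kap_chg L.fr j0, Pi.add_apply, dv_apply, hρ,
          Pl.ord_mul _ (pow_ne_zero _ j0) L.h0, Pl.ord_pow]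
        push_cast
        field_simp
        ring
    have lo : ρ ∈ Lo S p := Hr.lo_of L.pt.aff L.pt.nor L.pt.pri fun R hR => by
      have b := L.bd R hR
      obtain ⟨q', -, c, -⟩ := hR
      have k : 0 ≤ kap (fun i => z (J i)) R := Cb.kap_nonneg L.pt.aff.ff fun l => by
        obtain ⟨s, -, hs⟩ := L.pt.mem (J l)
        exact hs ▸ (c s).1
      rw [el R] at b
      have : (0 : ℝ) ≤ (R.ord ρ : ℝ) / q := by linarith
      have := (div_nonneg_iff.1 this).elim (fun a => a.1) fun a => absurd a.2 (not_le.2 q0)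
      exact (Pl.ord_nonneg_iff R.toPlace ρ0).1 (by exact_mod_cast this)
    obtain ⟨aT, haT⟩ := fin_ord (a := Jx δ fun l => x (t l)) fun e => by
      have := T.jac
      simp [e] at this
    obtain ⟨vf, hvf⟩ := fin_ord (a := x (jac D t ^ q * h)) fun e => by
      have := T.del
      simp [e] at this
    obtain ⟨v, hv⟩ := fin_ord ((map_ne_zero x).2 ρ0)
    have rel : v + q * aT = vf + q * aJ := by
      have : x ρ * (Jx δ fun l => x (t l)) ^ q =
          x (jac D t ^ q * h) * (Jx δ fun i => x (z (J i))) ^ q := by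
        rw [c1, c2, hρ, map_mul, map_mul, map_pow, map_pow]
        ring
      have := congrArg HahnSeries.orderTop this
      rw [HahnSeries.orderTop_mul, HahnSeries.orderTop_mul, Co.orderTop_pow, Co.orderTop_pow, hv,
        haT, hvf, haJ] at this
      have : v + q • aT = vf + q • aJ := by exact_mod_cast this
      simpa using this
    have t0 : 0 ≤ aT := by
      have := jx_ge (δ := δ) (u := fun l => x (t l)) fun l => by
        obtain ⟨s, -, hs⟩ := L.prj.mem l
        exact hs ▸ T.arc.ge _ s.2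
      rw [Ge, haT] at this
      exact_mod_cast this
    have t1 : aT ≤ a' := by have := T.jac; rw [haT] at this; exact_mod_cast this
    have f1 : vf ≤ a := by have := T.del; rw [hvf] at this; exact_mod_cast this
    have f2 : E ≤ vf := by have := T.ge; rw [Ge, hvf] at this; exact_mod_cast this
    have j1 : aJ ≤ a₂ := by rw [haJ] at hJ; exact_mod_cast hJ
    have key := hS n (max k₀ k₁) ((le_max_left _ _).trans hn) (le_max_left _ _) F κ A S p z x r χ
      J ψ L.pt T.arc zs U X ρ lo (fun j => q * (∑ i, if J i = j then 1 else 0) - κv j)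
      (fun j => by
        have a1 : (∑ i, if J i = j then (1 : ℤ) else 0) ≤ d :=
          (Finset.sum_le_card_nsmul _ _ 1 fun i _ => by split_ifs <;> simp).trans (by simp)
        have a2 : (0 : ℤ) ≤ ∑ i, if J i = j then (1 : ℤ) else 0 :=
          Finset.sum_nonneg fun i _ => by split_ifs <;> simp
        have a3 : |κv j| ≤ ∑ j, |κv j| :=
          Finset.single_le_sum (f := fun j => |κv j|) (fun _ _ => abs_nonneg _) (Finset.mem_univ j)
        have a4 := mul_le_mul_of_nonneg_left a1 (Int.natCast_nonneg q)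
        have a5 := mul_nonneg (Int.natCast_nonneg q) a2
        have := le_abs_self (κv j)
        have := neg_abs_le (κv j)
        push_cast
        exact abs_le.2 ⟨by nlinarith, by linarith⟩)
      (fun σ hσ => by
        have : ρ / ∏ j, z j ^ ((q : ℤ) * (∑ i, if J i = j then 1 else 0) - κv j) =
            (jac D (fun i => z (J i)) / ∏ i, z (J i)) ^ q * (h * ∏ j, z j ^ κv j) := by
          rw [← prod_cnt L.pt.ne J, hρ]
          simp only [zpow_sub₀ (L.pt.ne _), Finset.prod_div_distrib, mul_comm (q : ℤ), zpow_mul,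
            zpow_natCast, Finset.prod_pow, div_pow]
          rw [div_div_eq_mul_div]
          ring
        rw [this, map_mul, map_pow, fix_jac L.fr L.fy (fun i => L.pt.eig _) σ hσ, L.fh σ hσ])
      v hv (by nlinarith)
    rw [Ge, ho ρ ρ0, WithTop.coe_le_coe] at key
    have s : ∑ j, (χ j / r : ℝ) * ((q * (∑ i, if J i = j then 1 else 0) - κv j : ℤ) : ℝ) =
        q * ∑ i, (χ (J i) / r : ℝ) - ∑ j, (χ j / r : ℝ) * κv j := by
      push_cast
      simp only [mul_sub, Finset.sum_sub_distrib, Finset.mul_sum]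
      rw [Finset.sum_comm]
      simp [mul_comm]
    rw [s] at key
    rw [el P, mul_sub, ← mul_div_assoc _ (P.ord ρ : ℝ)]
    have k2 := div_le_div_of_nonneg_right key q0.le
    have k3 : (v + (q * ∑ i, (χ (J i) / r : ℝ) - ∑ j, (χ j / r : ℝ) * κv j)) / q =
        vf / q + aJ - aT + ∑ i, (χ (J i) / r : ℝ) - (∑ j, (χ j / r : ℝ) * κv j) / q := by
      field_simp
      linarith
    have k4 := div_le_div_of_nonneg_right f2 q0.le
    linarith
  · have o := ord_tw hv (χ j / r)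
    have lt : (HahnSeries.single (χ j / r : ℝ) (1 : κ) * x (z j)).orderTop <
        (ψ (z j) - HahnSeries.single (χ j / r : ℝ) 1 * x (z j)).orderTop := by
      refine lt_of_lt_of_le ?_ (X.near j)
      rw [o, WithTop.coe_lt_coe]
      have := (le_max_right _ _).trans hn
      have := (le_abs_self _).trans ((U.bd j).trans (le_abs_self c))
      linarith
    have := HahnSeries.orderTop_add_eq_left lt
    rw [add_sub_cancel, o, ho _ (L.pt.ne j), WithTop.coe_inj] at this
    exact this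

end Vale.Agent.P283R.Tx
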