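import Vale.Agent.P283R.Be2.TwP
import Vale.Agent.P283R.Be2.Om
import Vale.Agent.P283R.Be2.Apy

/-!
# P283R, block BE: the place of the twisted arc from the exact twist
-/

attribute [-instance] HahnSeries.powerSeriesAlgebra

open Vale.Agent.P285N.Brep (jac Fr)
open Vale.Agent.P287D Finset

noncomputable section

namespace Vale.Agent.P283R.Tx

open Co (Ge thl)

variable {F κ : Type} [Field F] [Algebra ℂ F] [Field κ] [Algebra ℂ κ] {d N : ℕ}
  {A : Subgroup (F ≃ₐ[ℂ] F)} {S : Subalgebra ℂ F} {p : Ideal S} {z : Fin N → F}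

namespace Pq

theorem chain {y : Fin d → F} {D : Fin d → Derivation ℂ F F} (fr : Fr y D)
    (δ : Fin d → Derivation ℂ κ κ) (x : F →ₐ[ℂ] HahnSeries ℝ κ) (w : Fin d → F) :
    (Jx δ fun l => x (w l)) = (Jx δ fun l => x (y l)) * x (jac D w) := by
  rw [Jx, Jx, jac, AlgHom.map_det, ← Matrix.det_mul]
  congr 1
  ext1 k l
  exact Cb.expand (φ := (x : F →+* HahnSeries ℝ κ)) (d := fun a => thl 0 (δ k) (x a))
    ⟨fun a b => by rw [map_add, map_add], fun a b => by
      rw [map_mul, Derivation.leibniz, smul_eq_mul, smul_eq_mul]; rfl⟩ (fun c => by simp) fr (w l)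

theorem jx_tw (δ : Fin d → Derivation ℂ κ κ) (s : Fin d → ℝ) (u : Fin d → HahnSeries ℝ κ) :
    (Jx δ fun l => HahnSeries.single (s l) 1 * u l) = HahnSeries.single (∑ l, s l) 1 * Jx δ u := by
  rw [← Btw.prod_single, Jx, Jx, ← Matrix.det_mul_row]
  congr 1
  ext1 k l
  simp [Derivation.leibniz, Co.thl_single]

omit [Algebra ℂ κ] in
theorem ex_ord {a : HahnSeries ℝ κ} (h : a ≠ 0) : ∃ r : ℝ, a.orderTop = r :=
  (WithTop.ne_top_iff_exists.1 (HahnSeries.orderTop_ne_top.2 h)).imp fun _ => Eq.symm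

theorem zsum {K ι : Type} [Field K] {a : K} (h : a ≠ 0) (s : Finset ι) (m : ι → ℤ) :
    a ^ ∑ i ∈ s, m i = ∏ i ∈ s, a ^ m i := by
  classical
  induction s using Finset.induction_on with
  | empty => simp
  | insert i s hi ih => rw [sum_insert hi, prod_insert hi, zpow_add₀ h, ih]

variable {x ψ : F →ₐ[ℂ] HahnSeries ℝ κ} {n : ℝ} {r : ℕ} {χ : Fin N → ℤ} {J : Fin d → Fin N}

/-- the conjugates of an exact twist are exact twists -/
theorem conj (pt : Pt d A S p z) (zs : ∀ f, Zs (x f)) (ex : Ex n S p z x r χ J ψ) (s : ℤ)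
    {σ : F ≃ₐ[ℂ] F} (hσ : σ ∈ A) (h : ∀ j, σ (z j) = Om.ch (-s : ℤ) (χ j / r) • z j) :
    Ex n S p z x r χ J ((Om.omc s).comp (ψ.comp σ)) := by
  have k : ∀ j, Om.om s (Om.ch (-s : ℤ) (χ j / r) • (HahnSeries.single (χ j / r : ℝ) 1 * x (z j))) =
      HahnSeries.single (χ j / r : ℝ) 1 * x (z j) := fun j => by
    rw [Om.om_smul, map_mul, Om.om_single, Om.Zs.om_int (zs _), smul_mul_assoc, smul_smul,
      ← Om.ch_add', Int.cast_neg, neg_add_cancel, Om.ch_zero', one_smul]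
  refine ⟨⟨fun a ha => Om.ge_om.2 (ex.arc.ge _ (Pc.stab pt σ hσ a ha)), fun a ha => ?_⟩,
    fun i => ?_, fun j => ?_⟩
  · obtain ⟨b, hb, e⟩ := pt.inr σ hσ a
    have := ex.arc.pos _ (p.add_mem hb ha)
    rw [AddMemClass.coe_add, ← sub_eq_iff_eq_add.1 e] at this
    exact this.trans_eq (Om.orderTop_om s (ψ (σ a))).symm
  · show Om.om s (ψ (σ _)) = _
    rw [h, map_smul, ex.exa, k]
  · show Ge n (Om.om s (ψ (σ _)) - _)
    rw [h, map_smul, ← k j, ← map_sub, ← smul_sub]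
    exact Om.ge_om.2 (Btw.ge_smul (ex.near j) _)

end Pq

open Pq

theorem tw73 (twc : TWC) : TW := by
  intro d N q a c η κv hd hq hη
  obtain ⟨a₂, h2⟩ := twc d N a c η hd hη
  obtain ⟨n₀, k₀, hc⟩ := cls N (|a| + q * |a₂|) c (q * d + ∑ j, |(κv j : ℝ)|) hη
  obtain ⟨n, hn, k₁, h3⟩ := h2 n₀
  refine ⟨max k₀ k₁, fun F κ _ _ _ _ A S p z y D h t w Φ δ x a' E r χ L T U ⟨g, hg, eg⟩ => ?_⟩
  have zs := Om.zs_all L.prj T.zt T.zw
  obtain ⟨J, ψ, hJ, ex, uq⟩ := h3 F κ A S p z t w Φ δ x r χ L.pt L.prj T.arc zs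
    (T.jac.trans (WithTop.coe_le_coe.2 T.le)) T.der ⟨U.pos, U.bd, U.ge, fun m hm =>
      U.low m fun j => (hm j).trans (by exact_mod_cast le_max_right _ _)⟩
  replace hc := hc n hn _ (le_max_left k₀ k₁) F κ d A S p z x ψ r χ J L.pt T.arc zs U ex
  have r0 : (0 : ℝ) < r := by exact_mod_cast U.pos
  have q0 : (0 : ℝ) < q := by exact_mod_cast hq
  have q1 : (1 : ℝ) ≤ q * d := by exact_mod_cast Nat.mul_pos hq hd
  have k0 : 0 ≤ ∑ j, |(κv j : ℝ)| := sum_nonneg fun j _ => abs_nonneg _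
  have e1 := uq _ (conj L.pt zs ex (-1) hg fun j => by rw [eg]; simp [Om.ch])
  have e2 := uq _ (conj L.pt zs ex r A.one_mem fun j => by
    rw [Om.ch_eq_one.2 ⟨-χ j, by push_cast; field_simp⟩, one_smul]; rfl)
  have lo : ∀ j, z j ∈ Lo S p := fun j => by
    obtain ⟨s, -, e⟩ := L.pt.mem j
    exact ⟨s, 1, (Ideal.ne_top_iff_one _).1 L.pt.pri.ne_top, by simp [e]⟩
  have c1 := chain L.fr δ x t
  have c2 := chain L.fr δ x fun i => z (J i)
  have n1 : (Jx δ fun l => x (t l)) ≠ 0 := fun e => by simpa [e] using T.jac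
  have n2 : (Jx δ fun i => x (z (J i))) ≠ 0 := fun e => by simp [e] at hJ
  obtain ⟨u, hu⟩ := ex_ord (left_ne_zero_of_mul (c1 ▸ n1))
  obtain ⟨jt, ht⟩ := ex_ord (right_ne_zero_of_mul (c1 ▸ n1))
  obtain ⟨jz, hz⟩ := ex_ord (right_ne_zero_of_mul (c2 ▸ n2))
  obtain ⟨oh, hh⟩ := ex_ord ((map_ne_zero x).2 L.h0)
  have j0 : (jac D fun i => z (J i)) ≠ 0 := (map_ne_zero x).1 (right_ne_zero_of_mul (c2 ▸ n2))
  have o1 : (Jx δ fun l => x (t l)).orderTop = (u + jt : ℝ) := by
    rw [c1, HahnSeries.orderTop_mul, hu, ht, WithTop.coe_add]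
  have o2 : (Jx δ fun i => x (z (J i))).orderTop = (u + jz : ℝ) := by
    rw [c2, HahnSeries.orderTop_mul, hu, hz, WithTop.coe_add]
  have o3 : ∀ {b : F} {v : ℝ}, (x b).orderTop = v → (x (b ^ q * h)).orderTop = (q * v + oh : ℝ) :=
    fun hb => by
      rw [map_mul, map_pow, HahnSeries.orderTop_mul, Co.orderTop_pow, hb, hh, ← WithTop.coe_nsmul,
        nsmul_eq_mul, WithTop.coe_add]
  have i1 : u + jt ≤ a' := WithTop.coe_le_coe.1 (o1 ▸ T.jac)
  have i2 : u + jz ≤ a₂ := WithTop.coe_le_coe.1 (o2 ▸ hJ)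
  have i3 : E ≤ q * jt + oh := WithTop.coe_le_coe.1 (o3 ht ▸ T.ge)
  have i4 : q * jt + oh ≤ a := WithTop.coe_le_coe.1 (o3 ht ▸ T.del)
  have i5 : 0 ≤ u + jt := by
    have := Co.ge_det (M := (Matrix.of fun k l => thl 0 (δ k) (x (t l)))) (w := fun _ => 0)
      fun k l => (Co.ctr_thl _ _).ge (by
        obtain ⟨s, -, e⟩ := L.prj.mem l
        exact T.arc.ge _ (e ▸ s.2))
    rw [sum_const_zero] at this
    exact WithTop.coe_le_coe.1 (o1 ▸ this)
  obtain ⟨P, e, hP, e0, h4, h5⟩ := apx L.pt.aff.ff L.pt.res ex.arc (inv_pos.2 r0) (fun f f0 => by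
      obtain ⟨v, hv⟩ := ex_ord ((map_ne_zero ψ).2 f0)
      obtain ⟨m, hm⟩ := Om.int_of_eq hv (DFunLike.congr_fun e2 f)
      refine ⟨m, ?_⟩
      rw [hv, ← hm]
      push_cast
      congr 1
      field_simp) (by
      obtain ⟨s, hs, e⟩ := L.pt.mem (J ⟨0, hd⟩)
      exact ⟨s, hs, fun k => L.pt.ne _ (by rw [← e, k]; rfl)⟩) δ (fun i => z (J i))
    (a := ∑ i, (χ (J i) / r : ℝ) + (u + jz)) (by
      simp only [ex.exa]
      rw [jx_tw, HahnSeries.orderTop_mul, HahnSeries.orderTop_single one_ne_zero, o2,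
        ← WithTop.coe_add])
  refine ⟨P, e * (r : ℝ)⁻¹, hP, by positivity, ⟨e, by field_simp⟩, fun f f0 ff => ?_, ?_,
    fun j v hv ha => ?_⟩
  · have := DFunLike.congr_fun e1 f
    change Om.om _ (ψ (g f)) = _ at this
    rw [ff g hg] at this
    obtain ⟨m, hm⟩ := Om.int_of_eq (h4 f f0) this
    exact ⟨-m, by push_cast at hm ⊢; linarith⟩
  · have v0 : ∏ i, z (J i) ≠ 0 := prod_ne_zero_iff.2 fun i _ => L.pt.ne _
    have v1 : ∏ j, z j ^ κv j ≠ 0 := prod_ne_zero_iff.2 fun j _ => zpow_ne_zero _ (L.pt.ne j)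
    have h6 := hc _ (Bkb.reg L.pt L.fr hq L.h0 L.bd (fun i => lo (J i)) j0)
      (fun j => (∑ i, if J i = j then (q : ℤ) else 0) - κv j) (fun j => by
        push_cast
        refine (abs_sub _ _).trans (add_le_add ((abs_sum_le_sum_abs _ _).trans ?_)
          (single_le_sum (f := fun j => |(κv j : ℝ)|) (fun _ _ => abs_nonneg _) (mem_univ j)))
        calc _ ≤ ∑ _i : Fin d, (q : ℝ) := sum_le_sum fun i _ => by split_ifs <;> simp
          _ = _ := by simp [mul_comm]) (fun σ hσ => by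
        have k1 : ∏ j, z j ^ ((∑ i, if J i = j then (q : ℤ) else 0) - κv j) =
            (∏ i, z (J i)) ^ q / ∏ j, z j ^ κv j := by
          simp only [zpow_sub₀ (L.pt.ne _), prod_div_distrib, ← prod_pow]
          congr 1
          calc _ = ∏ j, ∏ i, z j ^ (if J i = j then (q : ℤ) else 0) :=
                prod_congr rfl fun j _ => zsum (L.pt.ne j) _ _
            _ = _ := by
                rw [prod_comm]
                exact prod_congr rfl fun i _ => by simp
        have k2 : (jac D fun i => z (J i)) ^ q * h / ((∏ i, z (J i)) ^ q / ∏ j, z j ^ κv j) =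
            ((jac D fun i => z (J i)) / ∏ i, z (J i)) ^ q * (h * ∏ j, z j ^ κv j) := by
          rw [div_pow]
          field_simp
        choose b hb using fun j => L.pt.eig j σ hσ
        have b0 : ∀ j, b j ≠ 0 := fun j k =>
          L.pt.ne j (σ.injective (by rw [hb, k, zero_smul, map_zero]))
        rw [k1, k2, map_mul, L.fh σ hσ, map_pow, map_div₀,
          Bkb.fix_jac L.fr L.fy hσ fun i => hb (J i), map_prod]
        simp only [hb, Algebra.smul_def, prod_mul_distrib, ← map_prod]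
        rw [mul_div_mul_left _ _ ((map_ne_zero _).2 (prod_ne_zero_iff.2 fun i _ => b0 _))])
      _ (o3 hz) (by
        have := mul_le_mul_of_nonneg_left ((le_add_of_nonneg_right i5 :
          u + jz - (u + jt) ≤ _).trans_eq (sub_add_cancel _ _) |>.trans (i2.trans (le_abs_self _)))
          q0.le
        have := le_abs_self a
        linarith)
    rw [h4 _ (mul_ne_zero (pow_ne_zero _ j0) L.h0), WithTop.coe_inj,
      P297Z.Pl.ord_mul _ (pow_ne_zero _ j0) L.h0, P297Z.Pl.ord_pow] at h6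
    rw [Cb.kap_chg L.fr j0, Pi.add_apply, dv_apply] at h5
    have h7 : ∑ j, (χ j / r : ℝ) * (((∑ i, if J i = j then (q : ℤ) else 0) - κv j : ℤ) : ℝ) =
        q * ∑ i, (χ (J i) / r : ℝ) - ∑ j, (χ j / r : ℝ) * κv j := by
      push_cast
      simp only [mul_sub, sum_sub_distrib, mul_sum]
      rw [sum_comm]
      congr 1
      exact sum_congr rfl fun i _ => by simp [mul_comm]
    rw [h7] at h6
    push_cast at h6
    refine le_of_mul_le_mul_left ?_ q0
    have h8 := mul_le_mul_of_nonneg_left h5 q0.le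
    have h9 := mul_le_mul_of_nonneg_left i1 q0.le
    have k3 : (q : ℝ) * (e * (r : ℝ)⁻¹ * ld y q h P) =
        q * (e * (r : ℝ)⁻¹ * (1 + kap y P)) - e * (r : ℝ)⁻¹ * P.ord h := by
      rw [ld]
      field_simp
    have k4 : (q : ℝ) * (a' - E / q + (∑ j, (χ j / r : ℝ) * κv j) / q) =
        q * a' - E + ∑ j, (χ j / r : ℝ) * κv j := by
      field_simp
    rw [k3, k4]
    linarith
  · have h6 := hc _ (lo j) (Pi.single j 1) (fun i => by
        by_cases k : i = j
        · subst k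
          simp only [Pi.single_eq_same, Int.cast_one, abs_one]
          linarith
        · simp only [Pi.single_eq_of_ne k, Int.cast_zero, abs_zero]
          linarith) (fun σ _ => by
        rw [prod_eq_single j (fun i _ hi => by simp [Pi.single_eq_of_ne hi]) (by simp)]
        simp [L.pt.ne j]) v hv (by
        have := le_abs_self a
        have := mul_nonneg q0.le (abs_nonneg a₂)
        linarith)
    rw [h4 _ (L.pt.ne j), WithTop.coe_inj,
      sum_eq_single j (fun i _ hi => by simp [Pi.single_eq_of_ne hi]) (by simp)] at h6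
    simpa using h6

end Vale.Agent.P283R.Tx
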