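import Vale.Agent.P283R.Be2.Rl
import Vale.Agent.P283R.Be2.Hh
import Vale.Agent.P283R.Co.Emb
import Vale.Agent.P283R.Co.Up

/-!
# From the levels to the limit for arcs on a hypersurface
-/

attribute [-instance] HahnSeries.powerSeriesAlgebra

open Filter MvPowerSeries Vale.Agent.P283R.Co P283R.U

noncomputable section

namespace Vale.Agent.P283R.Be2

theorem min_ord {a b : HS} {r : ℝ} (h : Ge r (a - b)) :
    min a.orderTop (r : WithTop ℝ) = min b.orderTop (r : WithTop ℝ) := by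
  have k : ∀ {a b : HS}, Ge r (a - b) → min b.orderTop (r : WithTop ℝ) ≤ a.orderTop :=
    fun {a b} h => by
      have := HahnSeries.min_orderTop_le_orderTop_add (x := b) (y := a - b)
      rw [add_sub_cancel] at this
      exact (min_le_min_left _ h).trans this
  exact le_antisymm (le_min (k (neg_sub a b ▸ h.neg)) (min_le_right _ _))
    (le_min (k h) (min_le_right _ _))

theorem ord_coe_sub {σ R : Type} [Finite σ] [CommRing R] (F : MvPowerSeries σ R) (n : ℕ) :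
    (n : ℕ∞) ≤ (((truncTotal n F : MvPolynomial σ R) : MvPowerSeries σ R) - F).order := by
  rw [← neg_sub, order_neg]
  exact order_sub_trunc F n

/-- an arc on a hypersurface is close to an arc on a close hypersurface -/
theorem near {τ : Type} [Fintype τ] [DecidableEq τ] (j₀ : τ) {x : τ → HS} {μ : ℝ} (hμ : 0 < μ)
    (hx : ∀ j, Ge μ (x j)) {P P' : MvPowerSeries τ ℂ} {k K : ℕ}
    (hP : ((K + 2 * k + 1 + 1 : ℕ) : ℕ∞) ≤ (P' - P).order) (h0 : ev x P = 0)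
    (hD : (ev x (pderiv ℂ j₀ P)).orderTop ≤ (k * μ : ℝ)) :
    ∃ x' : τ → HS, (∀ j, Ge μ (x' j)) ∧ (∀ j, j ≠ j₀ → x' j = x j) ∧ ev x' P' = 0 ∧
      (ev x' (pderiv ℂ j₀ P')).orderTop ≤ (k * μ : ℝ) ∧ ∀ F F' : MvPowerSeries τ ℂ,
        (K : ℕ∞) ≤ (F' - F).order → Ge (K * μ) (ev x' F' - ev x F) := by
  have px := pos_of_ge hμ hx
  obtain ⟨s, hs⟩ := WithTop.ne_top_iff_exists.1 (ne_top_of_le_ne_top WithTop.coe_ne_top hD)
  have s1 : s ≤ k * μ := by rwa [← hs, WithTop.coe_le_coe] at hD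
  have k0 : (0 : ℝ) ≤ k * μ := by positivity
  have K0 : (0 : ℝ) ≤ K * μ := by positivity
  have d1 : (ev x (pderiv ℂ j₀ P')).orderTop = s := Hh.ord_eq hs.symm
    (by rw [← ev_sub, ← map_sub]; exact ge_ev hμ hx (order_pderiv j₀ hP)) (by push_cast; linarith)
  have d2 := ge_ev hμ hx hP
  rw [ev_sub, h0, sub_zero] at d2
  obtain ⟨y, y1, y2⟩ := Hh.hen (M := (K + k + 2) * μ) px j₀ d1 (d2.mono (by push_cast; linarith))
    (by linarith)
  have g := Hh.ge_upd0 y1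
  have g' : ∀ j, Ge μ (Function.update x j₀ y j) := fun j => by
    have := ((g j).mono (s := μ) (by linarith)).add (hx j)
    rwa [sub_add_cancel] at this
  have p' := pos_of_ge hμ g'
  refine ⟨_, g', fun j hj => Function.update_of_ne hj _ _, y2, ?_, fun F F' hF => ?_⟩
  · rw [Hh.ord_eq d1 (Hh.lip px p' g _) (by linarith), WithTop.coe_le_coe]
    exact s1
  · have := (ge_ev hμ g' hF).add ((Hh.lip px p' g F).mono (by linarith))
    rwa [ev_sub, sub_add_sub_cancel] at this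

variable {N d : ℕ}

/-- the universal truncations of a finite family -/
theorem univ_fam (𝒰 : Ultrafilter ℕ) {α : Type} [Finite α]
    (f : α → ℕ → MvPowerSeries (Fin N) ℂ) (n : ℕ) :
    ∃ (A : Type) (_ : CommRing A) (_ : IsNoetherianRing A) (s : ℕ → A →+* ℂ)
      (F : α → MvPowerSeries (Fin N) A), Co.Gen 𝒰 s ∧
      (∀ a, map (gpt 𝒰 s) (F a) = (truncTotal n (ulim 𝒰 (f a)) : MvPolynomial _ _)) ∧
      ∀ᶠ i in (𝒰 : Filter ℕ), ∀ a,
        map (s i) (F a) = (truncTotal n (f a i) : MvPolynomial _ _) := by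
  classical
  have : Finite {m : Fin N →₀ ℕ | m.degree < n} :=
    ((Finsupp.finite_of_degree_le n).subset fun m (h : m.degree < n) => h.le).to_subtype
  obtain ⟨A, _, _, j, s, γ, gen, hs⟩ := Uf.fg (α := α × {m : Fin N →₀ ℕ | m.degree < n})
    (𝒰 : Filter ℕ) (fun _ => algebraMap ℚ ℂ) fun m i => coeff m.2.1 (f m.1 i)
  obtain ⟨F, hF⟩ : ∃ F : α → MvPowerSeries (Fin N) A, ∀ a m, coeff m (F a) =
      if h : m.degree < n then γ (a, ⟨m, h⟩) else 0 :=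
    ⟨fun a m => if h : m.degree < n then γ (a, ⟨m, h⟩) else 0, fun _ _ => rfl⟩
  refine ⟨A, inferInstance, inferInstance, s, F, gen, fun a => ?_, hs.mono fun i hi a => ?_⟩
  · ext m
    rw [coeff_map, MvPolynomial.coeff_coe, coeff_truncTotal_eq_ite, hF]
    split_ifs with h
    · exact (ucl_eq 𝒰).2 (hs.mono fun i hi => hi.2 (a, ⟨m, h⟩))
    · exact map_zero _
  · ext m
    rw [coeff_map, MvPolynomial.coeff_coe, coeff_truncTotal_eq_ite, hF]
    split_ifs with h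
    · exact hi.2 (a, ⟨m, h⟩)
    · exact map_zero _

theorem map_coe_trunc {A B : Type} [CommRing A] [CommRing B] (ρ : A →+* B)
    (F : MvPowerSeries (Fin N) A) (n : ℕ) :
    map ρ ((truncTotal n F : MvPolynomial _ _) : MvPowerSeries (Fin N) A) =
      (truncTotal n (map ρ F) : MvPolynomial _ _) := by
  ext m
  rw [coeff_map, MvPolynomial.coeff_coe, MvPolynomial.coeff_coe, coeff_truncTotal_eq_ite,
    coeff_truncTotal_eq_ite]
  split_ifs
  · rw [coeff_map]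
  · exact map_zero _

/-- **T-up on a hypersurface** -/
theorem upH0 (e : Fin N ≃ Option (Fin d)) (j₀ : Fin N) (T : Fin d → Fin N) (hT : ∀ i, T i ≠ j₀)
    (𝒰 : Ultrafilter ℕ) (ρ : UK 𝒰 →+* ℂ) {α : Type} [Fintype α]
    (P : ℕ → MvPowerSeries (Fin N) ℂ) (F : α → ℕ → MvPowerSeries (Fin N) ℂ)
    (x : ℕ → Fin N → HS) (μ : ℕ → ℝ) (k K : ℕ)
    (h : ∀ᶠ i in (𝒰 : Filter ℕ), 0 < μ i ∧ (∀ j, Ge (μ i) (x i j)) ∧ ev (x i) (P i) = 0 ∧
      (ev (x i) (pderiv ℂ j₀ (P i))).orderTop ≤ (k * μ i : ℝ)) :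
    ∀ᶠ i in (𝒰 : Filter ℕ), ∃ x' : Fin N → HS, (∀ j, Ge (μ i) (x' j)) ∧
      ev x' (map ρ (ulim 𝒰 P)) = 0 ∧
      (ev x' (pderiv ℂ j₀ (map ρ (ulim 𝒰 P)))).orderTop ≤ (k * μ i : ℝ) ∧
      (∀ a, min (ev x' (map ρ (ulim 𝒰 (F a)))).orderTop (K * μ i : ℝ) =
        min (ev (x i) (F a i)).orderTop (K * μ i : ℝ)) ∧
      ∀ l, (Jd l fun j => x' (T j)).orderTop = (Jd l fun j => x i (T j)).orderTop := by
  classical
  set n := K + 2 * k + 1 + 1 with hn
  have Kn : (K : ℕ∞) ≤ n := Nat.cast_le.2 (by omega)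
  have hz : ∀ i, ∃ z : Fin N → HS, Pos z ∧ ((0 < μ i ∧ (∀ j, Ge (μ i) (x i j)) ∧
      ev (x i) (P i) = 0 ∧ (ev (x i) (pderiv ℂ j₀ (P i))).orderTop ≤ (k * μ i : ℝ)) →
      (∀ j, Ge (μ i) (z j)) ∧ (∀ j, j ≠ j₀ → z j = x i j) ∧
      ev z (truncTotal n (P i) : MvPolynomial _ _) = 0 ∧
      (ev z (pderiv ℂ j₀ ((truncTotal n (P i) : MvPolynomial _ _) :
        MvPowerSeries (Fin N) ℂ))).orderTop ≤ (k * μ i : ℝ) ∧ ∀ F F' : MvPowerSeries (Fin N) ℂ,
        (K : ℕ∞) ≤ (F' - F).order → Ge (K * μ i) (ev z F' - ev (x i) F)) := fun i => by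
    by_cases c : 0 < μ i ∧ (∀ j, Ge (μ i) (x i j)) ∧ ev (x i) (P i) = 0 ∧
      (ev (x i) (pderiv ℂ j₀ (P i))).orderTop ≤ (k * μ i : ℝ)
    · obtain ⟨z, hz⟩ := near j₀ c.1 c.2.1 (ord_coe_sub (P i) n) c.2.2.1 c.2.2.2
      exact ⟨z, pos_of_ge c.1 hz.1, fun _ => hz⟩
    · exact ⟨0, fun j => by simp, fun c' => absurd c' c⟩
  choose z pz hz using hz
  obtain ⟨A, _, _, s, U, gen, u1, u2⟩ := univ_fam 𝒰 (fun o : Option α => o.elim P F) n
  let S : Stage ℂ 𝒰 (Fin N) := ⟨A, s, z, gen, pz⟩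
  have hz' := h.mono hz
  have U0 : U none ≠ 0 := fun c => by
    obtain ⟨i, a1, a2⟩ := (hz'.and u2).exists
    have a3 := a1.2.2.2.1
    have a4 := a2 none
    rw [c, map_zero] at a4
    rw [show ((truncTotal n (P i) : MvPolynomial _ _) : MvPowerSeries (Fin N) ℂ) = 0 from a4.symm,
      map_zero, ev_zero, HahnSeries.orderTop_zero] at a3
    exact WithTop.not_top_le_coe _ a3
  obtain ⟨W, c, c0, c1, c2⟩ := ruh e S (U none) U0 ((hz'.and u2).mono fun i hi => by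
    exact (congrArg (ev (z i)) (hi.2 none)).trans hi.1.2.2.1)
    (Sum.elim (fun o : Option α => o.elim (pderiv A j₀ (U none)) fun a => U (some a)) X)
    fun _ : Unit => fun j => X (T j)
  let t : W.A →+* ℂ := ρ.comp (gpt 𝒰 W.s)
  have et : t.comp c.ρ = ρ.comp (gpt 𝒰 s) := RingHom.ext fun a => congrArg ρ
    ((ucl_eq 𝒰).2 (c.rel.mono fun i hi => RingHom.congr_fun hi.1 a))
  have eu : ∀ o, map (t.comp c.ρ) (U o) =
      (truncTotal n (map ρ (ulim 𝒰 (o.elim P F))) : MvPolynomial _ _) := fun o => by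
    rw [et, map_comp, RingHom.comp_apply, u1, map_coe_trunc]
  filter_upwards [h, hz', u2, c.rel] with i hi ⟨z1, z2, _, z4, z5⟩ v ⟨_, r⟩
  let w : Fin N → HS := fun j => ev (W.x i) (map t (c.Φ (X j)))
  have ew : ∀ G, ev w (map (t.comp c.ρ) G) = ev (W.x i) (map t (c.Φ G)) := fun G =>
    (ev_loc c.loc (W.pos i) t G).symm
  have ez : ∀ j, z i j = ev (W.x i) (map (W.s i) (c.Φ (X j))) := fun j => by
    rw [← r, map_X]
    exact (ev_X (pz i) j).symm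
  have eo : ∀ G, ZM (c.Φ G) → (ev w (map (t.comp c.ρ) G)).orderTop =
      (ev (z i) (map (s i) G)).orderTop := fun G g => by
    rw [ew]
    exact (g.ord_eq t (W.s i) (W.pos i)).trans (congrArg _ (r G).symm)
  have w1 : ∀ j, Ge (μ i) (w j) := fun j => (z1 j).trans_eq (by
    rw [ez]
    exact (c1 (.inr j)).ord_eq _ _ (W.pos i))
  obtain ⟨x', b1, b2, b3, b4, b5⟩ := near j₀ (k := k) (K := K) hi.1 w1
    (P := map (t.comp c.ρ) (U none)) (P' := map ρ (ulim 𝒰 P))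
    (by rw [eu]; exact order_sub_trunc _ n) (by rw [ew, c0, map_zero, ev_zero])
    (by
      rw [← map_pderiv, eo (pderiv S.A j₀ (U none)) (c1 (.inl none)), map_pderiv, v]
      exact z4)
  refine ⟨x', b1, b3, b4, fun a => ?_, fun l => ?_⟩
  · rw [min_ord (b5 (map (t.comp c.ρ) (U (some a))) _
      (by rw [eu]; exact Kn.trans (order_sub_trunc _ n))), eo (U (some a)) (c1 (.inl (some a))), v]
    exact min_ord (z5 _ _ (Kn.trans (ord_coe_sub _ n)))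
  · rw [show (fun j => x' (T j)) = fun j => ev (W.x i) (map t (c.Φ (X (T j)))) from
      funext fun j => b2 _ (hT j), show (fun j => x i (T j)) = fun j =>
        ev (W.x i) (map (W.s i) (c.Φ (X (T j)))) from
      funext fun j => (z2 _ (hT j)).symm.trans (ez _), Jd, Jd, jd_ev t (W.pos i),
      jd_ev (W.s i) (W.pos i), HahnSeries.orderTop_mul, HahnSeries.orderTop_mul,
      (c2 ()).ord_eq t (W.s i) (W.pos i)]

theorem ulim_map (𝒰 : Ultrafilter ℕ) (s : ℕ → ℂ →+* ℂ) : ∃ τ : UK 𝒰 →+* UK 𝒰,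
    ∀ f : ℕ → MvPowerSeries (Fin N) ℂ, ulim 𝒰 (fun i => map (s i) (f i)) = map τ (ulim 𝒰 f) := by
  obtain ⟨τ, hτ⟩ := up_germ 𝒰 s
  exact ⟨τ, fun f => MvPowerSeries.ext fun m => (hτ fun i => coeff m (f i)).symm⟩

/-- **T-up on a hypersurface**, arcs over arbitrary points of the constants -/
theorem upH (e : Fin N ≃ Option (Fin d)) (j₀ : Fin N) (T : Fin d → Fin N) (hT : ∀ i, T i ≠ j₀)
    (𝒰 : Ultrafilter ℕ) {α : Type} [Fintype α]
    (P : ℕ → MvPowerSeries (Fin N) ℂ) (F : α → ℕ → MvPowerSeries (Fin N) ℂ) (s : ℕ → ℂ →+* ℂ)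
    (x : ℕ → Fin N → HS) (μ : ℕ → ℝ) (k K : ℕ)
    (h : ∀ᶠ i in (𝒰 : Filter ℕ), 0 < μ i ∧ (∀ j, Ge (μ i) (x i j)) ∧
      ev (x i) (map (s i) (P i)) = 0 ∧
      (ev (x i) (map (s i) (pderiv ℂ j₀ (P i)))).orderTop ≤ (k * μ i : ℝ)) :
    ∃ ρ : UK 𝒰 →+* ℂ, ∀ᶠ i in (𝒰 : Filter ℕ), ∃ x' : Fin N → HS, (∀ j, Ge (μ i) (x' j)) ∧
      ev x' (map ρ (ulim 𝒰 P)) = 0 ∧
      (ev x' (map ρ (pderiv (UK 𝒰) j₀ (ulim 𝒰 P)))).orderTop ≤ (k * μ i : ℝ) ∧
      (∀ a, min (ev x' (map ρ (ulim 𝒰 (F a)))).orderTop (K * μ i : ℝ) =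
        min (ev (x i) (map (s i) (F a i))).orderTop (K * μ i : ℝ)) ∧
      ∀ l, (Jd l fun j => x' (T j)).orderTop = (Jd l fun j => x i (T j)).orderTop := by
  obtain ⟨ρ⟩ := emb 𝒰
  obtain ⟨τ, hτ⟩ := ulim_map (N := N) 𝒰 s
  have := upH0 e j₀ T hT 𝒰 ρ (fun i => map (s i) (P i)) (fun a i => map (s i) (F a i)) x μ k K
    (by simpa only [map_pderiv] using h)
  refine ⟨ρ.comp τ, ?_⟩
  simpa only [hτ, map_pderiv, map_comp, RingHom.comp_apply] using this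

end Vale.Agent.P283R.Be2
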